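import Mathlib.Analysis.Complex.PhragmenLindelof
import Mathlib.Analysis.Complex.RemovableSingularity
import Mathlib.Analysis.SpecialFunctions.Pow.Real
import Mathlib.Analysis.MeanInequalities
import Mathlib.Tactic

/-!
# P249: complex interpolation for the gradient projection
-/

set_option linter.all false

open Filter Topology Set
open scoped BigOperators

namespace Vale.Agent.P249.H75

/-- Three lines lemma on `1/2 ≤ Re z ≤ 1` for a function with a zero at `z₀`. -/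
theorem strip_zero {φ : ℂ → ℂ} (hφ : Differentiable ℂ φ) {B : ℝ}
    (hB : ∀ z : ℂ, 1 / 2 ≤ z.re → z.re ≤ 1 → ‖φ z‖ ≤ B) {z₀ : ℝ} (hz : φ z₀ = 0)
    {M m : ℝ} (hM : 0 ≤ M) (hm : 0 < m) (hm1 : m ≤ z₀ - 1 / 2) (hm2 : m ≤ 1 - z₀)
    (hM1 : ∀ z : ℂ, z.re = 1 / 2 → ‖φ z‖ ≤ M) (hM2 : ∀ z : ℂ, z.re = 1 → ‖φ z‖ ≤ M)
    {z : ℂ} (hz1 : 1 / 2 ≤ z.re) (hz2 : z.re ≤ 1) : ‖φ z‖ ≤ M / m * ‖z - z₀‖ := by
  have hd : Differentiable ℂ (dslope φ (z₀ : ℂ)) := by
    rw [← differentiableOn_univ]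
    exact (Complex.differentiableOn_dslope univ_mem).2 hφ.differentiableOn
  have hne : ∀ w : ℂ, w ≠ z₀ → ‖dslope φ (z₀ : ℂ) w‖ = ‖φ w‖ / ‖w - z₀‖ := by
    intro w hw
    rw [dslope_of_ne _ hw, slope_def_field, hz, sub_zero, norm_div]
  have hline : ∀ w : ℂ, m ≤ |w.re - z₀| → ‖φ w‖ ≤ M → ‖dslope φ (z₀ : ℂ) w‖ ≤ M / m := by
    intro w h1 h2
    have h3 : m ≤ ‖w - z₀‖ := by
      refine h1.trans ?_
      have := Complex.abs_re_le_norm (w - z₀)
      simpa using this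
    have h4 : w ≠ z₀ := by
      intro h
      rw [h, sub_self, norm_zero] at h3
      linarith
    rw [hne w h4]
    exact div_le_div₀ hM h2 hm h3
  have key : ‖dslope φ (z₀ : ℂ) z‖ ≤ M / m := by
    refine PhragmenLindelof.vertical_strip (a := 1 / 2) (b := 1) hd.diffContOnCl
      ⟨0, by norm_num; positivity, 0, ?_⟩ ?_ ?_ hz1 hz2
    · refine Asymptotics.IsBigO.of_bound B ?_
      have h1 : ∀ᶠ w : ℂ in comap (_root_.abs ∘ Complex.im) atTop, 1 ≤ |w.im| :=
        tendsto_comap.eventually (eventually_ge_atTop (1 : ℝ))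
      rw [eventually_inf_principal]
      filter_upwards [h1] with w hw hwre
      have h2 : 1 ≤ ‖w - z₀‖ := by
        refine hw.trans ?_
        have := Complex.abs_im_le_norm (w - z₀)
        simpa using this
      have h4 : w ≠ z₀ := by
        intro h
        rw [h, sub_self, norm_zero] at h2
        linarith
      rw [hne w h4]
      have h5 := hB w hwre.1.le hwre.2.le
      have h6 : 0 ≤ B := (norm_nonneg _).trans h5
      simp only [zero_mul, Real.exp_zero, norm_one, mul_one]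
      rw [div_le_iff₀ (by linarith)]
      nlinarith
    · intro w hw
      refine hline w ?_ (hM1 w hw)
      rw [hw, abs_sub_comm]
      exact hm1.trans (le_abs_self _)
    · intro w hw
      refine hline w ?_ (hM2 w hw)
      rw [hw]
      exact hm2.trans (le_abs_self _)
  rcases eq_or_ne z (z₀ : ℂ) with h | h
  · rw [h, hz, sub_self, norm_zero, mul_zero]
  · rw [hne z h] at key
    have h5 : 0 < ‖z - z₀‖ := norm_pos_iff.2 (sub_ne_zero.2 h)
    rwa [div_le_iff₀ h5] at key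

/-- the analytic power `sgn v * N * (|v| / N) ^ s` -/
noncomputable def cp (N v : ℝ) (s : ℂ) : ℂ :=
  ((SignType.sign v : ℝ) : ℂ) * N * Complex.exp (s * Real.log (|v| / N))

theorem cp_zero (N : ℝ) (s : ℂ) : cp N 0 s = 0 := by simp [cp]

theorem cp_diff (N v : ℝ) (a b : ℂ) : Differentiable ℂ fun z : ℂ => cp N v (a * z + b) := by
  unfold cp
  fun_prop

theorem norm_cp {N v : ℝ} (hN : 0 ≤ N) (hv : v ≠ 0) (s : ℂ) :
    ‖cp N v s‖ = N * Real.exp (s.re * Real.log (|v| / N)) := by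
  unfold cp
  have h1 : ‖((SignType.sign v : ℝ) : ℂ)‖ = 1 := by
    rcases lt_or_gt_of_ne hv with h | h
    · simp [h]
    · simp [h]
  rw [norm_mul, norm_mul, h1, one_mul, Complex.norm_exp, Complex.norm_real,
    Real.norm_of_nonneg hN]
  congr 2
  rw [Complex.re_mul_ofReal]

theorem norm_cp' {N v : ℝ} (hN : 0 < N) (hv : v ≠ 0) (s : ℂ) :
    ‖cp N v s‖ = N * (|v| / N) ^ s.re := by
  rw [norm_cp hN.le hv, Real.rpow_def_of_pos (div_pos (abs_pos.2 hv) hN), mul_comm s.re]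

/-- on real exponents -/
theorem cp_real {N v : ℝ} (hN : 0 < N) (hv : v ≠ 0) (s : ℝ) :
    cp N v s = (((SignType.sign v : ℝ) * N * (|v| / N) ^ s : ℝ) : ℂ) := by
  unfold cp
  rw [Real.rpow_def_of_pos (div_pos (abs_pos.2 hv) hN)]
  push_cast
  rw [mul_comm (s : ℂ)]

section sums

variable {ι : Type*} [Fintype ι] {P N : ℝ} {v : ι → ℝ}

theorem eq_zero_of_sum (hP : 0 < P) (h : ∑ i, |v i| ^ P = N ^ P) (hN : N = 0) (i : ι) : v i = 0 := by
  subst hN
  rw [Real.zero_rpow hP.ne'] at h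
  have h1 := (Finset.sum_eq_zero_iff_of_nonneg fun i _ => Real.rpow_nonneg (abs_nonneg (v i)) P).1 h i
    (Finset.mem_univ i)
  rw [Real.rpow_eq_zero_iff_of_nonneg (abs_nonneg _)] at h1
  exact abs_eq_zero.1 h1.1

theorem abs_le_of_sum (hP : 0 < P) (hN : 0 ≤ N) (h : ∑ i, |v i| ^ P = N ^ P) (i : ι) :
    |v i| ≤ N := by
  rw [← Real.rpow_le_rpow_iff (abs_nonneg _) hN hP, ← h]
  exact Finset.single_le_sum (f := fun i => |v i| ^ P)
    (fun i _ => Real.rpow_nonneg (abs_nonneg _) _) (Finset.mem_univ i)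

theorem sum_cp_one (hP : 0 < P) (hN : 0 ≤ N) (h : ∑ i, |v i| ^ P = N ^ P) {s : ℂ}
    (hs : s.re = P) : ∑ i, ‖cp N (v i) s‖ ≤ N := by
  rcases hN.eq_or_lt with h0 | h0
  · have hz := eq_zero_of_sum hP h h0.symm
    simp [hz, cp_zero, ← h0]
  have h1 : ∀ i, ‖cp N (v i) s‖ = N * (|v i| / N) ^ P := by
    intro i
    rcases eq_or_ne (v i) 0 with hv | hv
    · rw [hv, cp_zero, norm_zero, abs_zero, zero_div, Real.zero_rpow hP.ne', mul_zero]
    · rw [norm_cp' h0 hv, hs]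
  simp_rw [h1]
  rw [← Finset.mul_sum]
  have h2 : ∑ i, (|v i| / N) ^ P = 1 := by
    simp_rw [Real.div_rpow (abs_nonneg _) hN]
    rw [← Finset.sum_div, h, div_self (Real.rpow_pos_of_pos h0 _).ne']
  rw [h2, mul_one]

theorem sum_cp_sq (hP : 0 < P) (hN : 0 ≤ N) (h : ∑ i, |v i| ^ P = N ^ P) {s : ℂ}
    (hs : 2 * s.re = P) : ∑ i, ‖cp N (v i) s‖ ^ 2 ≤ N ^ 2 := by
  rcases hN.eq_or_lt with h0 | h0
  · have hz := eq_zero_of_sum hP h h0.symm
    simp [hz, cp_zero, ← h0]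
  have h1 : ∀ i, ‖cp N (v i) s‖ ^ 2 = N ^ 2 * (|v i| / N) ^ P := by
    intro i
    rcases eq_or_ne (v i) 0 with hv | hv
    · rw [hv, cp_zero, norm_zero, abs_zero, zero_div, Real.zero_rpow hP.ne', mul_zero]
      norm_num
    · rw [norm_cp' h0 hv, mul_pow, ← Real.rpow_natCast (( |v i| / N) ^ s.re), ← Real.rpow_mul
        (by positivity)]
      congr 2
      rw [← hs]; push_cast; ring
  simp_rw [h1]
  rw [← Finset.mul_sum]
  have h2 : ∑ i, (|v i| / N) ^ P = 1 := by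
    simp_rw [Real.div_rpow (abs_nonneg _) hN]
    rw [← Finset.sum_div, h, div_self (Real.rpow_pos_of_pos h0 _).ne']
  rw [h2, mul_one]

theorem norm_cp_le_of_nonneg (hP : 0 < P) (hN : 0 ≤ N) (h : ∑ i, |v i| ^ P = N ^ P) {s : ℂ}
    (hs : 0 ≤ s.re) (i : ι) : ‖cp N (v i) s‖ ≤ N := by
  rcases hN.eq_or_lt with h0 | h0
  · rw [eq_zero_of_sum hP h h0.symm i, cp_zero, norm_zero]
    exact hN
  rcases eq_or_ne (v i) 0 with hv | hv
  · rw [hv, cp_zero, norm_zero]
    exact hN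
  rw [norm_cp' h0 hv]
  have h1 : |v i| / N ≤ 1 := by
    rw [div_le_one h0]
    exact abs_le_of_sum hP hN h i
  have h2 : (|v i| / N) ^ s.re ≤ 1 := Real.rpow_le_one (by positivity) h1 hs
  nlinarith

end sums


theorem cp_one {N v : ℝ} (h : v ≠ 0 → 0 < N) : cp N v 1 = v := by
  rcases eq_or_ne v 0 with hv | hv
  · rw [hv, cp_zero, Complex.ofReal_zero]
  have h1 := cp_real (h hv) hv 1
  rw [Complex.ofReal_one] at h1
  rw [h1, Real.rpow_one]
  congr 1
  have := (h hv).ne'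
  field_simp
  exact sign_mul_abs v

theorem interp_bound {a b c : ℝ} : (a + b) ^ 2 ≤ 2 * a ^ 2 + 2 * b ^ 2 := by nlinarith [sq_nonneg (a - b)]

theorem cplx_contr {E : Type*} [Fintype E] (w : E → ℝ) (K : E → E → ℝ)
    (hc : ∀ g : E → ℝ, ∑ e, w e * (∑ e', K e e' * g e') ^ 2 ≤ ∑ e, w e * g e ^ 2) (g : E → ℂ) :
    ∑ e, w e * ‖∑ e', (K e e' : ℂ) * g e'‖ ^ 2 ≤ ∑ e, w e * ‖g e‖ ^ 2 := by
  have h1 := hc fun e => (g e).re
  have h2 := hc fun e => (g e).im
  have h3 : ∀ z : ℂ, ‖z‖ ^ 2 = z.re ^ 2 + z.im ^ 2 := fun z => by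
    rw [← Complex.normSq_eq_norm_sq, Complex.normSq_apply]; ring
  simp_rw [h3, mul_add, Finset.sum_add_distrib, Complex.re_sum, Complex.im_sum,
    Complex.re_ofReal_mul, Complex.im_ofReal_mul]
  linarith

theorem interp {E ι : Type*} [Fintype E] [Fintype ι] {p q A : ℝ} (hp1 : 1 < p) (hp2 : p < 2)
    (hpq : p ≤ q) (hq2 : q ≤ 2) (hA : 1 ≤ A) (w : E → ℝ) (hw : ∀ e, 0 ≤ w e) (K : E → E → ℝ)
    (hc : ∀ g : E → ℝ, ∑ e, w e * (∑ e', K e e' * g e') ^ 2 ≤ ∑ e, w e * g e ^ 2)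
    (hm : ∀ g : E → ℝ, (∀ e, 0 ≤ g e) →
      ∑ e, w e * (∑ e', |K e e'| * g e') ^ 2 ≤ A ^ 2 * ∑ e, w e * g e ^ 2)
    (f : E → ι → ℝ) (hf : ∀ e i, ∑ e', K e e' * f e' i = f e i)
    (d : E → ℝ) (hd0 : ∀ e, 0 ≤ d e) (hfd : ∀ e, ∑ i, |f e i| ^ p = d e ^ p)
    (g : E → ι → ℝ)
    (hg : ∀ e i, g e i = (SignType.sign (f e i) : ℝ) * d e * (|f e i| / d e) ^ (p / q))
    (h : E → ι → ℝ) (hh : ∀ e i, h e i = g e i - ∑ e', K e e' * g e' i)
    (N : E → ℝ) (hN0 : ∀ e, 0 ≤ N e) (hN : ∀ e, ∑ i, |h e i| ^ q = N e ^ q) :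
    √(∑ e, w e * N e ^ 2) ≤ 2 / min (1 / p - 1 / 2) (1 - 1 / p) * (1 / p - 1 / q) *
      A ^ (2 / p - 1) * √(∑ e, w e * d e ^ 2) := by
  classical
  have hp0 : 0 < p := by linarith
  have hq0 : 0 < q := by linarith
  set D := ∑ e, w e * d e ^ 2 with hD
  set S := ∑ e, w e * N e ^ 2 with hS
  have hD0 : 0 ≤ D := Finset.sum_nonneg fun e _ => mul_nonneg (hw e) (sq_nonneg _)
  have hS0 : 0 ≤ S := Finset.sum_nonneg fun e _ => mul_nonneg (hw e) (sq_nonneg _)
  have hA0 : 0 < A := by linarith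
  have hlA : 0 ≤ Real.log A := Real.log_nonneg hA
  set Ψ : ℂ → E → ι → ℂ := fun z e i => cp (d e) (f e i) (p * z) with hΨ
  set G : ℂ → E → ι → ℂ := fun z e i => cp (N e) (h e i) (q * (1 - z)) with hG
  set U : ℂ → E → ι → ℂ := fun z e i => Ψ z e i - ∑ e', (K e e' : ℂ) * Ψ z e' i with hU
  set φ : ℂ → ℂ := fun z => ∑ e, (w e : ℂ) * ∑ i, U z e i * G z e i with hφ
  have hΨd : ∀ e i, Differentiable ℂ fun z => Ψ z e i := fun e i => by
    have := cp_diff (d e) (f e i) p 0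
    simpa using this
  have hGd : ∀ e i, Differentiable ℂ fun z => G z e i := fun e i => by
    have h1 := cp_diff (N e) (h e i) (-q) q
    have h2 : (fun z => G z e i) = fun z => cp (N e) (h e i) (-(q : ℂ) * z + q) := by
      funext z
      simp only [hG]
      congr 1
      ring
    rw [h2]
    simpa using h1
  have hφd : Differentiable ℂ φ := by
    simp only [hφ, hU]
    fun_prop
  -- pointwise bounds
  have hfpos : ∀ e i, f e i ≠ 0 → 0 < d e := by
    intro e i hne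
    rcases (hd0 e).eq_or_lt with h0 | h0
    · exact absurd (eq_zero_of_sum hp0 (hfd e) h0.symm i) hne
    · exact h0
  have hhpos : ∀ e i, h e i ≠ 0 → 0 < N e := by
    intro e i hne
    rcases (hN0 e).eq_or_lt with h0 | h0
    · exact absurd (eq_zero_of_sum hq0 (hN e) h0.symm i) hne
    · exact h0
  -- zero at 1/p
  have hz0 : φ ((1 / p : ℝ) : ℂ) = 0 := by
    have h1 : ∀ e i, Ψ ((1 / p : ℝ) : ℂ) e i = f e i := by
      intro e i
      simp only [hΨ]
      have : (p : ℂ) * ((1 / p : ℝ) : ℂ) = 1 := by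
        rw [← Complex.ofReal_mul, mul_one_div_cancel hp0.ne', Complex.ofReal_one]
      rw [this]
      exact cp_one (hfpos e i)
    have h2 : ∀ e i, U ((1 / p : ℝ) : ℂ) e i = 0 := by
      intro e i
      simp only [hU, h1]
      rw [← hf e i]
      push_cast
      exact sub_self _
    simp only [hφ, h2, zero_mul, Finset.sum_const_zero, mul_zero]
  -- value at 1/q
  have hzq : φ ((1 / q : ℝ) : ℂ) = (S : ℂ) := by
    have h1 : ∀ e i, Ψ ((1 / q : ℝ) : ℂ) e i = g e i := by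
      intro e i
      simp only [hΨ]
      rcases eq_or_ne (f e i) 0 with hv | hv
      · rw [hg, hv, cp_zero]; simp
      have : (p : ℂ) * ((1 / q : ℝ) : ℂ) = ((p / q : ℝ) : ℂ) := by push_cast; ring
      rw [this, cp_real (hfpos e i hv) hv, hg]
    have h2 : ∀ e i, U ((1 / q : ℝ) : ℂ) e i = h e i := by
      intro e i
      simp only [hU, h1]
      rw [hh e i]
      push_cast
      rfl
    have h3 : ∀ e i, (h e i : ℂ) * G ((1 / q : ℝ) : ℂ) e i =
        ((N e ^ 2 * (|h e i| / N e) ^ q : ℝ) : ℂ) := by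
      intro e i
      rcases eq_or_ne (h e i) 0 with hv | hv
      · rw [hv, Complex.ofReal_zero, zero_mul, abs_zero, zero_div, Real.zero_rpow hq0.ne',
          mul_zero, Complex.ofReal_zero]
      have hNp := hhpos e i hv
      simp only [hG]
      have : (q : ℂ) * (1 - ((1 / q : ℝ) : ℂ)) = ((q - 1 : ℝ) : ℂ) := by
        rw [← Complex.ofReal_one, ← Complex.ofReal_sub, ← Complex.ofReal_mul]
        congr 1
        field_simp
      rw [this, cp_real hNp hv, ← Complex.ofReal_mul]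
      congr 1
      have h4 : (|h e i| / N e) ^ q = (|h e i| / N e) ^ (q - 1) * (|h e i| / N e) := by
        rw [← Real.rpow_add_one (div_pos (abs_pos.2 hv) hNp).ne', sub_add_cancel]
      rw [h4]
      have h5 : h e i * (SignType.sign (h e i) : ℝ) = |h e i| := by
        rw [mul_comm]; exact sign_mul_self (h e i)
      calc h e i * ((SignType.sign (h e i) : ℝ) * N e * (|h e i| / N e) ^ (q - 1))
          = (h e i * (SignType.sign (h e i) : ℝ)) * N e * (|h e i| / N e) ^ (q - 1) := by ring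
        _ = N e ^ 2 * ((|h e i| / N e) ^ (q - 1) * (|h e i| / N e)) := by
          rw [h5]; field_simp
    simp only [hφ, h2, h3]
    rw [hS]
    push_cast
    refine Finset.sum_congr rfl fun e _ => ?_
    congr 1
    rcases (hN0 e).eq_or_lt with h0 | h0
    · simp [← h0]
    have h6 : ∑ i, N e ^ 2 * (|h e i| / N e) ^ q = N e ^ 2 := by
      rw [← Finset.mul_sum]
      have h2 : ∑ i, (|h e i| / N e) ^ q = 1 := by
        simp_rw [Real.div_rpow (abs_nonneg _) h0.le]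
        rw [← Finset.sum_div, hN e, div_self (Real.rpow_pos_of_pos h0 _).ne']
      rw [h2, mul_one]
    have h7 := congrArg (fun t : ℝ => (t : ℂ)) h6
    push_cast at h7
    exact h7
  have hre1 : ∀ z : ℂ, ((p : ℂ) * z).re = p * z.re := fun z => Complex.re_ofReal_mul _ _
  have hre2 : ∀ z : ℂ, ((q : ℂ) * (1 - z)).re = q * (1 - z.re) := fun z => by
    rw [Complex.re_ofReal_mul]; simp
  -- crude bound
  have hcrude : ∀ z : ℂ, 1 / 2 ≤ z.re → z.re ≤ 1 →
      ‖φ z‖ ≤ ∑ e, w e * ∑ _i : ι, (d e + ∑ e', |K e e'| * d e') * N e := by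
    intro z h1 h2
    simp only [hφ]
    refine (norm_sum_le _ _).trans (Finset.sum_le_sum fun e _ => ?_)
    rw [norm_mul, Complex.norm_real, Real.norm_of_nonneg (hw e)]
    refine mul_le_mul_of_nonneg_left ?_ (hw e)
    refine (norm_sum_le _ _).trans (Finset.sum_le_sum fun i _ => ?_)
    rw [norm_mul]
    have hs1 : 0 ≤ ((p : ℂ) * z).re := by rw [hre1]; nlinarith
    have hs2 : 0 ≤ ((q : ℂ) * (1 - z)).re := by rw [hre2]; nlinarith
    have h3 : ‖U z e i‖ ≤ d e + ∑ e', |K e e'| * d e' := by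
      simp only [hU]
      refine (norm_sub_le _ _).trans (add_le_add ?_ ?_)
      · exact norm_cp_le_of_nonneg hp0 (hd0 e) (hfd e) hs1 i
      · refine (norm_sum_le _ _).trans (Finset.sum_le_sum fun e' _ => ?_)
        rw [norm_mul, Complex.norm_real, Real.norm_eq_abs]
        exact mul_le_mul_of_nonneg_left (norm_cp_le_of_nonneg hp0 (hd0 e') (hfd e') hs1 i)
          (abs_nonneg _)
    have h4 : ‖G z e i‖ ≤ N e := norm_cp_le_of_nonneg hq0 (hN0 e) (hN e) hs2 i
    exact mul_le_mul h3 h4 (norm_nonneg _) (h3.trans' (norm_nonneg _))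
  -- the line `Re z = 1/2`
  have hline1 : ∀ z : ℂ, z.re = 1 / 2 → ‖φ z‖ ≤ 2 * (√D * √S) := by
    intro z hz
    have h1 : ‖φ z‖ ≤ ∑ x : E × ι, (√(w x.1) * ‖U z x.1 x.2‖) * (√(w x.1) * ‖G z x.1 x.2‖) := by
      rw [Fintype.sum_prod_type]
      simp only [hφ]
      refine (norm_sum_le _ _).trans (Finset.sum_le_sum fun e _ => ?_)
      rw [norm_mul, Complex.norm_real, Real.norm_of_nonneg (hw e)]
      refine (mul_le_mul_of_nonneg_left (norm_sum_le _ _) (hw e)).trans (le_of_eq ?_)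
      rw [Finset.mul_sum]
      refine Finset.sum_congr rfl fun i _ => ?_
      rw [norm_mul]
      have := Real.mul_self_sqrt (hw e)
      calc w e * (‖U z e i‖ * ‖G z e i‖) = (√(w e) * √(w e)) * (‖U z e i‖ * ‖G z e i‖) := by
            rw [this]
        _ = _ := by ring
    have h2 := Real.sum_mul_le_sqrt_mul_sqrt (Finset.univ : Finset (E × ι))
      (fun x => √(w x.1) * ‖U z x.1 x.2‖) (fun x => √(w x.1) * ‖G z x.1 x.2‖)
    have h3 : ∑ x : E × ι, (√(w x.1) * ‖G z x.1 x.2‖) ^ 2 ≤ S := by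
      rw [Fintype.sum_prod_type, hS]
      refine Finset.sum_le_sum fun e _ => ?_
      simp_rw [mul_pow, Real.sq_sqrt (hw e)]
      rw [← Finset.mul_sum]
      refine mul_le_mul_of_nonneg_left ?_ (hw e)
      refine sum_cp_sq hq0 (hN0 e) (hN e) ?_
      rw [hre2, hz]; ring
    have hPs : ∑ e, w e * ∑ i, ‖Ψ z e i‖ ^ 2 ≤ D := by
      rw [hD]
      refine Finset.sum_le_sum fun e _ => mul_le_mul_of_nonneg_left ?_ (hw e)
      refine sum_cp_sq hp0 (hd0 e) (hfd e) ?_
      rw [hre1, hz]; ring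
    have h4 : ∑ x : E × ι, (√(w x.1) * ‖U z x.1 x.2‖) ^ 2 ≤ 4 * D := by
      rw [Fintype.sum_prod_type]
      have h5 : ∀ e i, (√(w e) * ‖U z e i‖) ^ 2 ≤ 2 * (w e * ‖Ψ z e i‖ ^ 2) +
          2 * (w e * ‖∑ e', (K e e' : ℂ) * Ψ z e' i‖ ^ 2) := by
        intro e i
        rw [mul_pow, Real.sq_sqrt (hw e)]
        have h6 : ‖U z e i‖ ≤ ‖Ψ z e i‖ + ‖∑ e', (K e e' : ℂ) * Ψ z e' i‖ := norm_sub_le _ _
        have h7 : ‖U z e i‖ ^ 2 ≤ 2 * ‖Ψ z e i‖ ^ 2 + 2 * ‖∑ e', (K e e' : ℂ) * Ψ z e' i‖ ^ 2 := by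
          refine (pow_le_pow_left₀ (norm_nonneg _) h6 2).trans ?_
          nlinarith [sq_nonneg (‖Ψ z e i‖ - ‖∑ e', (K e e' : ℂ) * Ψ z e' i‖)]
        nlinarith [mul_le_mul_of_nonneg_left h7 (hw e)]
      calc ∑ e, ∑ i, (√(w e) * ‖U z e i‖) ^ 2
          ≤ ∑ e, ∑ i, (2 * (w e * ‖Ψ z e i‖ ^ 2) +
            2 * (w e * ‖∑ e', (K e e' : ℂ) * Ψ z e' i‖ ^ 2)) :=
            Finset.sum_le_sum fun e _ => Finset.sum_le_sum fun i _ => h5 e i
        _ = 2 * ∑ e, w e * ∑ i, ‖Ψ z e i‖ ^ 2 +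
            2 * ∑ i, ∑ e, w e * ‖∑ e', (K e e' : ℂ) * Ψ z e' i‖ ^ 2 := by
            simp_rw [Finset.sum_add_distrib]
            rw [Finset.sum_comm (f := fun e i => 2 * (w e * ‖∑ e', (K e e' : ℂ) * Ψ z e' i‖ ^ 2))]
            simp_rw [Finset.mul_sum]
        _ ≤ 2 * ∑ e, w e * ∑ i, ‖Ψ z e i‖ ^ 2 +
            2 * ∑ i, ∑ e, w e * ‖Ψ z e i‖ ^ 2 := by
            refine add_le_add le_rfl (mul_le_mul_of_nonneg_left
              (Finset.sum_le_sum fun i _ => ?_) (by norm_num))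
            exact cplx_contr w K hc fun e => Ψ z e i
        _ = 4 * ∑ e, w e * ∑ i, ‖Ψ z e i‖ ^ 2 := by
            rw [Finset.sum_comm (f := fun i e => w e * ‖Ψ z e i‖ ^ 2)]
            simp_rw [← Finset.mul_sum]
            ring
        _ ≤ 4 * D := by linarith
    calc ‖φ z‖ ≤ _ := h1
      _ ≤ _ := h2
      _ ≤ √(4 * D) * √S := by gcongr
      _ = 2 * (√D * √S) := by
        rw [Real.sqrt_mul (by norm_num), show (4 : ℝ) = 2 ^ 2 by norm_num,
          Real.sqrt_sq (by norm_num)]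
        ring
  -- the line `Re z = 1`
  have hline2 : ∀ z : ℂ, z.re = 1 → ‖φ z‖ ≤ A * (2 * (√D * √S)) := by
    intro z hz
    have h1 : ∀ e, ∑ i, ‖U z e i‖ ≤ d e + ∑ e', |K e e'| * d e' := by
      intro e
      have h2 : ∀ e, ∑ i, ‖Ψ z e i‖ ≤ d e := fun e =>
        sum_cp_one hp0 (hd0 e) (hfd e) (by rw [hre1, hz, mul_one])
      calc ∑ i, ‖U z e i‖ ≤ ∑ i, (‖Ψ z e i‖ + ∑ e', |K e e'| * ‖Ψ z e' i‖) := by
            refine Finset.sum_le_sum fun i _ => (norm_sub_le _ _).trans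
              (add_le_add le_rfl ((norm_sum_le _ _).trans (Finset.sum_le_sum fun e' _ => ?_)))
            rw [norm_mul, Complex.norm_real, Real.norm_eq_abs]
        _ = ∑ i, ‖Ψ z e i‖ + ∑ e', |K e e'| * ∑ i, ‖Ψ z e' i‖ := by
            rw [Finset.sum_add_distrib, Finset.sum_comm]
            simp_rw [Finset.mul_sum]
        _ ≤ _ := add_le_add (h2 e) (Finset.sum_le_sum fun e' _ =>
            mul_le_mul_of_nonneg_left (h2 e') (abs_nonneg _))
    have h2 : ‖φ z‖ ≤ ∑ e, w e * ((d e + ∑ e', |K e e'| * d e') * N e) := by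
      simp only [hφ]
      refine (norm_sum_le _ _).trans (Finset.sum_le_sum fun e _ => ?_)
      rw [norm_mul, Complex.norm_real, Real.norm_of_nonneg (hw e)]
      refine mul_le_mul_of_nonneg_left ?_ (hw e)
      refine (norm_sum_le _ _).trans ?_
      calc ∑ i, ‖U z e i * G z e i‖ ≤ ∑ i, ‖U z e i‖ * N e := by
            refine Finset.sum_le_sum fun i _ => ?_
            rw [norm_mul]
            refine mul_le_mul_of_nonneg_left ?_ (norm_nonneg _)
            refine norm_cp_le_of_nonneg hq0 (hN0 e) (hN e) ?_ i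
            rw [hre2, hz]; simp
        _ = (∑ i, ‖U z e i‖) * N e := by rw [Finset.sum_mul]
        _ ≤ _ := mul_le_mul_of_nonneg_right (h1 e) (hN0 e)
    have hsq : ∀ a : E → ℝ, ∑ e, w e * (a e * N e) ≤ √(∑ e, w e * a e ^ 2) * √S := by
      intro a
      have h3 := Real.sum_mul_le_sqrt_mul_sqrt (Finset.univ : Finset E)
        (fun e => √(w e) * a e) (fun e => √(w e) * N e)
      have h4 : ∀ e, (√(w e) * a e) * (√(w e) * N e) = w e * (a e * N e) := fun e => by
        have := Real.mul_self_sqrt (hw e)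
        calc (√(w e) * a e) * (√(w e) * N e) = (√(w e) * √(w e)) * (a e * N e) := by ring
          _ = _ := by rw [this]
      simp_rw [h4, mul_pow, fun e => Real.sq_sqrt (hw e)] at h3
      exact h3
    have h5 := hsq d
    have h6 := hsq fun e => ∑ e', |K e e'| * d e'
    have h7 : √(∑ e, w e * (∑ e', |K e e'| * d e') ^ 2) ≤ A * √D := by
      refine (Real.sqrt_le_sqrt (hm d hd0)).trans (le_of_eq ?_)
      rw [Real.sqrt_mul (sq_nonneg _), Real.sqrt_sq hA0.le]
    have h8 : 0 ≤ √D * √S := by positivity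
    calc ‖φ z‖ ≤ _ := h2
      _ = ∑ e, w e * (d e * N e) + ∑ e, w e * ((∑ e', |K e e'| * d e') * N e) := by
          rw [← Finset.sum_add_distrib]
          exact Finset.sum_congr rfl fun e _ => by ring
      _ ≤ √D * √S + (A * √D) * √S := by
          refine add_le_add h5 (h6.trans ?_)
          gcongr
      _ ≤ A * (2 * (√D * √S)) := by nlinarith
  -- damping factor
  set ψ : ℂ → ℂ := fun z => φ z * Complex.exp (-(2 * z - 1) * Real.log A) with hψ
  have hψd : Differentiable ℂ ψ := by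
    simp only [hψ]
    fun_prop
  have hfac : ∀ z : ℂ, ‖Complex.exp (-(2 * z - 1) * Real.log A)‖ =
      Real.exp (-(2 * z.re - 1) * Real.log A) := by
    intro z
    rw [Complex.norm_exp]
    congr 1
    rw [Complex.re_mul_ofReal]
    simp
  have hpinv : 1 / 2 < 1 / p := one_div_lt_one_div_of_lt hp0 hp2
  have hpinv1 : 1 / p < 1 := by rw [div_lt_one hp0]; exact hp1
  have hqinv : 1 / 2 ≤ 1 / q := one_div_le_one_div_of_le hq0 hq2
  have hqp : 1 / q ≤ 1 / p := one_div_le_one_div_of_le hp0 hpq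
  set m := min (1 / p - 1 / 2) (1 - 1 / p) with hmdef
  have hm0 : 0 < m := lt_min (by linarith) (by linarith)
  have hkey := strip_zero (φ := ψ) hψd
    (B := ∑ e, w e * ∑ _i : ι, (d e + ∑ e', |K e e'| * d e') * N e) (z₀ := 1 / p)
    (M := 2 * (√D * √S)) (m := m) (z := ((1 / q : ℝ) : ℂ))
    (by
      intro z h1 h2
      simp only [hψ]
      rw [norm_mul, hfac]
      have h3 := hcrude z h1 h2
      have h4 : Real.exp (-(2 * z.re - 1) * Real.log A) ≤ 1 := by
        rw [Real.exp_le_one_iff]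
        nlinarith
      have h5 := norm_nonneg (φ z)
      have h6 := Real.exp_pos (-(2 * z.re - 1) * Real.log A)
      nlinarith)
    (by simp only [hψ]; rw [hz0, zero_mul]) (by positivity) hm0 (min_le_left _ _)
    (min_le_right _ _)
    (by
      intro z hz
      simp only [hψ]
      rw [norm_mul, hfac, hz]
      norm_num
      simpa using hline1 z hz)
    (by
      intro z hz
      simp only [hψ]
      rw [norm_mul, hfac, hz]
      have h1 : Real.exp (-(2 * 1 - 1) * Real.log A) = A⁻¹ := by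
        rw [show -(2 * 1 - 1) * Real.log A = -Real.log A by ring, Real.exp_neg, Real.exp_log hA0]
      rw [h1]
      have h2 := hline2 z hz
      rw [← div_eq_mul_inv, div_le_iff₀ hA0]
      linarith)
    (by simpa using hqinv) (by simp only [Complex.ofReal_re]; linarith)
  have hnorm : ‖(((1 / q : ℝ) : ℂ)) - ((1 / p : ℝ) : ℂ)‖ = 1 / p - 1 / q := by
    rw [← Complex.ofReal_sub, Complex.norm_real, Real.norm_eq_abs, abs_sub_comm,
      abs_of_nonneg (by linarith)]
  have hval : ‖ψ ((1 / q : ℝ) : ℂ)‖ = S * A ^ (-(2 / q - 1)) := by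
    simp only [hψ]
    rw [norm_mul, hfac, hzq, Complex.norm_real, Real.norm_of_nonneg hS0,
      Real.rpow_def_of_pos hA0]
    congr 2
    simp only [Complex.ofReal_re]
    ring
  rw [hnorm, hval] at hkey
  have h9 : A ^ (-(2 / p - 1)) ≤ A ^ (-(2 / q - 1)) := by
    refine Real.rpow_le_rpow_of_exponent_le hA ?_
    have : 2 / q ≤ 2 / p := by
      have := mul_le_mul_of_nonneg_left hqp (by norm_num : (0:ℝ) ≤ 2)
      rwa [mul_one_div, mul_one_div] at this
    linarith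
  have h10 : S * A ^ (-(2 / p - 1)) ≤ 2 * (√D * √S) / m * (1 / p - 1 / q) :=
    (mul_le_mul_of_nonneg_left h9 hS0).trans hkey
  have h11 : S ≤ 2 * (√D * √S) / m * (1 / p - 1 / q) * A ^ (2 / p - 1) := by
    rw [Real.rpow_neg hA0.le, ← div_eq_mul_inv, div_le_iff₀ (Real.rpow_pos_of_pos hA0 _)] at h10
    exact h10
  rcases hS0.eq_or_lt with h0 | h0
  · rw [← h0, Real.sqrt_zero]
    have : 0 ≤ 1 / p - 1 / q := by linarith
    positivity
  · have h12 : 0 < √S := Real.sqrt_pos.2 h0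
    have h13 : √S * √S ≤ (2 / m * (1 / p - 1 / q) * A ^ (2 / p - 1) * √D) * √S := by
      rw [Real.mul_self_sqrt hS0]
      refine h11.trans (le_of_eq ?_)
      ring
    exact le_of_mul_le_mul_right h13 h12

end Vale.Agent.P249.H75
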