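import Mathlib.Analysis.LocallyConvex.Separation
import Mathlib.Analysis.Normed.Lp.PiLp
import Mathlib.Analysis.Convex.Deriv
import Mathlib.Analysis.Convex.Mul
import Vale.Agent.P249.H75.Interp

/-!
# P249: the minimax lemma
-/

set_option linter.all false

open Filter Topology Set
open scoped BigOperators

namespace Vale.Agent.P249.H75

/-- A finite dimensional minimax principle. -/
theorem minimax {E M : Type*} [Fintype E] [AddCommGroup M] [Module ℝ M]
    (c : E → M → ℝ) (hc : ∀ e, ConvexOn ℝ univ (c e)) {b b' : ℝ} (hb : b < b')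
    (h : ∀ a : E → ℝ, (∀ e, 0 ≤ a e) → ∃ F, ∑ e, a e * c e F ≤ b * ∑ e, a e) :
    ∃ F, ∀ e, c e F < b' := by
  classical
  by_contra hcon
  push Not at hcon
  set S : Set (E → ℝ) := {y | ∃ F, ∀ e, c e F < y e} with hS
  have hconv : Convex ℝ S := by
    rintro y ⟨F, hF⟩ z ⟨G, hG⟩ s t hs ht hst
    refine ⟨s • F + t • G, fun e => ?_⟩
    refine ((hc e).2 (mem_univ _) (mem_univ _) hs ht hst).trans_lt ?_
    simp only [Pi.add_apply, Pi.smul_apply, smul_eq_mul]
    rcases hs.eq_or_lt with h0 | h0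
    · have : t = 1 := by linarith
      subst h0; subst this
      simpa using hG e
    · have h1 := mul_lt_mul_of_pos_left (hF e) h0
      have h2 := mul_le_mul_of_nonneg_left (hG e).le ht
      linarith
  have hopen : IsOpen S := by
    have : S = ⋃ F, ⋂ e, {y : E → ℝ | c e F < y e} := by
      ext y; simp [hS]
    rw [this]
    refine isOpen_iUnion fun F => isOpen_iInter_of_finite fun e => ?_
    exact isOpen_lt continuous_const (continuous_apply e)
  have hnot : (fun _ => b' : E → ℝ) ∉ S := by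
    rintro ⟨F, hF⟩
    obtain ⟨e, he⟩ := hcon F
    exact absurd (hF e) (not_lt.2 he)
  obtain ⟨f, hf⟩ := geometric_hahn_banach_point_open hconv hopen hnot
  set a : E → ℝ := fun e => f (Pi.single e 1) with ha
  have hfa : ∀ y : E → ℝ, f y = ∑ e, a e * y e := by
    intro y
    have h1 : y = ∑ e, y e • (Pi.single e (1 : ℝ) : E → ℝ) := by
      ext e'
      simp [Finset.sum_apply, Pi.single_apply]
    conv_lhs => rw [h1]
    rw [map_sum]
    refine Finset.sum_congr rfl fun e _ => ?_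
    rw [map_smul, smul_eq_mul, mul_comm]
  obtain ⟨F₀, hF₀⟩ := h 0 (fun _ => le_rfl)
  have ha0 : ∀ e, 0 ≤ a e := by
    intro e
    by_contra hlt
    push Not at hlt
    set y : E → ℝ := fun e' => c e' F₀ + 1 with hy
    set T : ℝ := max 0 ((f y - f fun _ => b') / (- a e)) with hT
    have h1 : (y + T • (Pi.single e (1 : ℝ) : E → ℝ)) ∈ S := by
      refine ⟨F₀, fun e' => ?_⟩
      simp only [hy, Pi.add_apply, Pi.smul_apply, smul_eq_mul]
      have h2 : 0 ≤ T * (Pi.single e (1 : ℝ) : E → ℝ) e' := by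
        refine mul_nonneg (le_max_left _ _) ?_
        by_cases h3 : e' = e
        · subst h3; simp
        · simp [h3]
      linarith
    have h2 := hf _ h1
    rw [map_add, map_smul, smul_eq_mul] at h2
    have h3 : (f y - f fun _ => b') / (- a e) ≤ T := le_max_right _ _
    rw [div_le_iff₀ (by linarith)] at h3
    have h4 : f (Pi.single e 1) = a e := rfl
    rw [h4] at h2
    linarith
  obtain ⟨F, hF⟩ := h a ha0
  have h1 : (fun e => c e F + (b' - b)) ∈ S := ⟨F, fun e => by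
    simp only
    linarith⟩
  have h2 := hf _ h1
  rw [hfa, hfa] at h2
  simp_rw [mul_add, Finset.sum_add_distrib, ← Finset.sum_mul] at h2
  nlinarith

/-- the `ℓ_p` norm on `ι → ℝ` -/
noncomputable def nm {ι : Type*} [Fintype ι] (p : ℝ) (v : ι → ℝ) : ℝ := (∑ i, |v i| ^ p) ^ (1 / p)

/-- the norm preserving Mazur map `ℓ_p → ℓ_q` -/
noncomputable def mazur {ι : Type*} [Fintype ι] (p q : ℝ) (v : ι → ℝ) (i : ι) : ℝ :=
  (SignType.sign (v i) : ℝ) * nm p v * (|v i| / nm p v) ^ (p / q)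

section nm

variable {ι : Type*} [Fintype ι] {p q : ℝ}

theorem nm_nonneg (v : ι → ℝ) : 0 ≤ nm p v :=
  Real.rpow_nonneg (Finset.sum_nonneg fun i _ => Real.rpow_nonneg (abs_nonneg _) _) _

theorem nm_pow (hp : 0 < p) (v : ι → ℝ) : ∑ i, |v i| ^ p = nm p v ^ p := by
  rw [nm, ← Real.rpow_mul (Finset.sum_nonneg fun i _ => Real.rpow_nonneg (abs_nonneg _) _),
    one_div_mul_cancel hp.ne', Real.rpow_one]

theorem nm_neg (v : ι → ℝ) : nm p (-v) = nm p v := by simp [nm]

theorem nm_zero (hp : 0 < p) : nm p (0 : ι → ℝ) = 0 := by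
  simp [nm, Real.zero_rpow hp.ne', hp.ne']

theorem nm_eq_zero (hp : 0 < p) {v : ι → ℝ} (h : nm p v = 0) : v = 0 := by
  funext i
  exact eq_zero_of_sum hp (nm_pow hp v) h i

theorem nm_pos (hp : 0 < p) {v : ι → ℝ} (h : v ≠ 0) : 0 < nm p v :=
  lt_of_le_of_ne (nm_nonneg v) fun h1 => h (nm_eq_zero hp h1.symm)

theorem mazur_neg (v : ι → ℝ) : mazur p q (-v) = -mazur p q v := by
  funext i
  simp [mazur, nm_neg, Left.sign_neg]

theorem mazur_zero : mazur p q (0 : ι → ℝ) = 0 := by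
  funext i
  simp [mazur]

theorem nm_mazur (hp : 0 < p) (hq : 0 < q) (v : ι → ℝ) : nm q (mazur p q v) = nm p v := by
  rcases eq_or_ne v 0 with h | h
  · rw [h, mazur_zero, nm_zero hq, nm_zero hp]
  have hN := nm_pos hp h
  have h1 : ∀ i, |mazur p q v i| ^ q = nm p v ^ q * (|v i| ^ p / nm p v ^ p) := by
    intro i
    have h2 : |mazur p q v i| = nm p v * (|v i| / nm p v) ^ (p / q) := by
      rcases eq_or_ne (v i) 0 with h0 | h0
      · have : p / q ≠ 0 := by positivity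
        simp [mazur, h0, Real.zero_rpow this]
      · have h3 : |((SignType.sign (v i) : ℤ) : ℝ)| = 1 := by
          rcases lt_or_gt_of_ne h0 with h4 | h4
          · simp [sign_neg h4]
          · simp [sign_pos h4]
        rw [mazur, abs_mul, abs_mul, abs_of_pos hN,
          abs_of_nonneg (Real.rpow_nonneg (div_nonneg (abs_nonneg _) hN.le) _)]
        have h5 : |(SignType.sign (v i) : ℝ)| = 1 := by
          rcases lt_or_gt_of_ne h0 with h4 | h4
          · simp [sign_neg h4]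
          · simp [sign_pos h4]
        rw [h5, one_mul]
    rw [h2, Real.mul_rpow hN.le (Real.rpow_nonneg (div_nonneg (abs_nonneg _) hN.le) _),
      ← Real.rpow_mul (div_nonneg (abs_nonneg _) hN.le), div_mul_cancel₀ _ hq.ne',
      Real.div_rpow (abs_nonneg _) hN.le]
  have h2 : ∑ i, |mazur p q v i| ^ q = nm p v ^ q := by
    simp_rw [h1]
    rw [← Finset.mul_sum, ← Finset.sum_div, nm_pow hp, div_self (Real.rpow_pos_of_pos hN _).ne',
      mul_one]
  rw [nm, h2, ← Real.rpow_mul hN.le, mul_one_div_cancel hq.ne', Real.rpow_one]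

theorem nm_eq_norm (hq : 1 ≤ q) (v : ι → ℝ) :
    nm q v = ‖(WithLp.toLp (ENNReal.ofReal q) v : PiLp (ENNReal.ofReal q) fun _ : ι => ℝ)‖ := by
  have h0 : 0 < q := by linarith
  have h1 : (ENNReal.ofReal q).toReal = q := ENNReal.toReal_ofReal h0.le
  rw [PiLp.norm_eq_sum (by rw [h1]; exact h0), h1]
  simp [nm, Real.norm_eq_abs]

theorem nm_add_le (hq : 1 ≤ q) (u v : ι → ℝ) : nm q (u + v) ≤ nm q u + nm q v := by
  have : Fact (1 ≤ ENNReal.ofReal q) := ⟨by rw [← ENNReal.ofReal_one]; exact ENNReal.ofReal_le_ofReal hq⟩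
  rw [nm_eq_norm hq, nm_eq_norm hq, nm_eq_norm hq, WithLp.toLp_add]
  exact norm_add_le _ _

theorem nm_smul (hq : 1 ≤ q) (c : ℝ) (v : ι → ℝ) : nm q (c • v) = |c| * nm q v := by
  have : Fact (1 ≤ ENNReal.ofReal q) := ⟨by rw [← ENNReal.ofReal_one]; exact ENNReal.ofReal_le_ofReal hq⟩
  rw [nm_eq_norm hq, nm_eq_norm hq, WithLp.toLp_smul, norm_smul, Real.norm_eq_abs]

theorem convexOn_nm (hq : 1 ≤ q) : ConvexOn ℝ univ fun v : ι → ℝ => nm q v := by
  refine ⟨convex_univ, fun u _ v _ s t hs ht _ => ?_⟩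
  refine (nm_add_le hq _ _).trans ?_
  rw [nm_smul hq, nm_smul hq, abs_of_nonneg hs, abs_of_nonneg ht]
  rfl

end nm

/-- The gradient projections of all weighted complete graphs on `V` have modulus of norm at most
`A`. -/
def ModBound (V : Type*) [Fintype V] (A : ℝ) : Prop :=
  ∀ w : V → V → ℝ, (∀ x y, 0 < w x y) → (∀ x y, w x y = w y x) →
    ∃ K : V × V → V × V → ℝ,
      (∀ g : V × V → ℝ, ∃ F : V → ℝ, ∀ e : V × V, ∑ e', K e e' * g e' = F e.1 - F e.2) ∧
      (∀ F : V → ℝ, ∀ e : V × V, ∑ e', K e e' * (F e'.1 - F e'.2) = F e.1 - F e.2) ∧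
      (∀ g : V × V → ℝ, ∑ e, w e.1 e.2 * (∑ e', K e e' * g e') ^ 2 ≤
        ∑ e, w e.1 e.2 * g e ^ 2) ∧
      (∀ g : V × V → ℝ, (∀ e, 0 ≤ g e) → ∑ e, w e.1 e.2 * (∑ e', |K e e'| * g e') ^ 2 ≤
        A ^ 2 * ∑ e, w e.1 e.2 * g e ^ 2)

theorem convexOn_cost {V ι : Type*} [Fintype ι] {q : ℝ} (hq1 : 1 ≤ q) (u v : V) (y : ι → ℝ)
    (D : ℝ) : ConvexOn ℝ univ fun F : V → ι → ℝ => (nm q (F u - F v - y)) ^ 2 / D ^ 2 := by
  have h1 : ConvexOn ℝ univ fun F : V → ι → ℝ => nm q (F u - F v - y) := by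
    refine ⟨convex_univ, fun F _ G _ s t hs ht hst => ?_⟩
    have h2 := (convexOn_nm (ι := ι) hq1).2 (mem_univ (F u - F v - y))
      (mem_univ (G u - G v - y)) hs ht hst
    have h3 : (s • F + t • G) u - (s • F + t • G) v - y =
        s • (F u - F v - y) + t • (G u - G v - y) := by
      funext i
      simp only [Pi.add_apply, Pi.sub_apply, Pi.smul_apply, smul_eq_mul]
      linear_combination (y i) * hst
    show nm q ((s • F + t • G) u - (s • F + t • G) v - y) ≤ _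
    rw [h3]
    exact h2
  have h2 := h1.pow (fun F _ => nm_nonneg _) 2
  have h3 := h2.smul (c := (D ^ 2)⁻¹) (by positivity)
  refine h3.congr fun F _ => ?_
  simp only [smul_eq_mul, Pi.smul_apply, Pi.pow_apply]
  rw [div_eq_inv_mul]

theorem kappa_nonneg {p q A : ℝ} (hp1 : 1 < p) (hp2 : p < 2) (hpq : p ≤ q) (hA : 1 ≤ A) :
    0 ≤ 2 / min (1 / p - 1 / 2) (1 - 1 / p) * (1 / p - 1 / q) * A ^ (2 / p - 1) := by
  have hp0 : 0 < p := by linarith
  have h1 : 0 < 1 / p - 1 / 2 := by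
    rw [sub_pos]; exact one_div_lt_one_div_of_lt hp0 hp2
  have h2 : 0 < 1 - 1 / p := by
    rw [sub_pos, div_lt_one hp0]; exact hp1
  have h3 : 0 ≤ 1 / p - 1 / q := by
    rw [sub_nonneg]; exact one_div_le_one_div_of_le hp0 hpq
  have h4 : 0 < min (1 / p - 1 / 2) (1 - 1 / p) := lt_min h1 h2
  positivity

theorem mazur_sub_comm {ι : Type*} [Fintype ι] {p q : ℝ} (a b : ι → ℝ) :
    mazur p q (a - b) = - mazur p q (b - a) := by rw [← mazur_neg, neg_sub]

theorem nm_sub_comm {ι : Type*} [Fintype ι] {p : ℝ} (a b : ι → ℝ) :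
    nm p (a - b) = nm p (b - a) := by rw [← nm_neg, neg_sub]

theorem cost_symm {V ι : Type*} [Fintype ι] {p q : ℝ} (x F : V → ι → ℝ) (u v : V) :
    (nm q (F u - F v - mazur p q (x u - x v))) ^ 2 / nm p (x u - x v) ^ 2 =
    (nm q (F v - F u - mazur p q (x v - x u))) ^ 2 / nm p (x v - x u) ^ 2 := by
  rw [nm_sub_comm (x u) (x v), mazur_sub_comm (x u) (x v), ← nm_neg]
  congr 3
  abel

theorem sum_symm {V : Type*} [Fintype V] (a c : V × V → ℝ)
    (hc : ∀ u v, c (u, v) = c (v, u)) (hc0 : ∀ e, 0 ≤ c e) {η : ℝ} (hη : 0 ≤ η) :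
    ∑ e, a e * c e ≤ ∑ e : V × V, ((a (e.1, e.2) + a (e.2, e.1)) / 2 + η) * c e := by
  have hswap : ∀ f : V × V → ℝ, ∑ e : V × V, f (e.2, e.1) = ∑ e : V × V, f e := fun f =>
    Equiv.sum_comp (Equiv.prodComm V V) f
  have h2 : ∑ e : V × V, a (e.2, e.1) * c e = ∑ e : V × V, a e * c e := by
    rw [← hswap fun e => a e * c e]
    refine Finset.sum_congr rfl fun e _ => ?_
    rw [hc e.2 e.1]
  have h1 : ∑ e : V × V, ((a (e.1, e.2) + a (e.2, e.1)) / 2 + η) * c e =
      (∑ e : V × V, a e * c e) + η * ∑ e : V × V, c e := by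
    have h3 : ∀ e : V × V, ((a (e.1, e.2) + a (e.2, e.1)) / 2 + η) * c e =
        (a e * c e + a (e.2, e.1) * c e) / 2 + η * c e := fun e => by ring
    simp_rw [h3]
    rw [Finset.sum_add_distrib, ← Finset.sum_div, Finset.sum_add_distrib, h2, ← Finset.mul_sum]
    ring
  rw [h1]
  have h4 : 0 ≤ ∑ e : V × V, c e := Finset.sum_nonneg fun e _ => hc0 e
  have := mul_nonneg hη h4
  linarith

theorem sum_symm_one {V : Type*} [Fintype V] (a : V × V → ℝ) (η : ℝ) :
    ∑ e : V × V, ((a (e.1, e.2) + a (e.2, e.1)) / 2 + η) =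
      ∑ e, a e + η * Fintype.card (V × V) := by
  have hswap : ∀ f : V × V → ℝ, ∑ e : V × V, f (e.2, e.1) = ∑ e : V × V, f e := fun f =>
    Equiv.sum_comp (Equiv.prodComm V V) f
  rw [Finset.sum_add_distrib, ← Finset.sum_div, Finset.sum_add_distrib,
    hswap (fun e => a e)]
  simp only [Prod.mk.eta, Finset.sum_const, Finset.card_univ, nsmul_eq_mul]
  ring

theorem exists_avg {V ι : Type*} [Fintype V] [Fintype ι] {p q A : ℝ} (hp1 : 1 < p)
    (hp2 : p < 2) (hpq : p ≤ q) (hq2 : q ≤ 2) (hA : 1 ≤ A) (hK : ModBound V A)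
    (x : V → ι → ℝ) (hx : Function.Injective x) {κ₀ : ℝ}
    (hκ₀ : κ₀ = 2 / min (1 / p - 1 / 2) (1 - 1 / p) * (1 / p - 1 / q) * A ^ (2 / p - 1))
    (b : V → V → ℝ) (hb0 : ∀ u v, 0 < b u v) (hbs : ∀ u v, b u v = b v u) :
    ∃ F : V → ι → ℝ, ∑ e : V × V, b e.1 e.2 *
      ((nm q (F e.1 - F e.2 - mazur p q (x e.1 - x e.2))) ^ 2 / nm p (x e.1 - x e.2) ^ 2) ≤
      κ₀ ^ 2 * ∑ e : V × V, b e.1 e.2 := by
  classical
  have hp0 : 0 < p := by linarith
  have hq0 : 0 < q := by linarith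
  have hκ₀0 : 0 ≤ κ₀ := by rw [hκ₀]; exact kappa_nonneg hp1 hp2 hpq hA
  have hx' : ∀ {u v : V}, u ≠ v → 0 < nm p (x u - x v) := fun {u v} h =>
    nm_pos hp0 (sub_ne_zero.2 (hx.ne h))
  set d : V × V → ℝ := fun e => nm p (x e.1 - x e.2) with hd
  set w : V → V → ℝ := fun u v => if u = v then 1 else b u v / d (u, v) ^ 2 with hw
  have hds : ∀ u v, d (u, v) = d (v, u) := fun u v => nm_sub_comm _ _
  have hw0 : ∀ u v, 0 < w u v := by
    intro u v
    simp only [hw]
    split_ifs with h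
    · exact one_pos
    · exact div_pos (hb0 u v) (pow_pos (hx' h) 2)
  have hws : ∀ u v, w u v = w v u := by
    intro u v
    simp only [hw]
    by_cases h : u = v
    · subst h; rfl
    · rw [if_neg h, if_neg (Ne.symm h), hbs, hds]
  obtain ⟨K, hKa, hKb, hKc, hKd⟩ := hK w hw0 hws
  set Ψ : V × V → ι → ℝ := fun e => mazur p q (x e.1 - x e.2) with hΨ
  have hch : ∀ i, ∃ F : V → ℝ, ∀ e : V × V, ∑ e', K e e' * Ψ e' i = F e.1 - F e.2 :=
    fun i => hKa fun e => Ψ e i
  choose F hF using hch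
  refine ⟨fun u i => F i u, ?_⟩
  have hI := interp hp1 hp2 hpq hq2 hA (fun e => w e.1 e.2) (fun e => (hw0 e.1 e.2).le) K hKc hKd
    (fun e i => x e.1 i - x e.2 i) (fun e i => hKb (fun u => x u i) e) d
    (fun e => nm_nonneg _) (fun e => nm_pow hp0 (x e.1 - x e.2)) Ψ (fun e i => rfl)
    (fun e i => Ψ e i - ∑ e', K e e' * Ψ e' i) (fun e i => rfl)
    (fun e => nm q fun i => Ψ e i - ∑ e', K e e' * Ψ e' i) (fun e => nm_nonneg _)
    (fun e => nm_pow hq0 _)
  rw [← hκ₀] at hI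
  set D := ∑ e : V × V, w e.1 e.2 * d e ^ 2 with hD
  have hD0 : 0 ≤ D := Finset.sum_nonneg fun e _ => mul_nonneg (hw0 _ _).le (sq_nonneg _)
  have hI2 : ∑ e : V × V, w e.1 e.2 * (nm q fun i => Ψ e i - ∑ e', K e e' * Ψ e' i) ^ 2 ≤
      κ₀ ^ 2 * D := by
    rw [Real.sqrt_le_left (by positivity), mul_pow, Real.sq_sqrt hD0] at hI
    exact hI
  -- rewrite both sides
  have hL : ∀ e : V × V, w e.1 e.2 * (nm q fun i => Ψ e i - ∑ e', K e e' * Ψ e' i) ^ 2 =
      b e.1 e.2 * ((nm q ((fun i => F i e.1) - (fun i => F i e.2) -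
        mazur p q (x e.1 - x e.2))) ^ 2 / nm p (x e.1 - x e.2) ^ 2) := by
    rintro ⟨u, v⟩
    have h1 : (nm q fun i => Ψ (u, v) i - ∑ e', K (u, v) e' * Ψ e' i) =
        nm q ((fun i => F i u) - (fun i => F i v) - mazur p q (x u - x v)) := by
      rw [← nm_neg]
      congr 1
      funext i
      simp only [Pi.neg_apply, Pi.sub_apply]
      have h2 := hF i (u, v)
      rw [h2]
      simp only [hΨ]
      ring
    simp only [h1, hw]
    by_cases h : u = v
    · subst h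
      have : mazur p q (x u - x u) = 0 := by rw [sub_self, mazur_zero]
      rw [this, sub_self, sub_zero, nm_zero hq0]
      simp
    · rw [if_neg h]
      ring
  have hR : D ≤ ∑ e : V × V, b e.1 e.2 := by
    refine Finset.sum_le_sum fun e _ => ?_
    obtain ⟨u, v⟩ := e
    simp only [hw]
    by_cases h : u = v
    · subst h
      have : d (u, u) = 0 := by simp only [hd, sub_self]; exact nm_zero hp0
      rw [this]
      have := hb0 u u
      simp only [if_true]
      nlinarith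
    · rw [if_neg h, div_mul_cancel₀ _ (pow_pos (hx' h) 2).ne']
  simp_rw [hL] at hI2
  exact hI2.trans (mul_le_mul_of_nonneg_left hR (sq_nonneg _))

theorem exists_near_mazur {V ι : Type*} [Fintype V] [Fintype ι] {p q A : ℝ} (hp1 : 1 < p)
    (hp2 : p < 2) (hpq : p ≤ q) (hq2 : q ≤ 2) (hA : 1 ≤ A) (hK : ModBound V A)
    (x : V → ι → ℝ) (hx : Function.Injective x) {κ : ℝ}
    (hκ : 2 / min (1 / p - 1 / 2) (1 - 1 / p) * (1 / p - 1 / q) * A ^ (2 / p - 1) < κ) :
    ∃ F : V → ι → ℝ, ∀ u v, nm q (F u - F v - mazur p q (x u - x v)) ≤ κ * nm p (x u - x v) := by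
  classical
  have hp0 : 0 < p := by linarith
  have hq0 : 0 < q := by linarith
  have hq1 : 1 ≤ q := by linarith
  have hx' : ∀ {u v : V}, u ≠ v → 0 < nm p (x u - x v) := fun {u v} h =>
    nm_pos hp0 (sub_ne_zero.2 (hx.ne h))
  have hκ₀0 := kappa_nonneg hp1 hp2 hpq hA
  generalize hκ₀ : 2 / min (1 / p - 1 / 2) (1 - 1 / p) * (1 / p - 1 / q) * A ^ (2 / p - 1) = κ₀
    at hκ hκ₀0
  have hκ0 : 0 < κ := hκ₀0.trans_lt hκ
  obtain ⟨κ₁, h01, h1κ⟩ := exists_between hκ
  have hκ₁0 : 0 < κ₁ := hκ₀0.trans_lt h01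
  obtain ⟨F, hF⟩ := minimax (fun (e : V × V) (F : V → ι → ℝ) =>
      (nm q (F e.1 - F e.2 - mazur p q (x e.1 - x e.2))) ^ 2 / nm p (x e.1 - x e.2) ^ 2)
      (fun e => convexOn_cost hq1 _ _ _ _) (b := κ₁ ^ 2) (b' := κ ^ 2)
    (by nlinarith) (by
      intro a ha
      rcases eq_or_ne (∑ e, a e) 0 with h0 | h0
      · refine ⟨0, ?_⟩
        rw [h0, mul_zero]
        have : ∀ e, a e = 0 := fun e => (Finset.sum_eq_zero_iff_of_nonneg fun e _ => ha e).1 h0 e
          (Finset.mem_univ e)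
        simp [this]
      have hsum : 0 < ∑ e, a e := lt_of_le_of_ne (Finset.sum_nonneg fun e _ => ha e) (Ne.symm h0)
      obtain ⟨η, hη0, hη⟩ : ∃ η : ℝ, 0 < η ∧
          κ₀ ^ 2 * (∑ e, a e + η * Fintype.card (V × V)) ≤ κ₁ ^ 2 * ∑ e, a e := by
        have h1 : κ₀ ^ 2 < κ₁ ^ 2 := by nlinarith
        refine ⟨(κ₁ ^ 2 - κ₀ ^ 2) * (∑ e, a e) / (κ₀ ^ 2 * Fintype.card (V × V) + 1), ?_, ?_⟩
        · have : 0 < κ₁ ^ 2 - κ₀ ^ 2 := by linarith
          positivity
        · set T : ℝ := κ₀ ^ 2 * Fintype.card (V × V) with hT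
          have hT0 : 0 ≤ T := by positivity
          have h2 : 0 ≤ (κ₁ ^ 2 - κ₀ ^ 2) * (∑ e, a e) := by
            have : 0 < κ₁ ^ 2 - κ₀ ^ 2 := by linarith
            positivity
          have h3 : κ₀ ^ 2 * (∑ e, a e + (κ₁ ^ 2 - κ₀ ^ 2) * (∑ e, a e) / (T + 1) *
              Fintype.card (V × V)) = κ₀ ^ 2 * ∑ e, a e +
              (κ₁ ^ 2 - κ₀ ^ 2) * (∑ e, a e) * (T / (T + 1)) := by
            rw [hT]; ring
          rw [h3]
          have h4 : T / (T + 1) ≤ 1 := by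
            rw [div_le_one (by linarith)]; linarith
          have h5 := mul_le_mul_of_nonneg_left h4 h2
          linarith
      obtain ⟨F, hF⟩ := exists_avg hp1 hp2 hpq hq2 hA hK x hx hκ₀.symm
        (fun u v => (a (u, v) + a (v, u)) / 2 + η)
        (fun u v => by have := ha (u, v); have := ha (v, u); linarith)
        (fun u v => by ring)
      refine ⟨F, ?_⟩
      have h1 := sum_symm a (fun e => (nm q (F e.1 - F e.2 - mazur p q (x e.1 - x e.2))) ^ 2 /
        nm p (x e.1 - x e.2) ^ 2) (fun u v => cost_symm x F u v) (fun e => by positivity) hη0.le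
      rw [sum_symm_one] at hF
      exact (h1.trans hF).trans hη)
  refine ⟨F, fun u v => ?_⟩
  rcases eq_or_ne u v with h | h
  · subst h
    have : mazur p q (x u - x u) = 0 := by rw [sub_self, mazur_zero]
    rw [this, sub_self, sub_self, sub_self, nm_zero hq0, nm_zero hp0, mul_zero]
  · have h1 := hF (u, v)
    have h2 := hx' h
    simp only at h1
    rw [div_lt_iff₀ (by positivity), ← mul_pow] at h1
    exact (lt_of_pow_lt_pow_left₀ 2 (by positivity) h1).le

/-- Almost isometric embedding of finite subsets of `ℓ_p` into `ℓ_q`, `p < q`. -/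
theorem exists_embed {V ι : Type*} [Fintype V] [Fintype ι] {p q A : ℝ} (hp1 : 1 < p)
    (hp2 : p < 2) (hpq : p ≤ q) (hq2 : q ≤ 2) (hA : 1 ≤ A) (hK : ModBound V A)
    (x : V → ι → ℝ) (hx : Function.Injective x) {κ : ℝ}
    (hκ : 2 / min (1 / p - 1 / 2) (1 - 1 / p) * (1 / p - 1 / q) * A ^ (2 / p - 1) < κ) :
    ∃ F : V → ι → ℝ, ∀ u v, (1 - κ) * nm p (x u - x v) ≤ nm q (F u - F v) ∧
      nm q (F u - F v) ≤ (1 + κ) * nm p (x u - x v) := by
  obtain ⟨F, hF⟩ := exists_near_mazur hp1 hp2 hpq hq2 hA hK x hx hκ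
  have hq1 : 1 ≤ q := by linarith
  refine ⟨F, fun u v => ?_⟩
  have h1 := hF u v
  have h2 : nm q (mazur p q (x u - x v)) = nm p (x u - x v) :=
    nm_mazur (by linarith) (by linarith) _
  have h3 : nm q (F u - F v) ≤ nm q (F u - F v - mazur p q (x u - x v)) +
      nm q (mazur p q (x u - x v)) := by
    refine le_trans (le_of_eq ?_) (nm_add_le hq1 _ _)
    rw [sub_add_cancel]
  have h4 : nm q (mazur p q (x u - x v)) ≤ nm q (F u - F v) +
      nm q (F u - F v - mazur p q (x u - x v)) := by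
    rw [← nm_neg (F u - F v - mazur p q (x u - x v))]
    refine le_trans (le_of_eq ?_) (nm_add_le hq1 _ _)
    congr 1
    abel
  constructor <;> linarith

end Vale.Agent.P249.H75
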