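import Mathlib.Analysis.InnerProductSpace.PiL2
import Mathlib.Analysis.InnerProductSpace.Projection.Basic
import Vale.Agent.P249.H75.Minimax

/-!
# P249: the modulus of the gradient projection has norm `O(log n)`
-/

set_option linter.all false

open Filter Topology Set
open scoped BigOperators

namespace Vale.Agent.P249.H75

/-! ### scalar inequalities -/

theorem gibbs_pt {a b : ℝ} (ha : 0 ≤ a) (hb : 0 < b) :
    a * Real.log b - a * Real.log a ≤ b - a := by
  rcases ha.eq_or_lt with h | h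
  · rw [← h]; simp; exact hb.le
  · have h1 := Real.log_le_sub_one_of_pos (div_pos hb h)
    rw [Real.log_div hb.ne' h.ne'] at h1
    have h2 := mul_le_mul_of_nonneg_left h1 h.le
    have h3 : a * (b / a - 1) = b - a := by field_simp
    rw [h3] at h2
    linarith

theorem log_sqrt_ineq {a b : ℝ} (ha : 0 < a) (hb : 0 < b) :
    2 * (√a - √b) ^ 2 ≤ (a - b) * (Real.log a - Real.log b) := by
  wlog h : b ≤ a generalizing a b
  · have := this hb ha (le_of_not_ge h)
    nlinarith
  have hsa : 0 < √a := Real.sqrt_pos.2 ha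
  have hsb : 0 < √b := Real.sqrt_pos.2 hb
  have hab : √b ≤ √a := Real.sqrt_le_sqrt h
  have h1 : Real.log a - Real.log b = 2 * (Real.log √a - Real.log √b) := by
    rw [Real.log_sqrt ha.le, Real.log_sqrt hb.le]; ring
  have h2 : 1 - √b / √a ≤ Real.log √a - Real.log √b := by
    have := Real.one_sub_inv_le_log_of_pos (div_pos hsa hsb)
    rw [Real.log_div hsa.ne' hsb.ne', inv_div] at this
    exact this
  have h3 : a - b = (√a - √b) * (√a + √b) := by
    nlinarith [Real.sq_sqrt ha.le, Real.sq_sqrt hb.le]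
  rw [h1, h3]
  have h4 : √a - √b ≤ (√a + √b) * (Real.log √a - Real.log √b) := by
    have h5 : (√a + √b) * (1 - √b / √a) ≤ (√a + √b) * (Real.log √a - Real.log √b) :=
      mul_le_mul_of_nonneg_left h2 (by positivity)
    refine le_trans ?_ h5
    have h6 : (√a + √b) * (1 - √b / √a) = (√a - √b) + √b * ((√a - √b) / √a) := by
      field_simp
    rw [h6]
    have : 0 ≤ √b * ((√a - √b) / √a) := by
      have : 0 ≤ √a - √b := by linarith
      positivity
    linarith
  have h7 : 0 ≤ √a - √b := by linarith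
  nlinarith [mul_le_mul_of_nonneg_left h4 h7]

section

variable {V : Type*} [Fintype V]

/-- the Laplace operator of the weighted complete graph -/
noncomputable def lap (w : V → V → ℝ) (m : V → ℝ) : (V → ℝ) →ₗ[ℝ] (V → ℝ) where
  toFun u x := 2 * (∑ y, w x y * (u x - u y)) / m x
  map_add' u v := by
    funext x
    simp only [Pi.add_apply]
    rw [← add_div, ← mul_add, ← Finset.sum_add_distrib]
    congr 2
    exact Finset.sum_congr rfl fun y _ => by ring
  map_smul' c u := by
    funext x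
    simp only [Pi.smul_apply, smul_eq_mul, RingHom.id_apply]
    rw [← mul_div_assoc]
    congr 1
    rw [Finset.mul_sum, Finset.mul_sum, Finset.mul_sum]
    exact Finset.sum_congr rfl fun y _ => by ring

variable {w : V → V → ℝ} {m : V → ℝ}

theorem lap_apply (u : V → ℝ) (x : V) :
    lap w m u x = 2 * (∑ y, w x y * (u x - u y)) / m x := rfl

theorem lap_inner (hm : ∀ x, 0 < m x) (hws : ∀ x y, w x y = w y x) (u v : V → ℝ) :
    ∑ x, m x * (lap w m u x * v x) =
      ∑ e : V × V, w e.1 e.2 * ((u e.1 - u e.2) * (v e.1 - v e.2)) := by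
  have h1 : ∀ x, m x * (lap w m u x * v x) = ∑ y, 2 * (w x y * (u x - u y) * v x) := by
    intro x
    rw [lap_apply, ← Finset.mul_sum, ← Finset.sum_mul]
    have := (hm x).ne'
    field_simp
  simp_rw [h1]
  rw [Fintype.sum_prod_type]
  have h2 : ∑ x, ∑ y, w x y * (u x - u y) * v y = - ∑ x, ∑ y, w x y * (u x - u y) * v x := by
    rw [Finset.sum_comm, ← Finset.sum_neg_distrib]
    refine Finset.sum_congr rfl fun x _ => ?_
    rw [← Finset.sum_neg_distrib]
    refine Finset.sum_congr rfl fun y _ => ?_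
    rw [hws y x]; ring
  have h3 : ∑ x, ∑ y, w x y * ((u x - u y) * (v x - v y)) =
      ∑ x, ∑ y, w x y * (u x - u y) * v x - ∑ x, ∑ y, w x y * (u x - u y) * v y := by
    rw [← Finset.sum_sub_distrib]
    refine Finset.sum_congr rfl fun x _ => ?_
    rw [← Finset.sum_sub_distrib]
    exact Finset.sum_congr rfl fun y _ => by ring
  simp only
  rw [h3, h2]
  simp_rw [← Finset.mul_sum]
  ring

/-- `1 + h L` -/
noncomputable def TT (w : V → V → ℝ) (m : V → ℝ) (h : ℝ) : (V → ℝ) →ₗ[ℝ] (V → ℝ) :=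
  LinearMap.id + h • lap w m

theorem TT_apply (h : ℝ) (u : V → ℝ) (x : V) : TT w m h u x = u x + h * lap w m u x := by
  simp [TT]

theorem TT_nonneg (hm : ∀ x, 0 < m x) (hw : ∀ x y, 0 < w x y) {h : ℝ} (hh : 0 < h) {u : V → ℝ}
    (hu : ∀ x, 0 ≤ TT w m h u x) (x : V) : 0 ≤ u x := by
  have : Nonempty V := ⟨x⟩
  obtain ⟨x₀, hx₀⟩ := Finite.exists_min u
  refine le_trans ?_ (hx₀ x)
  have h1 := hu x₀
  rw [TT_apply, lap_apply] at h1
  have h2 : ∑ y, w x₀ y * (u x₀ - u y) ≤ 0 :=
    Finset.sum_nonpos fun y _ => mul_nonpos_of_nonneg_of_nonpos (hw _ _).le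
      (sub_nonpos.2 (hx₀ y))
  have h3 : h * (2 * (∑ y, w x₀ y * (u x₀ - u y)) / m x₀) ≤ 0 := by
    refine mul_nonpos_of_nonneg_of_nonpos hh.le (div_nonpos_of_nonpos_of_nonneg (by linarith)
      (hm _).le)
  linarith

theorem TT_inj (hm : ∀ x, 0 < m x) (hw : ∀ x y, 0 < w x y) {h : ℝ} (hh : 0 < h) :
    Function.Injective (TT w m h) := by
  rw [injective_iff_map_eq_zero]
  intro u hu
  funext x
  have h1 : 0 ≤ u x := TT_nonneg hm hw hh (fun y => by rw [hu]; exact le_rfl) x
  have h2 : 0 ≤ (-u) x := TT_nonneg hm hw hh (u := -u) (fun y => by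
    rw [map_neg, hu, neg_zero]; exact le_rfl) x
  simp only [Pi.neg_apply, Pi.zero_apply] at h2 ⊢
  linarith

/-- the resolvent -/
structure IsRes (w : V → V → ℝ) (m : V → ℝ) (h : ℝ) (R : (V → ℝ) →ₗ[ℝ] (V → ℝ)) : Prop where
  eq1 : ∀ v x, R v x + h * lap w m (R v) x = v x
  eq2 : ∀ v, R (v + h • lap w m v) = v
  pos : ∀ v : V → ℝ, (∀ x, 0 ≤ v x) → v ≠ 0 → ∀ x, 0 < R v x

theorem exists_res (hm : ∀ x, 0 < m x) (hw : ∀ x y, 0 < w x y) {h : ℝ} (hh : 0 < h) :
    ∃ R : (V → ℝ) →ₗ[ℝ] (V → ℝ), IsRes w m h R := by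
  set e := LinearEquiv.ofInjectiveEndo (TT w m h) (TT_inj hm hw hh) with he
  have h1 : ∀ v, TT w m h (e.symm v) = v := fun v => e.apply_symm_apply v
  have h2 : ∀ v, e.symm (TT w m h v) = v := fun v => e.symm_apply_apply v
  refine ⟨e.symm.toLinearMap, fun v x => ?_, fun v => ?_, fun v hv hv0 x => ?_⟩
  · have := congrFun (h1 v) x
    rw [TT_apply] at this
    exact this
  · exact h2 v
  · have h3 : ∀ y, 0 ≤ e.symm v y := TT_nonneg hm hw hh fun y => by rw [h1]; exact hv y
    refine lt_of_le_of_ne (h3 x) fun h0 => hv0 ?_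
    have h4 := congrFun (h1 v) x
    rw [TT_apply, lap_apply] at h4
    replace h0 : e.symm v x = 0 := h0.symm
    have h5 : ∑ y, w x y * (e.symm v x - e.symm v y) = - ∑ y, w x y * e.symm v y := by
      rw [← Finset.sum_neg_distrib]
      exact Finset.sum_congr rfl fun y _ => by rw [h0]; ring
    have h6 : 0 ≤ ∑ y, w x y * e.symm v y :=
      Finset.sum_nonneg fun y _ => mul_nonneg (hw _ _).le (h3 y)
    have h7 : ∑ y, w x y * e.symm v y = 0 := by
      refine le_antisymm ?_ h6
      by_contra hc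
      push Not at hc
      have h8 : v x < 0 := by
        rw [← h4, h5, h0, zero_add]
        refine mul_neg_of_pos_of_neg hh (div_neg_of_neg_of_pos (by linarith) (hm x))
      exact absurd (hv x) (not_le.2 h8)
    have h8 : ∀ y, e.symm v y = 0 := fun y => by
      have := (Finset.sum_eq_zero_iff_of_nonneg fun y _ => mul_nonneg (hw x y).le (h3 y)).1 h7 y
        (Finset.mem_univ y)
      rcases mul_eq_zero.1 this with h9 | h9
      · exact absurd h9 (hw x y).ne'
      · exact h9
    have h9 : e.symm v = 0 := funext h8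
    rw [← h1 v, h9, map_zero]

namespace IsRes

variable {h : ℝ} {R : (V → ℝ) →ₗ[ℝ] (V → ℝ)}

theorem symm (hR : IsRes w m h R) (hm : ∀ x, 0 < m x) (hws : ∀ x y, w x y = w y x)
    (u v : V → ℝ) : ∑ x, m x * (R u x * v x) = ∑ x, m x * (u x * R v x) := by
  have h1 : ∑ x, m x * (R u x * v x) = ∑ x, m x * (R u x * R v x) +
      h * ∑ x, m x * (lap w m (R v) x * R u x) := by
    rw [Finset.mul_sum, ← Finset.sum_add_distrib]
    refine Finset.sum_congr rfl fun x _ => ?_
    rw [← hR.eq1 v x]; ring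
  have h2 : ∑ x, m x * (u x * R v x) = ∑ x, m x * (R u x * R v x) +
      h * ∑ x, m x * (lap w m (R u) x * R v x) := by
    rw [Finset.mul_sum, ← Finset.sum_add_distrib]
    refine Finset.sum_congr rfl fun x _ => ?_
    rw [← hR.eq1 u x]; ring
  rw [h1, h2, lap_inner hm hws, lap_inner hm hws]
  congr 2
  exact Finset.sum_congr rfl fun e _ => by ring

theorem mass (hR : IsRes w m h R) (hm : ∀ x, 0 < m x) (hws : ∀ x y, w x y = w y x)
    (u : V → ℝ) : ∑ x, m x * R u x = ∑ x, m x * u x := by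
  have h1 : ∑ x, m x * u x = ∑ x, m x * R u x + h * ∑ x, m x * (lap w m (R u) x * 1) := by
    rw [Finset.mul_sum, ← Finset.sum_add_distrib]
    refine Finset.sum_congr rfl fun x _ => ?_
    rw [← hR.eq1 u x]; ring
  have h2 := lap_inner (m := m) hm hws (R u) (fun _ => 1)
  simp only [sub_self, mul_zero, Finset.sum_const_zero] at h2
  rw [h1, h2, mul_zero, add_zero]

/-- entropy decay -/
theorem ent_step (hR : IsRes w m h R) (hh : 0 < h) (hm : ∀ x, 0 < m x)
    (hw : ∀ x y, 0 < w x y) (hws : ∀ x y, w x y = w y x)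
    {v : V → ℝ} (hv : ∀ x, 0 ≤ v x) (hv0 : v ≠ 0) :
    2 * (h * ∑ e : V × V, w e.1 e.2 * (√(R v e.1) - √(R v e.2)) ^ 2) ≤
      ∑ x, m x * (v x * Real.log (v x)) - ∑ x, m x * (R v x * Real.log (R v x)) := by
  have hp := hR.pos v hv hv0
  have h1 : ∑ x, m x * ((v x - R v x) * Real.log (R v x)) =
      h * ∑ e : V × V, w e.1 e.2 * ((R v e.1 - R v e.2) *
        (Real.log (R v e.1) - Real.log (R v e.2))) := by
    rw [← lap_inner hm hws (R v) fun x => Real.log (R v x), Finset.mul_sum]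
    refine Finset.sum_congr rfl fun x _ => ?_
    have := hR.eq1 v x
    rw [← this]; ring
  have h2 : 2 * (h * ∑ e : V × V, w e.1 e.2 * (√(R v e.1) - √(R v e.2)) ^ 2) ≤
      h * ∑ e : V × V, w e.1 e.2 * ((R v e.1 - R v e.2) *
        (Real.log (R v e.1) - Real.log (R v e.2))) := by
    rw [mul_left_comm]
    refine mul_le_mul_of_nonneg_left ?_ hh.le
    rw [Finset.mul_sum]
    refine Finset.sum_le_sum fun e _ => ?_
    rw [mul_left_comm]
    exact mul_le_mul_of_nonneg_left (log_sqrt_ineq (hp _) (hp _)) (hw _ _).le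
  rw [← h1] at h2
  refine h2.trans ?_
  have h3 : ∀ x, m x * ((v x - R v x) * Real.log (R v x)) ≤
      m x * (v x * Real.log (v x)) - m x * (R v x * Real.log (R v x)) +
        (m x * R v x - m x * v x) := by
    intro x
    have := mul_le_mul_of_nonneg_left (gibbs_pt (hv x) (hp x)) (hm x).le
    nlinarith
  refine (Finset.sum_le_sum fun x _ => h3 x).trans (le_of_eq ?_)
  rw [Finset.sum_add_distrib, Finset.sum_sub_distrib, Finset.sum_sub_distrib,
    hR.mass hm hws v, sub_self, add_zero]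

theorem pow_nonneg_ne (hR : IsRes w m h R) [Nonempty V] {v : V → ℝ} (hv : ∀ x, 0 ≤ v x) (hv0 : v ≠ 0)
    (j : ℕ) : (∀ x, 0 ≤ (R ^ j) v x) ∧ (R ^ j) v ≠ 0 := by
  induction j with
  | zero => exact ⟨hv, hv0⟩
  | succ j ih =>
    have h1 := hR.pos _ ih.1 ih.2
    rw [pow_succ']
    refine ⟨fun x => (h1 x).le, fun h2 => ?_⟩
    obtain ⟨x⟩ := ‹Nonempty V›
    have := h1 x
    rw [← Module.End.mul_apply, h2] at this
    exact lt_irrefl _ this

theorem pow_mass (hR : IsRes w m h R) (hm : ∀ x, 0 < m x) (hws : ∀ x y, w x y = w y x)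
    (u : V → ℝ) (j : ℕ) : ∑ x, m x * (R ^ j) u x = ∑ x, m x * u x := by
  induction j with
  | zero => rfl
  | succ j ih =>
    rw [pow_succ', ← ih]
    exact hR.mass hm hws _

theorem pow_symm (hR : IsRes w m h R) (hm : ∀ x, 0 < m x) (hws : ∀ x y, w x y = w y x)
    (u v : V → ℝ) (j : ℕ) :
    ∑ x, m x * ((R ^ j) u x * v x) = ∑ x, m x * (u x * (R ^ j) v x) := by
  induction j generalizing u v with
  | zero => rfl
  | succ j ih =>
    have h1 : (R ^ (j + 1)) u = R ((R ^ j) u) := by rw [pow_succ']; rfl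
    have h2 : (R ^ (j + 1)) v = (R ^ j) (R v) := by rw [pow_succ]; rfl
    rw [h1, h2, hR.symm hm hws, ih]

/-- total energy -/
theorem ent_sum (hR : IsRes w m h R) (hh : 0 < h) (hm : ∀ x, 0 < m x)
    (hw : ∀ x y, 0 < w x y) (hws : ∀ x y, w x y = w y x) [Nonempty V]
    {v : V → ℝ} (hv : ∀ x, 0 ≤ v x) (hv1 : ∑ x, m x * v x = 1) (N : ℕ) :
    2 * (h * ∑ j ∈ Finset.range N, ∑ e : V × V,
      w e.1 e.2 * (√((R ^ (j + 1)) v e.1) - √((R ^ (j + 1)) v e.2)) ^ 2) ≤
      ∑ x, m x * (v x * Real.log (v x)) + Real.log (∑ x, m x) := by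
  have hv0 : v ≠ 0 := by
    intro h0
    rw [h0] at hv1
    simp at hv1
  have hM : 0 < ∑ x, m x := Finset.sum_pos (fun x _ => hm x) Finset.univ_nonempty
  have h1 : ∀ N : ℕ, 2 * (h * ∑ j ∈ Finset.range N, ∑ e : V × V,
      w e.1 e.2 * (√((R ^ (j + 1)) v e.1) - √((R ^ (j + 1)) v e.2)) ^ 2) ≤
      ∑ x, m x * (v x * Real.log (v x)) -
        ∑ x, m x * ((R ^ N) v x * Real.log ((R ^ N) v x)) := by
    intro N
    induction N with
    | zero => simp
    | succ N ih =>
      rw [Finset.sum_range_succ, mul_add, mul_add]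
      have h2 := hR.pow_nonneg_ne hv hv0 N
      have h3 := hR.ent_step hh hm hw hws h2.1 h2.2
      have h4 : (R ^ (N + 1)) v = R ((R ^ N) v) := by rw [pow_succ']; rfl
      rw [h4]
      linarith
  refine (h1 N).trans ?_
  have h2 : - Real.log (∑ x, m x) ≤ ∑ x, m x * ((R ^ N) v x * Real.log ((R ^ N) v x)) := by
    have h3 : ∀ x, m x * ((R ^ N) v x * Real.log (1 / ∑ x, m x)) -
        m x * ((R ^ N) v x * Real.log ((R ^ N) v x)) ≤ m x * (1 / ∑ x, m x) -
          m x * (R ^ N) v x := by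
      intro x
      have := mul_le_mul_of_nonneg_left (gibbs_pt ((hR.pow_nonneg_ne hv hv0 N).1 x)
        (one_div_pos.2 hM)) (hm x).le
      linarith
    have h4 := Finset.sum_le_sum fun x (_ : x ∈ Finset.univ) => h3 x
    rw [Finset.sum_sub_distrib, Finset.sum_sub_distrib, hR.pow_mass hm hws, hv1,
      ← Finset.sum_mul, mul_one_div_cancel hM.ne', sub_self] at h4
    have h5 : ∑ x, m x * ((R ^ N) v x * Real.log (1 / ∑ x, m x)) = - Real.log (∑ x, m x) := by
      simp_rw [← mul_assoc]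
      rw [← Finset.sum_mul, hR.pow_mass hm hws, hv1, one_mul, Real.log_div one_ne_zero hM.ne',
        Real.log_one, zero_sub]
    linarith
  linarith

theorem energy_tendsto (hR : IsRes w m h R) (hh : 0 < h) (hm : ∀ x, 0 < m x)
    (hw : ∀ x y, 0 < w x y) (hws : ∀ x y, w x y = w y x) (F : V → ℝ) (e : V × V) :
    Tendsto (fun j : ℕ => |(R ^ j) F e.1 - (R ^ j) F e.2|) atTop (𝓝 0) := by
  set En : (V → ℝ) → ℝ := fun u => ∑ e : V × V, w e.1 e.2 * ((u e.1 - u e.2) * (u e.1 - u e.2))
    with hEn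
  have hEn0 : ∀ u, 0 ≤ En u := fun u =>
    Finset.sum_nonneg fun e _ => mul_nonneg (hw _ _).le (mul_self_nonneg _)
  have h1 : ∀ v : V → ℝ, ∑ x, m x * R v x ^ 2 + 2 * (h * En (R v)) ≤ ∑ x, m x * v x ^ 2 := by
    intro v
    have h2 : ∑ x, m x * v x ^ 2 = ∑ x, m x * R v x ^ 2 +
        2 * (h * ∑ x, m x * (lap w m (R v) x * R v x)) +
        ∑ x, m x * (h * lap w m (R v) x) ^ 2 := by
      rw [Finset.mul_sum, Finset.mul_sum, ← Finset.sum_add_distrib, ← Finset.sum_add_distrib]
      refine Finset.sum_congr rfl fun x _ => ?_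
      have := hR.eq1 v x
      rw [← this]; ring
    rw [h2, lap_inner hm hws]
    have h3 : 0 ≤ ∑ x, m x * (h * lap w m (R v) x) ^ 2 :=
      Finset.sum_nonneg fun x _ => mul_nonneg (hm x).le (sq_nonneg _)
    simp only [hEn]
    linarith
  have h2 : ∀ N : ℕ, 2 * (h * ∑ j ∈ Finset.range N, En ((R ^ (j + 1)) F)) +
      ∑ x, m x * (R ^ N) F x ^ 2 ≤ ∑ x, m x * F x ^ 2 := by
    intro N
    induction N with
    | zero => simp
    | succ N ih =>
      rw [Finset.sum_range_succ, mul_add, mul_add]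
      have h4 : (R ^ (N + 1)) F = R ((R ^ N) F) := by rw [pow_succ']; rfl
      have h3 := h1 ((R ^ N) F)
      rw [h4]
      linarith
  have h3 : Summable fun j : ℕ => En ((R ^ (j + 1)) F) := by
    refine summable_of_sum_range_le (c := (∑ x, m x * F x ^ 2) / (2 * h)) (fun j => hEn0 _)
      fun N => ?_
    rw [le_div_iff₀ (by positivity)]
    have h4 : 0 ≤ ∑ x, m x * (R ^ N) F x ^ 2 :=
      Finset.sum_nonneg fun x _ => mul_nonneg (hm x).le (sq_nonneg _)
    have := h2 N
    linarith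
  have h4 := h3.tendsto_atTop_zero
  rw [← tendsto_add_atTop_iff_nat 1]
  have h5 : Tendsto (fun j : ℕ => √(En ((R ^ (j + 1)) F) / w e.1 e.2)) atTop (𝓝 0) := by
    have h6 := (h4.div_const (w e.1 e.2)).sqrt
    simpa using h6
  refine squeeze_zero (fun j => abs_nonneg _) (fun j => ?_) h5
  rw [← Real.sqrt_sq_eq_abs]
  refine Real.sqrt_le_sqrt ?_
  rw [le_div_iff₀ (hw _ _)]
  simp only [hEn]
  refine le_trans (le_of_eq ?_) (Finset.single_le_sum (f := fun e : V × V => w e.1 e.2 *
    (((R ^ (j + 1)) F e.1 - (R ^ (j + 1)) F e.2) * ((R ^ (j + 1)) F e.1 - (R ^ (j + 1)) F e.2)))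
    (fun e _ => mul_nonneg (hw _ _).le (mul_self_nonneg _)) (Finset.mem_univ e))
  ring

/-- telescoping -/
theorem telescope (hR : IsRes w m h R) (F : V → ℝ) (N : ℕ) :
    F = h • ∑ l ∈ Finset.range N, ((R ^ (l + 1)) ((R ^ l) (lap w m F)) +
      (R ^ (l + 1)) ((R ^ (l + 1)) (lap w m F))) + (R ^ (2 * N)) F := by
  have h1 : ∀ v, v = R v + h • R (lap w m v) := by
    intro v
    have := hR.eq2 v
    rw [map_add, map_smul] at this
    exact this.symm
  have h2 : ∀ j : ℕ, (R ^ j) F = (R ^ (j + 1)) F + h • (R ^ (j + 1)) (lap w m F) := by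
    intro j
    conv_lhs => rw [h1 F]
    rw [map_add, map_smul, pow_succ]
    rfl
  induction N with
  | zero => simp
  | succ N ih =>
    conv_lhs => rw [ih]
    rw [Finset.sum_range_succ, smul_add, add_assoc]
    congr 1
    have h3 : (R ^ (2 * N)) F = h • (R ^ (2 * N + 1)) (lap w m F) +
        (h • (R ^ (2 * N + 2)) (lap w m F) + (R ^ (2 * N + 2)) F) := by
      rw [h2 (2 * N), h2 (2 * N + 1)]
      abel
    have h4 : (R ^ (N + 1)) ((R ^ N) (lap w m F)) = (R ^ (2 * N + 1)) (lap w m F) := by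
      rw [← Module.End.mul_apply, ← pow_add]
      congr 2
      ring
    have h5 : (R ^ (N + 1)) ((R ^ (N + 1)) (lap w m F)) = (R ^ (2 * N + 2)) (lap w m F) := by
      rw [← Module.End.mul_apply, ← pow_add]
      congr 2
      ring
    rw [h4, h5, h3, smul_add, show 2 * (N + 1) = 2 * N + 2 by ring]
    abel

/-- kernel formula -/
theorem kernel (hR : IsRes w m h R) (hm : ∀ x, 0 < m x) (hws : ∀ x y, w x y = w y x)
    [DecidableEq V] (F : V → ℝ) (e' : V × V)
    (hF : ∀ φ : V → ℝ, ∑ e : V × V, w e.1 e.2 * ((F e.1 - F e.2) * (φ e.1 - φ e.2)) =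
      w e'.1 e'.2 * (φ e'.1 - φ e'.2)) (i j : ℕ) (x : V) :
    (R ^ j) ((R ^ i) (lap w m F)) x = w e'.1 e'.2 * ∑ z, m z *
      (((R ^ i) (Pi.single z (1 / m z)) e'.1 - (R ^ i) (Pi.single z (1 / m z)) e'.2) *
        (R ^ j) (Pi.single z (1 / m z)) x) := by
  have h1 : ∀ ψ : V → ℝ, ψ = ∑ z, (m z * ψ z) • (Pi.single z (1 / m z) : V → ℝ) := by
    intro ψ
    funext y
    simp only [Finset.sum_apply, Pi.smul_apply, smul_eq_mul]
    rw [Finset.sum_eq_single y]
    · rw [Pi.single_eq_same]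
      have := (hm y).ne'
      field_simp
    · intro z _ hz
      rw [Pi.single_eq_of_ne (Ne.symm hz), mul_zero]
    · intro h; exact absurd (Finset.mem_univ y) h
  have h2 : ∀ z, (R ^ i) (lap w m F) z = w e'.1 e'.2 *
      ((R ^ i) (Pi.single z (1 / m z)) e'.1 - (R ^ i) (Pi.single z (1 / m z)) e'.2) := by
    intro z
    have h3 : (R ^ i) (lap w m F) z = ∑ x, m x * ((R ^ i) (lap w m F) x *
        (Pi.single z (1 / m z) : V → ℝ) x) := by
      rw [Finset.sum_eq_single z]
      · rw [Pi.single_eq_same]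
        have := (hm z).ne'
        field_simp
      · intro y _ hy
        rw [Pi.single_eq_of_ne hy, mul_zero, mul_zero]
      · intro h; exact absurd (Finset.mem_univ z) h
    rw [h3, hR.pow_symm hm hws, lap_inner hm hws, hF]
  have h3 := congrFun (congrArg (R ^ j) (h1 ((R ^ i) (lap w m F)))) x
  rw [h3, map_sum]
  simp only [map_smul, Finset.sum_apply, Pi.smul_apply, smul_eq_mul]
  rw [Finset.mul_sum]
  refine Finset.sum_congr rfl fun z _ => ?_
  rw [h2 z]
  ring

end IsRes

/-- the key Cauchy–Schwarz inequality -/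
theorem cs_key (hw : ∀ x y, 0 < w x y) (hws : ∀ x y, w x y = w y x) (g : V × V → ℝ)
    (hgm : ∀ x, ∑ y, (w x y * g (x, y) ^ 2 + w y x * g (y, x) ^ 2) ≤ m x)
    (u : V → ℝ) (hu : ∀ x, 0 ≤ u x) (hu1 : ∑ x, m x * u x = 1) :
    (∑ e : V × V, w e.1 e.2 * g e * |u e.1 - u e.2|) ^ 2 ≤
      2 * ∑ e : V × V, w e.1 e.2 * (√(u e.1) - √(u e.2)) ^ 2 := by
  have h1 := Finset.sum_mul_sq_le_sq_mul_sq (Finset.univ : Finset (V × V))
    (fun e => √(w e.1 e.2) * |√(u e.1) - √(u e.2)|)
    (fun e => √(w e.1 e.2) * g e * (√(u e.1) + √(u e.2)))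
  have h2 : ∀ e : V × V, √(w e.1 e.2) * |√(u e.1) - √(u e.2)| *
      (√(w e.1 e.2) * g e * (√(u e.1) + √(u e.2))) = w e.1 e.2 * g e * |u e.1 - u e.2| := by
    intro e
    have h3 := Real.mul_self_sqrt (hw e.1 e.2).le
    have h4 : |u e.1 - u e.2| = |√(u e.1) - √(u e.2)| * (√(u e.1) + √(u e.2)) := by
      rw [← abs_of_nonneg (add_nonneg (Real.sqrt_nonneg (u e.1)) (Real.sqrt_nonneg (u e.2))),
        ← abs_mul]
      congr 1
      nlinarith [Real.sq_sqrt (hu e.1), Real.sq_sqrt (hu e.2)]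
    rw [h4]
    calc √(w e.1 e.2) * |√(u e.1) - √(u e.2)| * (√(w e.1 e.2) * g e * (√(u e.1) + √(u e.2)))
        = (√(w e.1 e.2) * √(w e.1 e.2)) * g e *
          (|√(u e.1) - √(u e.2)| * (√(u e.1) + √(u e.2))) := by ring
      _ = _ := by rw [h3]
  simp_rw [h2] at h1
  refine h1.trans ?_
  have h3 : ∑ e : V × V, (√(w e.1 e.2) * |√(u e.1) - √(u e.2)|) ^ 2 =
      ∑ e : V × V, w e.1 e.2 * (√(u e.1) - √(u e.2)) ^ 2 := by
    refine Finset.sum_congr rfl fun e _ => ?_
    rw [mul_pow, Real.sq_sqrt (hw _ _).le, sq_abs]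
  have h4 : ∑ e : V × V, (√(w e.1 e.2) * g e * (√(u e.1) + √(u e.2))) ^ 2 ≤ 2 := by
    have h5 : ∀ e : V × V, (√(w e.1 e.2) * g e * (√(u e.1) + √(u e.2))) ^ 2 ≤
        2 * (w e.1 e.2 * g e ^ 2 * (u e.1 + u e.2)) := by
      intro e
      rw [mul_pow, mul_pow, Real.sq_sqrt (hw _ _).le]
      have h6 : (√(u e.1) + √(u e.2)) ^ 2 ≤ 2 * (u e.1 + u e.2) := by
        nlinarith [Real.sq_sqrt (hu e.1), Real.sq_sqrt (hu e.2),
          sq_nonneg (√(u e.1) - √(u e.2))]
      have h7 : 0 ≤ w e.1 e.2 * g e ^ 2 := mul_nonneg (hw _ _).le (sq_nonneg _)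
      nlinarith [mul_le_mul_of_nonneg_left h6 h7]
    refine (Finset.sum_le_sum fun e _ => h5 e).trans ?_
    rw [← Finset.mul_sum]
    have h6 : ∑ e : V × V, w e.1 e.2 * g e ^ 2 * (u e.1 + u e.2) =
        ∑ x, (∑ y, (w x y * g (x, y) ^ 2 + w y x * g (y, x) ^ 2)) * u x := by
      rw [Fintype.sum_prod_type]
      simp only
      have h7 : ∑ x, ∑ y, w x y * g (x, y) ^ 2 * (u x + u y) =
          ∑ x, ∑ y, w x y * g (x, y) ^ 2 * u x + ∑ x, ∑ y, w x y * g (x, y) ^ 2 * u y := by
        rw [← Finset.sum_add_distrib]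
        refine Finset.sum_congr rfl fun x _ => ?_
        rw [← Finset.sum_add_distrib]
        exact Finset.sum_congr rfl fun y _ => by ring
      rw [h7, Finset.sum_comm (f := fun x y => w x y * g (x, y) ^ 2 * u y),
        ← Finset.sum_add_distrib]
      refine Finset.sum_congr rfl fun x _ => ?_
      rw [Finset.sum_mul, ← Finset.sum_add_distrib]
      exact Finset.sum_congr rfl fun y _ => by ring
    rw [h6]
    have h7 : ∑ x, (∑ y, (w x y * g (x, y) ^ 2 + w y x * g (y, x) ^ 2)) * u x ≤ 1 := by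
      rw [← hu1]
      exact Finset.sum_le_sum fun x _ => mul_le_mul_of_nonneg_right (hgm x) (hu x)
    linarith
  rw [h3]
  have h5 : 0 ≤ ∑ e : V × V, w e.1 e.2 * (√(u e.1) - √(u e.2)) ^ 2 :=
    Finset.sum_nonneg fun e _ => mul_nonneg (hw _ _).le (sq_nonneg _)
  nlinarith [mul_le_mul_of_nonneg_left h4 h5]

theorem exists_proj (w : V × V → ℝ) (hw : ∀ e, 0 < w e) :
    ∃ K : V × V → V × V → ℝ,
      (∀ g : V × V → ℝ, ∃ F : V → ℝ, ∀ e : V × V, ∑ e', K e e' * g e' = F e.1 - F e.2) ∧
      (∀ g : V × V → ℝ, ∀ φ : V → ℝ, ∑ e, w e * ((∑ e', K e e' * g e') * (φ e.1 - φ e.2)) =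
        ∑ e, w e * (g e * (φ e.1 - φ e.2))) := by
  classical
  set Δ : (V → ℝ) →ₗ[ℝ] EuclideanSpace ℝ (V × V) :=
    { toFun := fun F => WithLp.toLp 2 fun e => √(w e) * (F e.1 - F e.2)
      map_add' := fun F G => by
        ext e
        simp only [Pi.add_apply, PiLp.add_apply]
        ring
      map_smul' := fun c F => by
        ext e
        simp only [Pi.smul_apply, smul_eq_mul, RingHom.id_apply, PiLp.smul_apply]
        ring } with hΔ
  set S := LinearMap.range Δ with hS
  set J : (V × V → ℝ) →ₗ[ℝ] EuclideanSpace ℝ (V × V) :=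
    { toFun := fun g => WithLp.toLp 2 fun e => √(w e) * g e
      map_add' := fun F G => by
        ext e
        simp only [Pi.add_apply, PiLp.add_apply]
        ring
      map_smul' := fun c F => by
        ext e
        simp only [Pi.smul_apply, smul_eq_mul, RingHom.id_apply, PiLp.smul_apply]
        ring } with hJ
  set Pl : (V × V → ℝ) →ₗ[ℝ] (V × V → ℝ) :=
    { toFun := fun g e => (S.starProjection (J g)) e / √(w e)
      map_add' := fun F G => by
        ext e
        simp only [map_add, Pi.add_apply, PiLp.add_apply]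
        ring
      map_smul' := fun c F => by
        ext e
        simp only [map_smul, Pi.smul_apply, smul_eq_mul, RingHom.id_apply, PiLp.smul_apply]
        ring } with hPl
  have hsum : ∀ g e, ∑ e', Pl (Pi.single e' 1) e * g e' = Pl g e := by
    intro g e
    have h1 := congrFun (LinearMap.pi_apply_eq_sum_univ Pl g) e
    rw [h1]
    simp only [Finset.sum_apply, Pi.smul_apply, smul_eq_mul]
    refine Finset.sum_congr rfl fun e' _ => ?_
    have h2 : (Pi.single e' 1 : V × V → ℝ) = fun j => if e' = j then 1 else 0 := by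
      funext j
      simp [Pi.single_apply, eq_comm]
    rw [mul_comm, h2]
  have hsq : ∀ e, √(w e) ≠ 0 := fun e => (Real.sqrt_pos.2 (hw e)).ne'
  refine ⟨fun e e' => Pl (Pi.single e' 1) e, fun g => ?_, fun g φ => ?_⟩
  · have h1 : S.starProjection (J g) ∈ S := by
      rw [Submodule.starProjection_apply]; exact Submodule.coe_mem _
    obtain ⟨F, hF⟩ := h1
    refine ⟨F, fun e => ?_⟩
    rw [hsum]
    simp only [hPl, LinearMap.coe_mk, AddHom.coe_mk]
    rw [← hF]
    simp only [hΔ, LinearMap.coe_mk, AddHom.coe_mk]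
    rw [mul_comm, mul_div_assoc, div_self (hsq e), mul_one]
  · simp_rw [hsum]
    have h1 : inner ℝ (J g - S.starProjection (J g)) (Δ φ) = 0 := by
      have := Submodule.starProjection_inner_eq_zero (K := S) (J g) (Δ φ) ⟨φ, rfl⟩
      exact this
    rw [inner_sub_left, sub_eq_zero] at h1
    rw [PiLp.inner_apply, PiLp.inner_apply] at h1
    simp only [hΔ, hJ, LinearMap.coe_mk, AddHom.coe_mk] at h1
    have h2 : ∀ e, w e = √(w e) * √(w e) := fun e => (Real.mul_self_sqrt (hw e).le).symm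
    calc ∑ e, w e * (Pl g e * (φ e.1 - φ e.2))
        = ∑ e, inner ℝ ((S.starProjection (J g)) e) (√(w e) * (φ e.1 - φ e.2)) := by
          refine Finset.sum_congr rfl fun e _ => ?_
          have key : ∀ s W X D : ℝ, s ≠ 0 → W = s * s → W * (X / s * D) = (s * D) * X := by
            intro s W X D h0 h3
            subst h3
            field_simp
          exact key _ _ _ _ (hsq e) (h2 e)
      _ = ∑ e, inner ℝ (√(w e) * g e) (√(w e) * (φ e.1 - φ e.2)) := h1.symm
      _ = _ := by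
          refine Finset.sum_congr rfl fun e _ => ?_
          have key : ∀ s W X D : ℝ, W = s * s → (s * D) * (s * X) = W * (X * D) := by
            intro s W X D h3
            subst h3
            ring
          exact key _ _ _ _ (h2 e)

/-- The estimate for fixed vertex weight `m`. -/
theorem quad_step [Nonempty V] (hm : ∀ x, 0 < m x) (hw : ∀ x y, 0 < w x y)
    (hws : ∀ x y, w x y = w y x) (K : V × V → V × V → ℝ)
    (hKa : ∀ g : V × V → ℝ, ∃ F : V → ℝ, ∀ e : V × V, ∑ e', K e e' * g e' = F e.1 - F e.2)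
    (hKn : ∀ g : V × V → ℝ, ∀ φ : V → ℝ,
      ∑ e : V × V, w e.1 e.2 * ((∑ e', K e e' * g e') * (φ e.1 - φ e.2)) =
        ∑ e : V × V, w e.1 e.2 * (g e * (φ e.1 - φ e.2)))
    (g : V × V → ℝ) (hg : ∀ e, 0 ≤ g e)
    (hgm : ∀ x, ∑ y, (w x y * g (x, y) ^ 2 + w y x * g (y, x) ^ 2) ≤ m x) :
    ∑ e : V × V, ∑ e', w e.1 e.2 * g e * (|K e e'| * g e') ≤
      (2 * Real.log (Fintype.card V) + 1) * ∑ x, m x := by
  classical
  have hM : 0 < ∑ x, m x := Finset.sum_pos (fun x _ => hm x) Finset.univ_nonempty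
  set M := ∑ x, m x with hMdef
  -- the point masses
  set δ : V → V → ℝ := fun z => Pi.single z (1 / m z) with hδ
  have hδ0 : ∀ z x, 0 ≤ δ z x := by
    intro z x
    simp only [hδ]
    by_cases h : x = z
    · subst h; rw [Pi.single_eq_same]; exact (one_div_pos.2 (hm _)).le
    · rw [Pi.single_eq_of_ne h]
  have hδ1 : ∀ z, ∑ x, m x * δ z x = 1 := by
    intro z
    simp only [hδ]
    rw [Finset.sum_eq_single z]
    · rw [Pi.single_eq_same, mul_one_div_cancel (hm z).ne']
    · intro y _ hy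
      rw [Pi.single_eq_of_ne hy, mul_zero]
    · intro h; exact absurd (Finset.mem_univ z) h
  have hδe : ∀ z, ∑ x, m x * (δ z x * Real.log (δ z x)) = - Real.log (m z) := by
    intro z
    simp only [hδ]
    rw [Finset.sum_eq_single z]
    · rw [Pi.single_eq_same, ← mul_assoc, mul_one_div_cancel (hm z).ne', one_mul,
        Real.log_div one_ne_zero (hm z).ne', Real.log_one, zero_sub]
    · intro y _ hy
      rw [Pi.single_eq_of_ne hy, zero_mul, mul_zero]
    · intro h; exact absurd (Finset.mem_univ z) h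
  -- functional `a`
  set a : (V → ℝ) → ℝ := fun u => ∑ e : V × V, w e.1 e.2 * g e * |u e.1 - u e.2| with ha
  have ha0 : ∀ u, 0 ≤ a u := fun u =>
    Finset.sum_nonneg fun e _ => mul_nonneg (mul_nonneg (hw _ _).le (hg _)) (abs_nonneg _)
  set A₀ : ℝ := ∑ z, m z * a (δ z) ^ 2 with hA₀
  have hA₀0 : 0 ≤ A₀ := Finset.sum_nonneg fun z _ => mul_nonneg (hm z).le (sq_nonneg _)
  -- choice of h
  set h : ℝ := 2 * M / (A₀ + 1) with hh
  have hh0 : 0 < h := by positivity
  have hhA : h / 2 * A₀ ≤ M := by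
    have h1 : h / 2 * A₀ = M * (A₀ / (A₀ + 1)) := by rw [hh]; ring
    rw [h1]
    have h2 : A₀ / (A₀ + 1) ≤ 1 := by rw [div_le_one (by linarith)]; linarith
    nlinarith [mul_le_mul_of_nonneg_left h2 hM.le]
  obtain ⟨R, hR⟩ := exists_res (w := w) (m := m) hm hw hh0
  -- potentials of the columns
  have hcol : ∀ e' : V × V, ∃ F : V → ℝ, (∀ e : V × V, K e e' = F e.1 - F e.2) ∧
      ∀ φ : V → ℝ, ∑ e : V × V, w e.1 e.2 * ((F e.1 - F e.2) * (φ e.1 - φ e.2)) =
      w e'.1 e'.2 * (φ e'.1 - φ e'.2) := by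
    intro e'
    obtain ⟨F, hF⟩ := hKa (Pi.single e' 1)
    have h1 : ∀ e, ∑ e'', K e e'' * (Pi.single e' 1 : V × V → ℝ) e'' = K e e' := by
      intro e
      rw [Finset.sum_eq_single e']
      · rw [Pi.single_eq_same, mul_one]
      · intro y _ hy
        rw [Pi.single_eq_of_ne hy, mul_zero]
      · intro h; exact absurd (Finset.mem_univ e') h
    refine ⟨F, fun e => by rw [← h1 e, hF e], fun φ => ?_⟩
    have h2 := hKn (Pi.single e' 1) φ
    simp_rw [hF] at h2
    rw [h2, Finset.sum_eq_single e']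
    · rw [Pi.single_eq_same, one_mul]
    · intro y _ hy
      rw [Pi.single_eq_of_ne hy, zero_mul, mul_zero]
    · intro h; exact absurd (Finset.mem_univ e') h
  choose F hF1 hF2 using hcol
  -- sums of `a`
  set r : ℕ → V → V → ℝ := fun j z => (R ^ j) (δ z) with hr
  have hasum : ∀ z, ∀ N : ℕ, 2 * (h * ∑ l ∈ Finset.range N, a (r (l + 1) z) ^ 2) ≤
      2 * (Real.log M - Real.log (m z)) := by
    intro z N
    have h1 := hR.ent_sum hh0 hm hw hws (hδ0 z) (hδ1 z) N
    rw [hδe z] at h1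
    have hz0 : δ z ≠ 0 := by
      intro h0
      have := hδ1 z
      rw [h0] at this
      simp at this
    have h2 : ∀ l, a (r (l + 1) z) ^ 2 ≤ 2 * ∑ e : V × V,
        w e.1 e.2 * (√((R ^ (l + 1)) (δ z) e.1) - √((R ^ (l + 1)) (δ z) e.2)) ^ 2 := by
      intro l
      refine cs_key hw hws g hgm _ (hR.pow_nonneg_ne (hδ0 z) hz0 (l + 1)).1 ?_
      rw [hR.pow_mass hm hws, hδ1]
    have h3 : h * ∑ l ∈ Finset.range N, a (r (l + 1) z) ^ 2 ≤ h * (2 * ∑ l ∈ Finset.range N,
        ∑ e : V × V, w e.1 e.2 *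
          (√((R ^ (l + 1)) (δ z) e.1) - √((R ^ (l + 1)) (δ z) e.2)) ^ 2) := by
      refine mul_le_mul_of_nonneg_left ?_ hh0.le
      rw [Finset.mul_sum]
      exact Finset.sum_le_sum fun l _ => h2 l
    have h4 : ∑ x, m x = M := rfl
    rw [h4] at h1
    linarith
  -- the pairing
  set Φ : (V × V → V × V → ℝ) →ₗ[ℝ] ℝ :=
    { toFun := fun c => ∑ e : V × V, ∑ e' : V × V, w e.1 e.2 * g e * (c e e' * g e')
      map_add' := fun c c' => by
        rw [← Finset.sum_add_distrib]
        refine Finset.sum_congr rfl fun e _ => ?_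
        rw [← Finset.sum_add_distrib]
        refine Finset.sum_congr rfl fun e' _ => ?_
        simp only [Pi.add_apply]
        ring
      map_smul' := fun t c => by
        rw [smul_eq_mul, Finset.mul_sum]
        refine Finset.sum_congr rfl fun e _ => ?_
        rw [Finset.mul_sum]
        refine Finset.sum_congr rfl fun e' _ => ?_
        simp only [Pi.smul_apply, smul_eq_mul, RingHom.id_apply]
        ring } with hΦ
  have hΦa : ∀ c, Φ c = ∑ e : V × V, ∑ e' : V × V, w e.1 e.2 * g e * (c e e' * g e') :=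
    fun c => rfl
  have hΦm : ∀ c c', (∀ e e', c e e' ≤ c' e e') → Φ c ≤ Φ c' := by
    intro c c' hcc
    rw [hΦa, hΦa]
    refine Finset.sum_le_sum fun e _ => Finset.sum_le_sum fun e' _ => ?_
    exact mul_le_mul_of_nonneg_left (mul_le_mul_of_nonneg_right (hcc e e') (hg e'))
      (mul_nonneg (hw _ _).le (hg e))
  set k : ℕ → ℕ → V × V → V × V → ℝ := fun i j e e' =>
    |(R ^ j) ((R ^ i) (lap w m (F e'))) e.1 - (R ^ j) ((R ^ i) (lap w m (F e'))) e.2| with hk
  have hker : ∀ i j : ℕ, Φ (k i j) ≤ ∑ z, m z * (a (r i z) * a (r j z)) := by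
    intro i j
    set c : V → V × V → V × V → ℝ := fun z e e' =>
      w e'.1 e'.2 * (|r i z e'.1 - r i z e'.2| * |r j z e.1 - r j z e.2|) with hc
    have h1 : ∀ e e' : V × V, k i j e e' ≤ (∑ z, m z • c z) e e' := by
      intro e e'
      simp only [hk]
      rw [hR.kernel hm hws (F e') e' (hF2 e') i j e.1, hR.kernel hm hws (F e') e' (hF2 e') i j e.2,
        ← mul_sub, ← Finset.sum_sub_distrib, abs_mul, abs_of_pos (hw _ _)]
      have h2 : (∑ z, m z • c z) e e' = w e'.1 e'.2 * ∑ z, m z *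
          (|r i z e'.1 - r i z e'.2| * |r j z e.1 - r j z e.2|) := by
        rw [Finset.sum_apply, Finset.sum_apply, Finset.mul_sum]
        refine Finset.sum_congr rfl fun z _ => ?_
        simp only [hc, Pi.smul_apply, smul_eq_mul]
        ring
      rw [h2]
      refine mul_le_mul_of_nonneg_left ?_ (hw _ _).le
      refine (Finset.abs_sum_le_sum_abs _ _).trans (le_of_eq ?_)
      refine Finset.sum_congr rfl fun z _ => ?_
      rw [← mul_sub, ← mul_sub, abs_mul, abs_mul, abs_of_pos (hm z)]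
    refine (hΦm _ _ h1).trans (le_of_eq ?_)
    rw [map_sum]
    refine Finset.sum_congr rfl fun z _ => ?_
    rw [map_smul, smul_eq_mul]
    congr 1
    rw [hΦa, mul_comm]
    simp only [ha, hc]
    rw [Finset.sum_mul_sum]
    refine Finset.sum_congr rfl fun e _ => Finset.sum_congr rfl fun e' _ => ?_
    ring
  -- main inequality for each `N`
  have hmain : ∀ N : ℕ, Φ (fun e e' => |K e e'|) ≤
      (2 * Real.log (Fintype.card V) + 1) * M +
        Φ (fun (e e' : V × V) => |(R ^ (2 * N)) (F e') e.1 - (R ^ (2 * N)) (F e') e.2|) := by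
    intro N
    have h1 : ∀ e e' : V × V, |K e e'| ≤ (h • ∑ l ∈ Finset.range N,
        (k l (l + 1) + k (l + 1) (l + 1)) +
        fun (e e' : V × V) => |(R ^ (2 * N)) (F e') e.1 - (R ^ (2 * N)) (F e') e.2|) e e' := by
      intro e e'
      rw [hF1 e' e]
      have h2 := hR.telescope (F e') N
      have h3 : ∀ x, F e' x = h * ∑ l ∈ Finset.range N,
          ((R ^ (l + 1)) ((R ^ l) (lap w m (F e'))) x +
            (R ^ (l + 1)) ((R ^ (l + 1)) (lap w m (F e'))) x) + (R ^ (2 * N)) (F e') x := by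
        intro x
        have h4 := congrFun h2 x
        simpa [Finset.sum_apply] using h4
      have h5 : F e' e.1 - F e' e.2 = h * ∑ l ∈ Finset.range N,
          (((R ^ (l + 1)) ((R ^ l) (lap w m (F e'))) e.1 -
            (R ^ (l + 1)) ((R ^ l) (lap w m (F e'))) e.2) +
          ((R ^ (l + 1)) ((R ^ (l + 1)) (lap w m (F e'))) e.1 -
            (R ^ (l + 1)) ((R ^ (l + 1)) (lap w m (F e'))) e.2)) +
          ((R ^ (2 * N)) (F e') e.1 - (R ^ (2 * N)) (F e') e.2) := by
        rw [h3 e.1, h3 e.2]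
        have h6 : ∀ (A B c d h : ℝ), (h * A + c) - (h * B + d) = h * (A - B) + (c - d) := by
          intros; ring
        rw [h6, ← Finset.sum_sub_distrib]
        congr 2
        exact Finset.sum_congr rfl fun l _ => by ring
      rw [h5]
      refine (abs_add_le _ _).trans ?_
      simp only [Pi.add_apply, Pi.smul_apply, smul_eq_mul, Finset.sum_apply]
      refine add_le_add ?_ le_rfl
      rw [abs_mul, abs_of_pos hh0]
      refine mul_le_mul_of_nonneg_left ?_ hh0.le
      exact (Finset.abs_sum_le_sum_abs _ _).trans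
        (Finset.sum_le_sum fun l _ => abs_add_le _ _)
    refine (hΦm _ _ h1).trans ?_
    rw [map_add, map_smul, map_sum, smul_eq_mul]
    refine add_le_add ?_ le_rfl
    have h2 : ∀ l, Φ (k l (l + 1) + k (l + 1) (l + 1)) ≤
        ∑ z, m z * (1 / 2 * a (r l z) ^ 2 + 3 / 2 * a (r (l + 1) z) ^ 2) := by
      intro l
      rw [map_add]
      refine (add_le_add (hker _ _) (hker _ _)).trans ?_
      rw [← Finset.sum_add_distrib]
      refine Finset.sum_le_sum fun z _ => ?_
      rw [← mul_add]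
      refine mul_le_mul_of_nonneg_left ?_ (hm z).le
      nlinarith [sq_nonneg (a (r l z) - a (r (l + 1) z))]
    have h3 : ∀ z, h * ∑ l ∈ Finset.range N,
        (1 / 2 * a (r l z) ^ 2 + 3 / 2 * a (r (l + 1) z) ^ 2) ≤
        h / 2 * a (δ z) ^ 2 + 2 * (Real.log M - Real.log (m z)) := by
      intro z
      have h4 : ∑ l ∈ Finset.range N, a (r l z) ^ 2 ≤
          a (δ z) ^ 2 + ∑ l ∈ Finset.range N, a (r (l + 1) z) ^ 2 := by
        have h5 := Finset.sum_range_succ' (fun l => a (r l z) ^ 2) N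
        have h6 := Finset.sum_range_succ (fun l => a (r l z) ^ 2) N
        have h7 : a (r 0 z) = a (δ z) := rfl
        rw [h7] at h5
        have h8 : 0 ≤ a (r N z) ^ 2 := sq_nonneg _
        linarith
      have h5 := hasum z N
      rw [Finset.sum_add_distrib, ← Finset.mul_sum, ← Finset.mul_sum]
      have h6 := mul_le_mul_of_nonneg_left h4 hh0.le
      nlinarith
    calc h * ∑ l ∈ Finset.range N, Φ (k l (l + 1) + k (l + 1) (l + 1))
        ≤ h * ∑ l ∈ Finset.range N,
          ∑ z, m z * (1 / 2 * a (r l z) ^ 2 + 3 / 2 * a (r (l + 1) z) ^ 2) :=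
          mul_le_mul_of_nonneg_left (Finset.sum_le_sum fun l _ => h2 l) hh0.le
      _ = ∑ z, m z * (h * ∑ l ∈ Finset.range N,
          (1 / 2 * a (r l z) ^ 2 + 3 / 2 * a (r (l + 1) z) ^ 2)) := by
          rw [Finset.sum_comm, Finset.mul_sum]
          refine Finset.sum_congr rfl fun z _ => ?_
          rw [← Finset.mul_sum]
          ring
      _ ≤ ∑ z, m z * (h / 2 * a (δ z) ^ 2 + 2 * (Real.log M - Real.log (m z))) :=
          Finset.sum_le_sum fun z _ => mul_le_mul_of_nonneg_left (h3 z) (hm z).le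
      _ = h / 2 * A₀ + 2 * ∑ z, m z * (Real.log M - Real.log (m z)) := by
          rw [hA₀, Finset.mul_sum, Finset.mul_sum, ← Finset.sum_add_distrib]
          exact Finset.sum_congr rfl fun z _ => by ring
      _ ≤ M + 2 * (M * Real.log (Fintype.card V)) := by
          refine add_le_add hhA (mul_le_mul_of_nonneg_left ?_ (by norm_num))
          have hn : (0 : ℝ) < Fintype.card V := by exact_mod_cast Fintype.card_pos
          have h4 : ∀ z, m z * (Real.log M - Real.log (m z)) ≤
              (M / Fintype.card V - m z) + m z * Real.log (Fintype.card V) := by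
            intro z
            have h5 := gibbs_pt (hm z).le (div_pos hM hn)
            rw [Real.log_div hM.ne' hn.ne'] at h5
            linarith
          refine (Finset.sum_le_sum fun z _ => h4 z).trans (le_of_eq ?_)
          rw [Finset.sum_add_distrib, Finset.sum_sub_distrib, ← Finset.sum_mul]
          simp only [Finset.sum_const, Finset.card_univ, nsmul_eq_mul]
          rw [mul_div_cancel₀ _ hn.ne', ← hMdef, sub_self, zero_add]
      _ = _ := by ring
  -- the limit
  have hlim : Tendsto (fun N : ℕ => (2 * Real.log (Fintype.card V) + 1) * M +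
        Φ (fun (e e' : V × V) => |(R ^ (2 * N)) (F e') e.1 - (R ^ (2 * N)) (F e') e.2|)) atTop
      (𝓝 ((2 * Real.log (Fintype.card V) + 1) * M + 0)) := by
    refine tendsto_const_nhds.add ?_
    simp only [hΦa]
    have h1 : (0 : ℝ) = ∑ e : V × V, ∑ e' : V × V, w e.1 e.2 * g e * (0 * g e') := by simp
    rw [h1]
    refine tendsto_finsetSum _ fun e _ => tendsto_finsetSum _ fun e' _ => ?_
    refine Tendsto.const_mul _ (Tendsto.mul_const _ ?_)
    have h2 := hR.energy_tendsto hh0 hm hw hws (F e') e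
    exact h2.comp (tendsto_id.const_mul_atTop' (by norm_num : (0 : ℕ) < 2))
  rw [add_zero] at hlim
  exact ge_of_tendsto' hlim hmain

theorem quad_form [Nonempty V] (hw : ∀ x y, 0 < w x y)
    (hws : ∀ x y, w x y = w y x) (K : V × V → V × V → ℝ)
    (hKa : ∀ g : V × V → ℝ, ∃ F : V → ℝ, ∀ e : V × V, ∑ e', K e e' * g e' = F e.1 - F e.2)
    (hKn : ∀ g : V × V → ℝ, ∀ φ : V → ℝ,
      ∑ e : V × V, w e.1 e.2 * ((∑ e', K e e' * g e') * (φ e.1 - φ e.2)) =
        ∑ e : V × V, w e.1 e.2 * (g e * (φ e.1 - φ e.2)))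
    (g : V × V → ℝ) (hg : ∀ e, 0 ≤ g e) :
    ∑ e : V × V, w e.1 e.2 * (g e * ∑ e', |K e e'| * g e') ≤
      (4 * Real.log (Fintype.card V) + 2) * ∑ e : V × V, w e.1 e.2 * g e ^ 2 := by
  classical
  have hlog : 0 ≤ Real.log (Fintype.card V) := Real.log_natCast_nonneg _
  have hn : (0 : ℝ) < Fintype.card V := by exact_mod_cast Fintype.card_pos
  have h0 : ∑ e : V × V, w e.1 e.2 * (g e * ∑ e', |K e e'| * g e') =
      ∑ e : V × V, ∑ e', w e.1 e.2 * g e * (|K e e'| * g e') := by
    refine Finset.sum_congr rfl fun e _ => ?_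
    rw [← mul_assoc, Finset.mul_sum]
  rw [h0]
  refine le_of_forall_pos_le_add fun ε hε => ?_
  set η : ℝ := ε / ((2 * Real.log (Fintype.card V) + 1) * Fintype.card V) with hη
  have hη0 : 0 < η := by positivity
  have h1 := quad_step (w := w)
    (m := fun x => ∑ y, (w x y * g (x, y) ^ 2 + w y x * g (y, x) ^ 2) + η)
    (fun x => add_pos_of_nonneg_of_pos (Finset.sum_nonneg fun y _ =>
      add_nonneg (mul_nonneg (hw _ _).le (sq_nonneg _)) (mul_nonneg (hw _ _).le (sq_nonneg _))) hη0)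
    hw hws K hKa hKn g hg (fun x => by linarith)
  refine h1.trans (le_of_eq ?_)
  have h2 : ∑ x, (∑ y, (w x y * g (x, y) ^ 2 + w y x * g (y, x) ^ 2) + η) =
      2 * ∑ e : V × V, w e.1 e.2 * g e ^ 2 + Fintype.card V * η := by
    rw [Finset.sum_add_distrib]
    simp_rw [Finset.sum_add_distrib]
    rw [Finset.sum_comm (f := fun x y => w y x * g (y, x) ^ 2), Fintype.sum_prod_type]
    simp only [Finset.sum_const, Finset.card_univ, nsmul_eq_mul]
    ring
  rw [h2, hη]
  field_simp
  ring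

theorem K_symm (hw : ∀ x y, 0 < w x y) (K : V × V → V × V → ℝ)
    (hKa : ∀ g : V × V → ℝ, ∃ F : V → ℝ, ∀ e : V × V, ∑ e', K e e' * g e' = F e.1 - F e.2)
    (hKn : ∀ g : V × V → ℝ, ∀ φ : V → ℝ,
      ∑ e : V × V, w e.1 e.2 * ((∑ e', K e e' * g e') * (φ e.1 - φ e.2)) =
        ∑ e : V × V, w e.1 e.2 * (g e * (φ e.1 - φ e.2))) (a b : V × V) :
    w a.1 a.2 * K a b = w b.1 b.2 * K b a := by
  classical
  have h1 : ∀ e e', ∑ e'', K e e'' * (Pi.single e' 1 : V × V → ℝ) e'' = K e e' := by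
    intro e e'
    rw [Finset.sum_eq_single e']
    · rw [Pi.single_eq_same, mul_one]
    · intro y _ hy
      rw [Pi.single_eq_of_ne hy, mul_zero]
    · intro h; exact absurd (Finset.mem_univ e') h
  have h2 : ∀ a b : V × V, ∑ e : V × V, w e.1 e.2 * (K e a * K e b) = w a.1 a.2 * K a b := by
    intro a b
    obtain ⟨F, hF⟩ := hKa (Pi.single b 1)
    have h3 := hKn (Pi.single a 1) F
    simp_rw [← hF, h1] at h3
    rw [h3, Finset.sum_eq_single a]
    · rw [Pi.single_eq_same, one_mul]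
    · intro y _ hy
      rw [Pi.single_eq_of_ne hy, zero_mul, mul_zero]
    · intro h; exact absurd (Finset.mem_univ a) h
  rw [← h2 a b, ← h2 b a]
  exact Finset.sum_congr rfl fun e _ => by ring

/-- from the quadratic form to the operator norm -/
theorem norm_of_form {E : Type*} [Fintype E] (w : E → ℝ) (hw : ∀ e, 0 < w e) (B : E → E → ℝ)
    (hB0 : ∀ a b, 0 ≤ B a b) (hBs : ∀ a b, w a * B a b = w b * B b a) {A : ℝ} (hA : 0 < A)
    (hq : ∀ g : E → ℝ, (∀ e, 0 ≤ g e) →
      ∑ e, w e * (g e * ∑ e', B e e' * g e') ≤ A * ∑ e, w e * g e ^ 2)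
    (g : E → ℝ) (hg : ∀ e, 0 ≤ g e) :
    ∑ e, w e * (∑ e', B e e' * g e') ^ 2 ≤ A ^ 2 * ∑ e, w e * g e ^ 2 := by
  set F : (E → ℝ) → (E → ℝ) → ℝ := fun f g => ∑ e, w e * (f e * ∑ e', B e e' * g e') with hF
  have hFs : ∀ f g, F f g = F g f := by
    intro f g
    simp only [hF]
    simp_rw [Finset.mul_sum]
    rw [Finset.sum_comm]
    refine Finset.sum_congr rfl fun a _ => Finset.sum_congr rfl fun b _ => ?_
    have := hBs b a
    calc w b * (f b * (B b a * g a)) = (w b * B b a) * (f b * g a) := by ring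
      _ = (w a * B a b) * (f b * g a) := by rw [this]
      _ = _ := by ring
  have hFadd : ∀ f g : E → ℝ, F (fun e => f e + g e) (fun e => f e + g e) =
      F f f + 2 * F f g + F g g := by
    intro f g
    have h1 : F (fun e => f e + g e) (fun e => f e + g e) = F f f + F f g + F g f + F g g := by
      simp only [hF]
      rw [← Finset.sum_add_distrib, ← Finset.sum_add_distrib, ← Finset.sum_add_distrib]
      refine Finset.sum_congr rfl fun e _ => ?_
      have : ∑ e', B e e' * (f e' + g e') = ∑ e', B e e' * f e' + ∑ e', B e e' * g e' := by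
        rw [← Finset.sum_add_distrib]
        exact Finset.sum_congr rfl fun e' _ => by ring
      rw [this]; ring
    rw [h1, hFs g f]; ring
  have hFsub : ∀ f g : E → ℝ, F (fun e => f e - g e) (fun e => f e - g e) =
      F f f - 2 * F f g + F g g := by
    intro f g
    have h1 : F (fun e => f e - g e) (fun e => f e - g e) = F f f - F f g - F g f + F g g := by
      simp only [hF]
      rw [← Finset.sum_sub_distrib, ← Finset.sum_sub_distrib, ← Finset.sum_add_distrib]
      refine Finset.sum_congr rfl fun e _ => ?_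
      have : ∑ e', B e e' * (f e' - g e') = ∑ e', B e e' * f e' - ∑ e', B e e' * g e' := by
        rw [← Finset.sum_sub_distrib]
        exact Finset.sum_congr rfl fun e' _ => by ring
      rw [this]; ring
    rw [h1, hFs g f]; ring
  have hFabs : ∀ f : E → ℝ, - F f f ≤ F (fun e => |f e|) (fun e => |f e|) := by
    intro f
    simp only [hF]
    rw [← Finset.sum_neg_distrib]
    refine Finset.sum_le_sum fun e _ => ?_
    rw [← mul_neg]
    refine mul_le_mul_of_nonneg_left ?_ (hw e).le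
    rw [Finset.mul_sum, Finset.mul_sum, ← Finset.sum_neg_distrib]
    refine Finset.sum_le_sum fun e' _ => ?_
    have h1 : -(f e * (B e e' * f e')) ≤ |f e * (B e e' * f e')| := neg_le_abs _
    rw [abs_mul, abs_mul, abs_of_nonneg (hB0 e e')] at h1
    exact h1
  have hpol : ∀ f g : E → ℝ, (∀ e, 0 ≤ f e) → (∀ e, 0 ≤ g e) →
      2 * F f g ≤ A * (∑ e, w e * f e ^ 2 + ∑ e, w e * g e ^ 2) := by
    intro f g hf hg
    have h1 := hq (fun e => f e + g e) (fun e => add_nonneg (hf e) (hg e))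
    have h2 := (hFabs fun e => f e - g e).trans
      (hq (fun e => |f e - g e|) (fun e => abs_nonneg _))
    have h3 := hFadd f g
    have h4 := hFsub f g
    have h5 : ∑ e, w e * (f e + g e) ^ 2 + ∑ e, w e * |f e - g e| ^ 2 =
        2 * (∑ e, w e * f e ^ 2 + ∑ e, w e * g e ^ 2) := by
      rw [← Finset.sum_add_distrib, ← Finset.sum_add_distrib, Finset.mul_sum]
      refine Finset.sum_congr rfl fun e _ => ?_
      rw [sq_abs]; ring
    change F _ _ ≤ _ at h1
    nlinarith
  set T : E → ℝ := fun e => ∑ e', B e e' * g e' with hT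
  have hT0 : ∀ e, 0 ≤ T e := fun e =>
    Finset.sum_nonneg fun e' _ => mul_nonneg (hB0 _ _) (hg _)
  have h1 := hpol (fun e => T e / A) g (fun e => div_nonneg (hT0 e) hA.le) hg
  have h2 : F (fun e => T e / A) g = (∑ e, w e * T e ^ 2) / A := by
    simp only [hF]
    rw [Finset.sum_div]
    refine Finset.sum_congr rfl fun e _ => ?_
    have : ∑ e', B e e' * g e' = T e := rfl
    rw [this]; ring
  have h3 : ∑ e, w e * (T e / A) ^ 2 = (∑ e, w e * T e ^ 2) / A ^ 2 := by
    rw [Finset.sum_div]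
    refine Finset.sum_congr rfl fun e _ => ?_
    rw [div_pow]; ring
  rw [h2, h3] at h1
  set S := ∑ e, w e * T e ^ 2 with hS
  set G := ∑ e, w e * g e ^ 2 with hG
  have h4 : A * (2 * (S / A)) ≤ A * (A * (S / A ^ 2 + G)) := mul_le_mul_of_nonneg_left h1 hA.le
  have h5 : A * (2 * (S / A)) = 2 * S := by field_simp
  have h6 : A * (A * (S / A ^ 2 + G)) = S + A ^ 2 * G := by field_simp
  rw [h5, h6] at h4
  linarith

/-- The modulus of the gradient projection of a weighted complete graph on `n` vertices has norm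
at most `4 log n + 2`. -/
theorem modBound (V : Type*) [Fintype V] :
    ModBound V (4 * Real.log (Fintype.card V) + 2) := by
  classical
  intro w hw hws
  rcases isEmpty_or_nonempty V with hV | hV
  · refine ⟨0, fun g => ⟨0, fun e => (hV.false e.1).elim⟩, fun F e => (hV.false e.1).elim,
      fun g => ?_, fun g _ => ?_⟩ <;> simp
  obtain ⟨K, hKa, hKn⟩ := exists_proj (fun e : V × V => w e.1 e.2) (fun e => hw _ _)
  have hA : 0 < 4 * Real.log (Fintype.card V) + 2 := by
    have := Real.log_natCast_nonneg (Fintype.card V)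
    linarith
  refine ⟨K, hKa, fun F e => ?_, fun g => ?_, fun g hg => ?_⟩
  · obtain ⟨G, hG⟩ := hKa fun e => F e.1 - F e.2
    have h1 := hKn (fun e => F e.1 - F e.2) (fun x => G x - F x)
    simp_rw [hG] at h1
    have h2 : ∑ e : V × V, w e.1 e.2 * ((G e.1 - G e.2) - (F e.1 - F e.2)) ^ 2 = 0 := by
      have h3 : ∑ e : V × V, w e.1 e.2 * ((G e.1 - G e.2) - (F e.1 - F e.2)) ^ 2 =
          ∑ e : V × V, w e.1 e.2 * ((G e.1 - G e.2) * ((G e.1 - F e.1) - (G e.2 - F e.2))) -
          ∑ e : V × V, w e.1 e.2 * ((F e.1 - F e.2) * ((G e.1 - F e.1) - (G e.2 - F e.2))) := by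
        rw [← Finset.sum_sub_distrib]
        exact Finset.sum_congr rfl fun e _ => by ring
      rw [h3, h1, sub_self]
    have h3 := (Finset.sum_eq_zero_iff_of_nonneg fun e _ =>
      mul_nonneg (hw _ _).le (sq_nonneg _)).1 h2 e (Finset.mem_univ e)
    rcases mul_eq_zero.1 h3 with h4 | h4
    · exact absurd h4 (hw _ _).ne'
    · rw [hG]
      have := pow_eq_zero_iff (n := 2) (by norm_num) |>.1 h4
      linarith
  · obtain ⟨G, hG⟩ := hKa g
    have h1 := hKn g G
    simp_rw [hG] at h1 ⊢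
    have h2 : ∑ e : V × V, w e.1 e.2 * (g e * (G e.1 - G e.2)) ≤
        1 / 2 * ∑ e : V × V, w e.1 e.2 * g e ^ 2 +
          1 / 2 * ∑ e : V × V, w e.1 e.2 * (G e.1 - G e.2) ^ 2 := by
      rw [Finset.mul_sum, Finset.mul_sum, ← Finset.sum_add_distrib]
      refine Finset.sum_le_sum fun e _ => ?_
      have := mul_nonneg (hw e.1 e.2).le (sq_nonneg (g e - (G e.1 - G e.2)))
      nlinarith
    have h3 : ∑ e : V × V, w e.1 e.2 * (G e.1 - G e.2) ^ 2 =
        ∑ e : V × V, w e.1 e.2 * ((G e.1 - G e.2) * (G e.1 - G e.2)) :=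
      Finset.sum_congr rfl fun e _ => by ring
    linarith
  · refine norm_of_form (fun e : V × V => w e.1 e.2) (fun e => hw _ _) (fun e e' => |K e e'|)
      (fun _ _ => abs_nonneg _) (fun a b => ?_) hA (fun g hg => ?_) g hg
    · have := K_symm hw K hKa hKn a b
      rw [← abs_of_pos (hw a.1 a.2), ← abs_mul, this, abs_mul, abs_of_pos (hw b.1 b.2)]
    · exact quad_form hw hws K hKa hKn g hg

end

end Vale.Agent.P249.H75
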