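import Vale.Agent.P249.H73.Stable
import Vale.Agent.P249.Bdl.B1

/-!
# P249: almost isometric embeddings of `ℓ_q^d` into `L_s`, `1 ≤ s < q ≤ 2`, for two exponents `s`
at the same time, and the case of finite subsets of `L_q`
-/

set_option linter.all false

open MeasureTheory Set Filter
open scoped ENNReal Topology BigOperators

namespace Vale.Agent.P249.H75

open Vale.Agent.P249 Vale.Agent.P249.H73

/-- The normalised sums of `n + 1` independent copies are almost `p`-stable, for all large `n`. -/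
theorem stable_eventually {p q : ℝ} (hq : 1 ≤ q) (hqp : q < p) (hp : p ≤ 2) {μ : Measure ℝ}
    [IsProbabilityMeasure μ] {κ r C : ℝ} (hκ : 0 < κ) (hpr : p < r) (hC : 0 ≤ C)
    (hφ : ∀ s : ℝ, |(∫ y, Real.cos (s * y) ∂μ) - Real.exp (-(κ * |s| ^ p))| ≤ C * |s| ^ r)
    {η : ℝ} (hη : 0 < η) :
    ∀ᶠ n : ℕ in atTop, ∀ (d : ℕ) (a : Fin d → ℝ),
      Integrable (fun y : Fin d × Fin (n + 1) → ℝ =>
        |∑ i, a i * ∑ k, ((n + 1 : ℕ) : ℝ) ^ (-(1 / p)) * y (i, k)| ^ q)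
        (Measure.pi fun _ : Fin d × Fin (n + 1) => sym μ) ∧
      |(∫ y : Fin d × Fin (n + 1) → ℝ,
          |∑ i, a i * ∑ k, ((n + 1 : ℕ) : ℝ) ^ (-(1 / p)) * y (i, k)| ^ q
        ∂(Measure.pi fun _ : Fin d × Fin (n + 1) => sym μ)) -
          Jr κ p q / Kr q * (∑ i, |a i| ^ p) ^ (q / p)| ≤ η * (∑ i, |a i| ^ p) ^ (q / p) := by
  have hq0 : 0 < q := by linarith
  have hp0 : 0 < p := by linarith
  have hq2 : q < 2 := by linarith
  have hK := Kr_pos hq0 hq2
  have hJ := Jr_pos hκ hq0 hqp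
  set B : ℕ → ℝ := fun n => C * ((n : ℝ) + 1) ^ (1 - r / p) with hB
  have hneg : 1 - r / p < 0 := by
    have : 1 < r / p := (one_lt_div hp0).2 hpr
    linarith
  have hB0 : ∀ n, 0 ≤ B n := fun n => by simp only [hB]; positivity
  have hB1 : ∀ n, B n ≤ B 0 := fun n => by
    simp only [hB]
    refine mul_le_mul_of_nonneg_left ?_ hC
    have h0 : (0 : ℝ) ≤ n := Nat.cast_nonneg n
    refine Real.rpow_le_rpow_of_nonpos (by norm_num) (by push_cast; linarith) hneg.le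
  have hBt : Tendsto B atTop (𝓝 0) := by
    have h1 : Tendsto (fun n : ℕ => ((n : ℝ) + 1)) atTop atTop :=
      tendsto_atTop_add_const_right _ _ tendsto_natCast_atTop_atTop
    have h2 : Tendsto (fun x : ℝ => x ^ (-(r / p - 1))) atTop (𝓝 0) :=
      tendsto_rpow_neg_atTop (by linarith)
    have h3 := (h2.comp h1).const_mul C
    rw [mul_zero] at h3
    refine h3.congr fun n => ?_
    simp only [hB, Function.comp]
    congr 2
    ring
  have hlim := tendsto_min_integral (r := r) hq0 (hqp.trans hpr) hB0 hB1 hBt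
  filter_upwards [hlim.eventually_lt_const (show 0 < η * Kr q by positivity)] with n hn
  intro d
  set N : ℕ := n + 1 with hNdef
  have hN : 0 < N := Nat.succ_pos n
  have hN0 : (0 : ℝ) < N := by exact_mod_cast hN
  set ν : ℝ := (N : ℝ) ^ (-(1 / p)) with hν
  have hsum : ∀ (a : Fin d → ℝ) (y : Fin d × Fin N → ℝ),
      ∑ i, a i * ∑ k, ν * y (i, k) = ∑ j : Fin d × Fin N, (a j.1 * ν) * y j := by
    intro a y
    rw [Fintype.sum_prod_type]
    refine Finset.sum_congr rfl fun i _ => ?_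
    rw [Finset.mul_sum]
    exact Finset.sum_congr rfl fun k _ => by ring
  -- unit vectors
  have hunit : ∀ a : Fin d → ℝ, ∑ i, |a i| ^ p = 1 →
      Integrable (fun y : Fin d × Fin N → ℝ => |∑ i, a i * ∑ k, ν * y (i, k)| ^ q)
        (Measure.pi fun _ : Fin d × Fin N => sym μ) ∧
      |(∫ y : Fin d × Fin N → ℝ, |∑ i, a i * ∑ k, ν * y (i, k)| ^ q
        ∂(Measure.pi fun _ : Fin d × Fin N => sym μ)) - Jr κ p q / Kr q| ≤ η := by
    intro a ha
    simp_rw [hsum a]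
    have hS : Measurable (fun y : Fin d × Fin N → ℝ =>
        ∑ j : Fin d × Fin N, (a j.1 * ν) * y j) := by fun_prop
    have hBn : B n = C * (N : ℝ) ^ (1 - r / p) := by
      simp only [hB, hNdef]
      push_cast
      rfl
    obtain ⟨h1, h2⟩ := moment_close (Measure.pi fun _ : Fin d × Fin N => sym μ) hS hκ hq0 hq2 hqp
      (hqp.trans hpr) (hB0 n) (fun t ht => by
        rw [hBn]
        exact cf_close hp0 hpr hC hκ hφ hN a ha t ht)
    refine ⟨h1, ?_⟩
    have h3 := h2.trans hn.le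
    set M := ∫ y : Fin d × Fin N → ℝ, |∑ j : Fin d × Fin N, (a j.1 * ν) * y j| ^ q
        ∂(Measure.pi fun _ : Fin d × Fin N => sym μ) with hM
    have h4 : M - Jr κ p q / Kr q = (M * Kr q - Jr κ p q) / Kr q := by
      field_simp
    rw [h4, abs_div, abs_of_pos hK, div_le_iff₀ hK]
    exact h3
  intro a
  set s : ℝ := ∑ i, |a i| ^ p with hs
  have hs0 : 0 ≤ s := Finset.sum_nonneg fun i _ => by positivity
  rcases eq_or_lt_of_le hs0 with h0 | h0
  · have hz : ∀ i, a i = 0 := by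
      intro i
      have h1 := (Finset.sum_eq_zero_iff_of_nonneg (fun i _ =>
        (show 0 ≤ |a i| ^ p by positivity))).1 h0.symm i (Finset.mem_univ i)
      by_contra hne
      have : 0 < |a i| ^ p := Real.rpow_pos_of_pos (abs_pos.2 hne) _
      linarith
    have hz2 : ∀ y : Fin d × Fin N → ℝ, |∑ i, a i * ∑ k, ν * y (i, k)| ^ q = 0 := by
      intro y
      simp [hz, Real.zero_rpow hq0.ne']
    simp_rw [hz2]
    rw [← h0, Real.zero_rpow (by positivity)]
    simp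
  · set ρ : ℝ := s ^ (1 / p) with hρ
    have hρ0 : 0 < ρ := Real.rpow_pos_of_pos h0 _
    have hρp : ρ ^ p = s := by
      rw [hρ, ← Real.rpow_mul hs0]
      have : 1 / p * p = 1 := by field_simp
      rw [this, Real.rpow_one]
    have hρq : s ^ (q / p) = ρ ^ q := by
      rw [hρ, ← Real.rpow_mul hs0]
      congr 1
      ring
    obtain ⟨h1, h2⟩ := hunit (fun i => a i / ρ) (by
      have : ∀ i, |a i / ρ| ^ p = |a i| ^ p / s := by
        intro i
        rw [abs_div, abs_of_pos hρ0, Real.div_rpow (abs_nonneg _) hρ0.le, hρp]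
      simp_rw [this]
      rw [← Finset.sum_div, ← hs, div_self h0.ne'])
    have h3 : ∀ y : Fin d × Fin N → ℝ, |∑ i, a i * ∑ k, ν * y (i, k)| ^ q =
        ρ ^ q * |∑ i, a i / ρ * ∑ k, ν * y (i, k)| ^ q := by
      intro y
      rw [← Real.mul_rpow hρ0.le (abs_nonneg _)]
      congr 1
      have e : ρ * |∑ i, a i / ρ * ∑ k, ν * y (i, k)| =
          |ρ * ∑ i, a i / ρ * ∑ k, ν * y (i, k)| := by
        rw [abs_mul, abs_of_pos hρ0]
      rw [e, Finset.mul_sum]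
      congr 1
      refine Finset.sum_congr rfl fun i _ => ?_
      field_simp
    simp_rw [h3]
    refine ⟨h1.const_mul _, ?_⟩
    rw [integral_const_mul, hρq]
    have h5 : ∀ x y : ℝ, ρ ^ q * x - y * ρ ^ q = (x - y) * ρ ^ q := fun x y => by ring
    rw [h5, abs_mul, abs_of_pos (Real.rpow_pos_of_pos hρ0 q)]
    exact mul_le_mul_of_nonneg_right h2 (by positivity)

/-- Two moments of (almost) `q`-stable variables at the same time. -/
theorem exists_stable_two {s r q : ℝ} (hs : 1 ≤ s) (hsq : s < q) (hr : 1 ≤ r) (hrq : r < q)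
    (hq : q ≤ 2) :
    ∃ cs cr : ℝ, 0 < cs ∧ 0 < cr ∧ ∀ η : ℝ, 0 < η → ∀ d : ℕ,
      ∃ (Ω : Type) (_ : MeasurableSpace Ω) (P : Measure Ω) (_ : IsProbabilityMeasure P)
        (θ : Fin d → Ω → ℝ), (∀ i, Measurable (θ i)) ∧ ∀ a : Fin d → ℝ,
          (Integrable (fun ω => |∑ i, a i * θ i ω| ^ s) P ∧
          |(∫ ω, |∑ i, a i * θ i ω| ^ s ∂P) - cs * (∑ i, |a i| ^ q) ^ (s / q)| ≤
            η * (∑ i, |a i| ^ q) ^ (s / q)) ∧
          (Integrable (fun ω => |∑ i, a i * θ i ω| ^ r) P ∧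
          |(∫ ω, |∑ i, a i * θ i ω| ^ r ∂P) - cr * (∑ i, |a i| ^ q) ^ (r / q)| ≤
            η * (∑ i, |a i| ^ q) ^ (r / q)) := by
  obtain ⟨μ, hμ, κ, ρ, C, hκ, hqρ, hC, hφ⟩ := stableLike (p := q) (by linarith) hq
  have hKs := Kr_pos (show 0 < s by linarith) (show s < 2 by linarith)
  have hKr := Kr_pos (show 0 < r by linarith) (show r < 2 by linarith)
  have hJs := Jr_pos hκ (show 0 < s by linarith) hsq
  have hJr := Jr_pos hκ (show 0 < r by linarith) hrq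
  refine ⟨Jr κ q s / Kr s, Jr κ q r / Kr r, by positivity, by positivity, fun η hη d => ?_⟩
  obtain ⟨n, h1, h2⟩ := ((stable_eventually hs hsq hq hκ hqρ hC hφ hη).and
    (stable_eventually hr hrq hq hκ hqρ hC hφ hη)).exists
  exact ⟨Fin d × Fin (n + 1) → ℝ, inferInstance, Measure.pi fun _ : Fin d × Fin (n + 1) => sym μ,
    inferInstance, fun i y => ∑ k, ((n + 1 : ℕ) : ℝ) ^ (-(1 / q)) * y (i, k),
    fun i => by fun_prop, fun a => ⟨h1 d a, h2 d a⟩⟩

theorem K_pow {s cs σ : ℝ} (hs : 1 ≤ s) (hcs : 0 < cs) (hσ : 0 < σ) :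
    (cs ^ (-(1 / s)) / σ) ^ s = cs⁻¹ * (σ ^ s)⁻¹ := by
  have hs0 : 0 < s := by linarith
  rw [Real.div_rpow (by positivity) hσ.le, ← Real.rpow_mul hcs.le]
  have : -(1 / s) * s = -1 := by field_simp
  rw [this, Real.rpow_neg_one]
  rfl

theorem root_pow {s t : ℝ} (hs : 1 ≤ s) (ht : 0 ≤ t) : (t ^ s) ^ (1 / s) = t := by
  have hs0 : 0 < s := by linarith
  rw [← Real.rpow_mul ht]
  have : s * (1 / s) = 1 := by field_simp
  rw [this, Real.rpow_one]

theorem mom_low {s cs η σ N R I : ℝ} (hs : 1 ≤ s) (hcs : 0 < cs) (hη : 0 < η) (hη1 : η ≤ 1)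
    (hσ : 0 < σ) (hN : 0 ≤ N) (hlo : σ * N ≤ R) (hI : (cs - cs * (η / 4)) * R ^ s ≤ I) :
    (1 - η) * N ≤ ((cs ^ (-(1 / s)) / σ) ^ s * I) ^ (1 / s) := by
  have hs0 : 0 < s := by linarith
  have h4 : 0 ≤ cs - cs * (η / 4) := by nlinarith
  have h3 : (σ * N) ^ s ≤ R ^ s := Real.rpow_le_rpow (by positivity) hlo hs0.le
  have h1 : (1 - η / 4) * N ^ s ≤ (cs ^ (-(1 / s)) / σ) ^ s * I := by
    calc (1 - η / 4) * N ^ s
        = (cs ^ (-(1 / s)) / σ) ^ s * ((cs - cs * (η / 4)) * (σ * N) ^ s) := by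
          rw [K_pow hs hcs hσ, Real.mul_rpow hσ.le hN]
          field_simp
      _ ≤ (cs ^ (-(1 / s)) / σ) ^ s * ((cs - cs * (η / 4)) * R ^ s) :=
          mul_le_mul_of_nonneg_left (mul_le_mul_of_nonneg_left h3 h4) (by positivity)
      _ ≤ _ := mul_le_mul_of_nonneg_left hI (by positivity)
  have h5 : ((1 - η) * N) ^ s ≤ (1 - η / 4) * N ^ s := by
    rw [Real.mul_rpow (by linarith) hN]
    refine mul_le_mul_of_nonneg_right ?_ (by positivity)
    calc (1 - η) ^ s ≤ (1 - η) ^ (1 : ℝ) := by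
          rcases eq_or_lt_of_le hη1 with h | h
          · rw [h]
            simp [Real.zero_rpow hs0.ne']
          · exact Real.rpow_le_rpow_of_exponent_ge (by linarith) (by linarith) hs
      _ = 1 - η := Real.rpow_one _
      _ ≤ 1 - η / 4 := by linarith
  have h6 : 0 ≤ (1 - η) * N := mul_nonneg (by linarith) hN
  calc (1 - η) * N = (((1 - η) * N) ^ s) ^ (1 / s) := (root_pow hs h6).symm
    _ ≤ _ := Real.rpow_le_rpow (by positivity) (h5.trans h1) (by positivity)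

theorem mom_up {s cs η σ N R I : ℝ} (hs : 1 ≤ s) (hcs : 0 < cs) (hη : 0 < η) (hη1 : η ≤ 1)
    (hσ : 0 < σ) (hN : 0 ≤ N) (hR : 0 ≤ R) (hup : R ≤ (1 + η / 4) * σ * N) (hI0 : 0 ≤ I)
    (hI : I ≤ (cs + cs * (η / 4)) * R ^ s) :
    ((cs ^ (-(1 / s)) / σ) ^ s * I) ^ (1 / s) ≤ (1 + η) * N := by
  have hs0 : 0 < s := by linarith
  have h3 : R ^ s ≤ ((1 + η / 4) * σ * N) ^ s := Real.rpow_le_rpow hR hup hs0.le
  have h1 : (cs ^ (-(1 / s)) / σ) ^ s * I ≤ ((1 + η) * N) ^ s := by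
    calc (cs ^ (-(1 / s)) / σ) ^ s * I
        ≤ (cs ^ (-(1 / s)) / σ) ^ s * ((cs + cs * (η / 4)) * ((1 + η / 4) * σ * N) ^ s) :=
          mul_le_mul_of_nonneg_left (hI.trans (mul_le_mul_of_nonneg_left h3 (by positivity)))
            (by positivity)
      _ = (1 + η / 4) * (1 + η / 4) ^ s * N ^ s := by
          rw [K_pow hs hcs hσ, Real.mul_rpow (by positivity) hN,
            Real.mul_rpow (by positivity) hσ.le]
          field_simp
      _ ≤ (1 + η / 4) ^ s * (1 + η / 4) ^ s * N ^ s := by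
          have h4 : 1 + η / 4 ≤ (1 + η / 4) ^ s := by
            nth_rewrite 1 [← Real.rpow_one (1 + η / 4)]
            exact Real.rpow_le_rpow_of_exponent_le (by linarith) hs
          gcongr
      _ = ((1 + η / 4) * (1 + η / 4) * N) ^ s := by
          rw [Real.mul_rpow (by positivity) hN, Real.mul_rpow (by positivity) (by positivity)]
      _ ≤ ((1 + η) * N) ^ s := by
          refine Real.rpow_le_rpow (by positivity) ?_ hs0.le
          refine mul_le_mul_of_nonneg_right ?_ hN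
          nlinarith
  have h6 : 0 ≤ (1 + η) * N := by positivity
  calc ((cs ^ (-(1 / s)) / σ) ^ s * I) ^ (1 / s) ≤ (((1 + η) * N) ^ s) ^ (1 / s) :=
        Real.rpow_le_rpow (mul_nonneg (by positivity) hI0) h1 (by positivity)
    _ = (1 + η) * N := root_pow hs h6

theorem mom_other {r c cr cs η σ N R I : ℝ} (hr : 1 ≤ r) (hcs : 0 < cs) (hcr : 0 < cr)
    (hc : 0 < c) (hη1 : η ≤ 1) (hσ : 0 < σ) (hN : 0 ≤ N) (hR : 0 ≤ R)
    (hup : R ≤ (1 + η / 4) * σ * N) (hI0 : 0 ≤ I) (hI : I ≤ (cr + cs * (η / 4)) * R ^ r) :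
    ((c / σ) ^ r * I) ^ (1 / r) ≤ 2 * (c * (cr + cs) ^ (1 / r)) * N := by
  have hr0 : 0 < r := by linarith
  have hRr : 0 ≤ R ^ r := by positivity
  have h2 : I ≤ (cr + cs) * R ^ r := by
    refine hI.trans (mul_le_mul_of_nonneg_right ?_ hRr)
    nlinarith
  have h3 : R ≤ 2 * σ * N := by
    refine hup.trans ?_
    have : 0 ≤ σ * N := by positivity
    nlinarith
  have hK0 : 0 ≤ c / σ := by positivity
  calc ((c / σ) ^ r * I) ^ (1 / r) ≤ ((c / σ) ^ r * ((cr + cs) * R ^ r)) ^ (1 / r) :=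
        Real.rpow_le_rpow (mul_nonneg (by positivity) hI0)
          (mul_le_mul_of_nonneg_left h2 (by positivity)) (by positivity)
    _ = c / σ * ((cr + cs) ^ (1 / r) * R) := by
        rw [Real.mul_rpow (by positivity) (by positivity), root_pow hr hK0,
          Real.mul_rpow (by positivity) hRr, root_pow hr hR]
    _ ≤ c / σ * ((cr + cs) ^ (1 / r) * (2 * σ * N)) :=
        mul_le_mul_of_nonneg_left (mul_le_mul_of_nonneg_left h3 (by positivity)) hK0
    _ = _ := by field_simp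

/-- A finite subset `X` of `L_Q(μ)`, `Q ≤ 2`, has almost isometric maps into `L_s(P)`, `s < Q`, `P` a
probability measure, with `L_r` distances (`r < Q`) at most `C` times the distances of `L_Q`. -/
theorem exists_stable_map {s r : ℝ} (Q : ℝ≥0∞) [Fact (1 ≤ Q)] (hQ2 : Q ≤ 2) (hs : 1 ≤ s)
    (hsQ : s < Q.toReal) (hr : 1 ≤ r) (hrQ : r < Q.toReal) :
    ∃ C : ℝ, 0 < C ∧ ∀ η : ℝ, 0 < η → η ≤ 1 → ∀ (Ω₀ : Type) [MeasurableSpace Ω₀]
      (μ : Measure Ω₀) (X : Finset (Lp ℝ Q μ)),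
      ∃ (Ω : Type) (_ : MeasurableSpace Ω) (P : Measure Ω) (_ : IsProbabilityMeasure P)
        (F : Lp ℝ Q μ → Ω → ℝ), (∀ x, Measurable (F x)) ∧ ∀ x ∈ X, ∀ y ∈ X,
          Integrable (fun ω => |F x ω - F y ω| ^ s) P ∧
          Integrable (fun ω => |F x ω - F y ω| ^ r) P ∧
          (1 - η) * ‖x - y‖ ≤ (∫ ω, |F x ω - F y ω| ^ s ∂P) ^ (1 / s) ∧
          (∫ ω, |F x ω - F y ω| ^ s ∂P) ^ (1 / s) ≤ (1 + η) * ‖x - y‖ ∧
          (∫ ω, |F x ω - F y ω| ^ r ∂P) ^ (1 / r) ≤ C * ‖x - y‖ := by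
  classical
  have hQt : Q ≠ ∞ := ne_top_of_le_ne_top (by norm_num) hQ2
  have hq2 : Q.toReal ≤ 2 := by
    have := ENNReal.toReal_mono (by norm_num) hQ2
    simpa using this
  set q : ℝ := Q.toReal with hqdef
  have hq0 : 0 < q := by linarith
  have hq1 : 1 ≤ q := by linarith
  obtain ⟨cs, cr, hcs, hcr, H⟩ := exists_stable_two hs hsQ hr hrQ hq2
  have hκ0 : 0 < cs ^ (-(1 / s)) := Real.rpow_pos_of_pos hcs _
  refine ⟨2 * (cs ^ (-(1 / s)) * (cr + cs) ^ (1 / r)), by positivity,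
    fun η hη hη1 Ω₀ _ μ X => ?_⟩
  -- the embedding in `ℓ_q^m`
  set ε : ℝ := η / 16 with hε
  have hε0 : 0 < ε := by positivity
  have hε1 : ε < 1 := by rw [hε]; linarith
  set m : ℕ := ⌈4 * (X.card : ℝ) ^ 2 * Real.log (2 * (X.card : ℝ) ^ 2) / ε ^ 2⌉₊ + 1 with hm
  obtain ⟨f, σ, hσ, hf⟩ := embed_all_pairs hQt X hε0 hε1 m (by
    rw [hm]; push_cast
    have := Nat.le_ceil (4 * (X.card : ℝ) ^ 2 * Real.log (2 * (X.card : ℝ) ^ 2) / ε ^ 2)
    linarith) (Nat.succ_pos _)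
  have hdist : ((1 + ε) / (1 - ε)) ^ (1 / Q.toReal) ≤ 1 + η / 4 := by
    have h1 : (1 + ε) / (1 - ε) ≤ 1 + η / 4 := by
      rw [div_le_iff₀ (by linarith), hε]
      nlinarith
    have h2 : 1 ≤ (1 + ε) / (1 - ε) := by
      rw [le_div_iff₀ (by linarith)]
      linarith
    calc ((1 + ε) / (1 - ε)) ^ (1 / Q.toReal) ≤ ((1 + ε) / (1 - ε)) ^ (1 : ℝ) :=
          Real.rpow_le_rpow_of_exponent_le h2 (by
            rw [← hqdef, div_le_one hq0]; exact hq1)
      _ = (1 + ε) / (1 - ε) := Real.rpow_one _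
      _ ≤ _ := h1
  obtain ⟨Ω, mΩ, P, hP, θ, hθ, hθm⟩ := H (cs * (η / 4)) (by positivity) m
  set K : ℝ := cs ^ (-(1 / s)) / σ with hK
  have hK0 : 0 < K := by positivity
  refine ⟨Ω, mΩ, P, hP, fun x ω => K * ∑ i, f x i * θ i ω, fun x => by fun_prop, ?_⟩
  intro x hx y hy
  set a : Fin m → ℝ := fun i => f x i - f y i with ha
  have hRq : ‖f x - f y‖ ^ q = ∑ i, |a i| ^ q := by
    rw [hqdef, norm_rpow_eq_sum hQt]
    rfl
  have hpow : ∀ e : ℝ, (∑ i, |a i| ^ q) ^ (e / q) = ‖f x - f y‖ ^ e := by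
    intro e
    rw [← hRq, ← Real.rpow_mul (norm_nonneg _)]
    congr 1
    field_simp
  have hdiff : ∀ ω, K * ∑ i, f x i * θ i ω - K * ∑ i, f y i * θ i ω = K * ∑ i, a i * θ i ω := by
    intro ω
    rw [← mul_sub, ← Finset.sum_sub_distrib]
    congr 1
    exact Finset.sum_congr rfl fun i _ => by simp only [ha]; ring
  have habs : ∀ (e : ℝ) (ω : Ω), |K * ∑ i, f x i * θ i ω - K * ∑ i, f y i * θ i ω| ^ e =
      K ^ e * |∑ i, a i * θ i ω| ^ e := by
    intro e ω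
    rw [hdiff ω, abs_mul, abs_of_pos hK0, Real.mul_rpow hK0.le (abs_nonneg _)]
  obtain ⟨⟨hi1, hm1⟩, ⟨hi2, hm2⟩⟩ := hθm a
  rw [hpow] at hm1 hm2
  simp_rw [habs]
  obtain ⟨hlo, hup⟩ := hf x hx y hy
  have hup' : ‖f x - f y‖ ≤ (1 + η / 4) * σ * ‖x - y‖ := by
    refine hup.trans ?_
    exact mul_le_mul_of_nonneg_right (mul_le_mul_of_nonneg_right hdist hσ.le) (norm_nonneg _)
  have hI1 : 0 ≤ ∫ ω, |∑ i, a i * θ i ω| ^ s ∂P := integral_nonneg fun ω => by positivity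
  have hI2 : 0 ≤ ∫ ω, |∑ i, a i * θ i ω| ^ r ∂P := integral_nonneg fun ω => by positivity
  refine ⟨hi1.const_mul _, hi2.const_mul _, ?_, ?_, ?_⟩
  · rw [integral_const_mul]
    refine mom_low hs hcs hη hη1 hσ (norm_nonneg _) hlo ?_
    have := (abs_le.1 hm1).1
    linarith
  · rw [integral_const_mul]
    refine mom_up hs hcs hη hη1 hσ (norm_nonneg _) (norm_nonneg _) hup' hI1 ?_
    have := (abs_le.1 hm1).2
    linarith
  · rw [integral_const_mul]
    refine mom_other hr hcs hcr hκ0 hη1 hσ (norm_nonneg _) (norm_nonneg _) hup' hI2 ?_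
    have := (abs_le.1 hm2).2
    linarith

end Vale.Agent.P249.H75
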