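import Vale.Agent.P249.Bdl.B1
import Vale.Agent.P249.H75.ModBound

/-!
# P249: the exponent `2 / p - 1` for `1 < p < 2`
-/

set_option linter.all false

open MeasureTheory
open scoped BigOperators ENNReal

namespace Vale.Agent.P249.H75

open Vale.Agent.P249

/-- Uniform version of the embedding `L_q → ℓ_p^d` for `q` close to `p`. -/
def SpecLD (P : ℝ) : Prop :=
  ∃ C : ℝ, 1 ≤ C ∧ ∀ Q : ℝ, P < Q → Q ≤ (P + 2) / 2 → ∀ n : ℕ, 2 ≤ n → ∀ ε : ℝ, 0 < ε → ε ≤ 1 →
    ∀ (V ι : Type) [Fintype V] [Fintype ι], Fintype.card V ≤ n → ∀ x : V → ι → ℝ,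
      ∃ (d : ℕ) (f : V → Fin d → ℝ),
        (d : ℝ) ≤ Real.exp (C * Real.log ((2 + Real.log n) / ε) / (Q - P)) ∧
        ∀ u v, nm Q (x u - x v) ≤ nm P (f u - f v) ∧
          nm P (f u - f v) ≤ (1 + ε) * nm Q (x u - x v)

theorem nm_eq_piLp {p : ℝ≥0∞} [Fact (1 ≤ p)] (hp : p ≠ ∞) {N : ℕ}
    (v : PiLp p (fun _ : Fin N => ℝ)) : nm p.toReal (fun i => v i) = ‖v‖ := by
  have h0 := toReal_pos_of_fact (p := p) hp
  rw [PiLp.norm_eq_sum h0]
  simp [nm, Real.norm_eq_abs]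

theorem nm_eq_piLp_sub {p : ℝ≥0∞} [Fact (1 ≤ p)] (hp : p ≠ ∞) {N : ℕ}
    (u v : PiLp p (fun _ : Fin N => ℝ)) :
    nm p.toReal ((fun i => u i) - (fun i => v i)) = ‖u - v‖ := by
  rw [← nm_eq_piLp hp]
  rfl

theorem chain_arith {ε D s r t z y : ℝ} (hε : 0 < ε) (hε1 : ε ≤ 1) (hs : 0 < s) (hr : 0 ≤ r)
    (hD0 : D ≤ 1 + ε / 8) (h1 : s * r ≤ t) (h2 : t ≤ D * s * r) (h3 : (1 - ε / 32) * t ≤ z)
    (h4 : z ≤ (1 + ε / 32) * t) (h5 : z ≤ y) (h6 : y ≤ (1 + ε / 8) * z) :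
    (1 - ε / 32) * s * r ≤ y ∧ y ≤ (1 + ε) * ((1 - ε / 32) * s) * r := by
  have hsr : 0 ≤ s * r := mul_nonneg hs.le hr
  constructor
  · calc (1 - ε / 32) * s * r = (1 - ε / 32) * (s * r) := by ring
      _ ≤ (1 - ε / 32) * t := mul_le_mul_of_nonneg_left h1 (by linarith)
      _ ≤ z := h3
      _ ≤ y := h5
  · have ht : t ≤ (1 + ε / 8) * (s * r) := by
      calc t ≤ D * s * r := h2
        _ = D * (s * r) := by ring
        _ ≤ (1 + ε / 8) * (s * r) := mul_le_mul_of_nonneg_right hD0 hsr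
    have hc : (1 + ε / 8) * (1 + ε / 32) * (1 + ε / 8) ≤ (1 + ε) * (1 - ε / 32) := by
      have h7 : ε ^ 2 ≤ ε := by nlinarith
      have h8 : ε ^ 3 ≤ ε := by
        calc ε ^ 3 = ε ^ 2 * ε := by ring
          _ ≤ 1 * ε := mul_le_mul_of_nonneg_right (h7.trans hε1) hε.le
          _ = ε := one_mul _
      have h9 : (1 + ε / 8) * (1 + ε / 32) * (1 + ε / 8) =
          1 + 9 / 32 * ε + 3 / 128 * ε ^ 2 + ε ^ 3 / 2048 := by ring
      have h10 : (1 + ε) * (1 - ε / 32) = 1 + 31 / 32 * ε - ε ^ 2 / 32 := by ring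
      rw [h9, h10]
      linarith
    calc y ≤ (1 + ε / 8) * z := h6
      _ ≤ (1 + ε / 8) * ((1 + ε / 32) * t) := mul_le_mul_of_nonneg_left h4 (by linarith)
      _ ≤ (1 + ε / 8) * ((1 + ε / 32) * ((1 + ε / 8) * (s * r))) :=
          mul_le_mul_of_nonneg_left (mul_le_mul_of_nonneg_left ht (by linarith)) (by linarith)
      _ = ((1 + ε / 8) * (1 + ε / 32) * (1 + ε / 8)) * (s * r) := by ring
      _ ≤ ((1 + ε) * (1 - ε / 32)) * (s * r) := mul_le_mul_of_nonneg_right hc hsr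
      _ = (1 + ε) * ((1 - ε / 32) * s) * r := by ring

theorem main_lt_two (p : ℝ≥0∞) [Fact (1 ≤ p)] (hp1 : 1 < p) (hp2 : p < 2)
    (hLD : SpecLD p.toReal) :
    ∃ C : ℝ, 0 < C ∧ ∀ n : ℕ, 2 ≤ n → ∀ ε : ℝ, 0 < ε → ε ≤ 1 →
      ∀ (Ω : Type) [MeasurableSpace Ω] (μ : Measure Ω) (X : Finset (Lp ℝ p μ)), X.card ≤ n →
        ∃ (d : ℕ) (f : Lp ℝ p μ → PiLp p (fun _ : Fin d => ℝ)),
          (d : ℝ) ≤ Real.exp (C * (1 + Real.log n) ^ (2 / p.toReal - 1) *
            Real.log ((2 + Real.log n) / ε) / ε) ∧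
            DistortionAtMost X f (1 + ε) := by
  classical
  have hp : p ≠ ∞ := ne_top_of_lt hp2
  have hP0 := toReal_pos_of_fact (p := p) hp
  have hP1 : 1 < p.toReal := by
    have := (ENNReal.toReal_lt_toReal ENNReal.one_ne_top hp).2 hp1
    simpa using this
  have hP2 : p.toReal < 2 := by
    have := (ENNReal.toReal_lt_toReal hp (by norm_num : (2 : ℝ≥0∞) ≠ ∞)).2 hp2
    simpa using this
  obtain ⟨C₀, hC₀, hLD⟩ := hLD
  generalize hP : p.toReal = P at *
  set θ : ℝ := 2 / P - 1 with hθ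
  have hθ0 : 0 < θ := by
    rw [hθ, sub_pos, lt_div_iff₀ hP0]; linarith
  set M : ℝ := 2 / min (1 / P - 1 / 2) (1 - 1 / P) with hM
  have hM0 : 0 < M := by
    have h1 : 0 < 1 / P - 1 / 2 := by
      rw [sub_pos]; exact one_div_lt_one_div_of_lt hP0 hP2
    have h2 : 0 < 1 - 1 / P := by
      rw [sub_pos, div_lt_one hP0]; exact hP1
    have h4 : 0 < min (1 / P - 1 / 2) (1 - 1 / P) := lt_min h1 h2
    positivity
  -- the step `q - p = c ε (1 + log n) ^ (-θ)`
  set c : ℝ := min ((2 - P) / 2) (1 / (64 * M * 4 ^ θ)) with hc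
  have hc0 : 0 < c := lt_min (by linarith) (by positivity)
  have hcM : c * (M * 4 ^ θ) ≤ 1 / 64 := by
    have h1 : c ≤ 1 / (64 * M * 4 ^ θ) := min_le_right _ _
    have h2 : 0 < M * (4 : ℝ) ^ θ := by positivity
    calc c * (M * 4 ^ θ) ≤ 1 / (64 * M * 4 ^ θ) * (M * 4 ^ θ) :=
          mul_le_mul_of_nonneg_right h1 h2.le
      _ = 1 / 64 := by field_simp
  refine ⟨4 * C₀ / c, by positivity, fun n hn ε hε hε1 Ω _ μ X hX => ?_⟩
  have hnr : (1 : ℝ) ≤ n := by exact_mod_cast (by omega : 1 ≤ n)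
  have hlog := Real.log_nonneg hnr
  set l : ℝ := 1 + Real.log n with hl
  have hl1 : 1 ≤ l := by rw [hl]; linarith
  have hl0 : 0 < l := by linarith
  have hlθ : 1 ≤ l ^ θ := Real.one_le_rpow hl1 hθ0.le
  rcases Finset.eq_empty_or_nonempty X with h0 | h0
  · subst h0
    refine ⟨0, fun _ => 0, by rw [Nat.cast_zero]; positivity, 1, one_pos, ?_⟩
    intro x hx
    simp at hx
  have : Nonempty X := ⟨⟨h0.choose, h0.choose_spec⟩⟩
  -- first map
  set e : ℝ := ε / 24 with he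
  have he0 : 0 < e := by positivity
  have he1 : e < 1 := by rw [he]; linarith
  obtain ⟨m, hm⟩ := exists_nat_ge (4 * (X.card : ℝ) ^ 2 * Real.log (2 * (X.card : ℝ) ^ 2) / e ^ 2)
  obtain ⟨f₀, s, hs, hf₀⟩ := embed_all_pairs hp X he0 he1 (m + 1)
    (hm.trans (by push_cast; linarith)) (Nat.succ_pos _)
  have hD0 : ((1 + e) / (1 - e)) ^ (1 / P) ≤ 1 + ε / 8 := by
    have h1 : 1 ≤ (1 + e) / (1 - e) := by
      rw [le_div_iff₀ (by linarith)]; linarith
    have h2 : ((1 + e) / (1 - e)) ^ (1 / P) ≤ ((1 + e) / (1 - e)) ^ (1 : ℝ) :=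
      Real.rpow_le_rpow_of_exponent_le h1 (by rw [div_le_one hP0]; exact hP1.le)
    rw [Real.rpow_one] at h2
    refine h2.trans ?_
    rw [div_le_iff₀ (by linarith)]
    have h3 : ε = 24 * e := by rw [he]; ring
    rw [h3]
    nlinarith
  rw [hP] at hf₀
  -- the finite set in `ℓ_p`
  set x : X → Fin (m + 1) → ℝ := fun u i => f₀ u.1 i with hx
  have hxn : ∀ u v : X, nm P (x u - x v) = ‖f₀ u.1 - f₀ v.1‖ := by
    intro u v
    rw [← hP]
    exact nm_eq_piLp_sub hp _ _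
  have hxinj : Function.Injective x := by
    intro u v huv
    have h1 : nm P (x u - x v) = 0 := by rw [huv, sub_self, nm_zero hP0]
    rw [hxn] at h1
    have h2 := (hf₀ u.1 u.2 v.1 v.2).1
    rw [h1] at h2
    have h3 : ‖u.1 - v.1‖ ≤ 0 := by
      by_contra hcon
      push Not at hcon
      have := mul_pos hs hcon
      linarith
    exact Subtype.ext (sub_eq_zero.1 (norm_le_zero_iff.1 h3))
  -- second map
  set Q : ℝ := P + c * ε / l ^ θ with hQ
  have hcε : 0 < c * ε / l ^ θ := by positivity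
  have hPQ : P < Q := by rw [hQ]; linarith
  have hQ2 : Q ≤ (P + 2) / 2 := by
    have h1 : c * ε / l ^ θ ≤ (2 - P) / 2 := by
      rw [div_le_iff₀ (by positivity)]
      have h2 : c ≤ (2 - P) / 2 := min_le_left _ _
      have h3 : c * ε ≤ c := mul_le_of_le_one_right hc0.le hε1
      have h4 : (2 - P) / 2 ≤ (2 - P) / 2 * l ^ θ :=
        le_mul_of_one_le_right (by linarith) hlθ
      linarith
    rw [hQ]; linarith
  have hcardX : Fintype.card X = X.card := Fintype.card_coe X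
  have hA1 : 1 ≤ 4 * Real.log (Fintype.card X) + 2 := by
    have := Real.log_natCast_nonneg (Fintype.card X)
    linarith
  have hAl : 4 * Real.log (Fintype.card X) + 2 ≤ 4 * l := by
    have h1 : Real.log (Fintype.card X) ≤ Real.log n := by
      rw [hcardX]
      exact Real.log_le_log (by exact_mod_cast h0.card_pos) (by exact_mod_cast hX)
    rw [hl]; linarith
  have hκ : 2 / min (1 / P - 1 / 2) (1 - 1 / P) * (1 / P - 1 / Q) *
      (4 * Real.log (Fintype.card X) + 2) ^ (2 / P - 1) < ε / 32 := by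
    rw [← hM, ← hθ]
    have h1 : 1 / P - 1 / Q ≤ c * ε / l ^ θ := by
      have hQ0 : 0 < Q := by linarith
      have h2 : 1 / P - 1 / Q = (Q - P) / (P * Q) := by field_simp
      rw [h2]
      have h3 : Q - P = c * ε / l ^ θ := by rw [hQ]; ring
      rw [h3]
      refine div_le_self hcε.le ?_
      nlinarith
    have h10 : 0 ≤ 1 / P - 1 / Q := by
      rw [sub_nonneg]; exact one_div_le_one_div_of_le hP0 hPQ.le
    have h2 : (4 * Real.log (Fintype.card X) + 2) ^ θ ≤ 4 ^ θ * l ^ θ := by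
      rw [← Real.mul_rpow (by norm_num) hl0.le]
      exact Real.rpow_le_rpow (by linarith) hAl hθ0.le
    calc M * (1 / P - 1 / Q) * (4 * Real.log (Fintype.card X) + 2) ^ θ
        ≤ M * (c * ε / l ^ θ) * (4 ^ θ * l ^ θ) := by
          refine mul_le_mul (mul_le_mul_of_nonneg_left h1 hM0.le) h2 ?_ (by positivity)
          exact Real.rpow_nonneg (by linarith) _
      _ = (c * (M * 4 ^ θ)) * ε := by
          have : l ^ θ ≠ 0 := by positivity
          field_simp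
      _ ≤ 1 / 64 * ε := mul_le_mul_of_nonneg_right hcM hε.le
      _ < ε / 32 := by linarith
  obtain ⟨F, hF⟩ := exists_embed hP1 hP2 hPQ.le (by linarith) hA1 (modBound X) x hxinj hκ
  -- third map
  obtain ⟨d, f, hd, hf⟩ := hLD Q hPQ hQ2 n hn (ε / 8) (by positivity) (by linarith) X
    (Fin (m + 1)) (by rw [hcardX]; exact hX) F
  set g : Lp ℝ p μ → PiLp p (fun _ : Fin d => ℝ) := fun u =>
    if h : u ∈ X then WithLp.toLp p (f ⟨u, h⟩) else 0 with hg
  have hgn : ∀ u v : X, ‖g u.1 - g v.1‖ = nm P (f u - f v) := by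
    intro u v
    simp only [hg, dif_pos u.2, dif_pos v.2]
    rw [← nm_eq_piLp_sub hp, hP]
  refine ⟨d, g, ?_, (1 - ε / 32) * s, by nlinarith, fun a ha b hb => ?_⟩
  · refine hd.trans ?_
    apply Real.exp_le_exp.2
    have h1 : Q - P = c * ε / l ^ θ := by rw [hQ]; ring
    rw [h1]
    have h2 : (1 : ℝ) ≤ (2 + Real.log n) / ε := by
      rw [le_div_iff₀ hε]; linarith
    have h20 : (2 : ℝ) ≤ (2 + Real.log n) / ε := by
      rw [le_div_iff₀ hε]; linarith
    have h3 : Real.log ((2 + Real.log n) / (ε / 8)) ≤ 4 * Real.log ((2 + Real.log n) / ε) := by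
      have h4 : (2 + Real.log n) / (ε / 8) = 8 * ((2 + Real.log n) / ε) := by field_simp
      rw [h4, Real.log_mul (by norm_num) (by linarith)]
      have h5 : Real.log 8 ≤ 3 * Real.log ((2 + Real.log n) / ε) := by
        have h6 : Real.log 8 = 3 * Real.log 2 := by
          rw [show (8 : ℝ) = 2 ^ 3 by norm_num, Real.log_pow]; norm_num
        rw [h6]
        exact mul_le_mul_of_nonneg_left (Real.log_le_log (by norm_num) h20) (by norm_num)
      linarith
    have h7 : C₀ * Real.log ((2 + Real.log n) / (ε / 8)) / (c * ε / l ^ θ) =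
        C₀ / c * l ^ θ * Real.log ((2 + Real.log n) / (ε / 8)) / ε := by
      have : l ^ θ ≠ 0 := by positivity
      field_simp
    rw [h7]
    have h8 : 4 * C₀ / c * l ^ θ * Real.log ((2 + Real.log n) / ε) / ε =
        C₀ / c * l ^ θ * (4 * Real.log ((2 + Real.log n) / ε)) / ε := by ring
    rw [h8]
    gcongr
  · have h1 := hf₀ a ha b hb
    have h2 := hF ⟨a, ha⟩ ⟨b, hb⟩
    have h3 := hf ⟨a, ha⟩ ⟨b, hb⟩
    have h4 := hgn ⟨a, ha⟩ ⟨b, hb⟩
    simp only at h4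
    rw [h4]
    rw [hxn] at h2
    simp only at h2
    exact chain_arith hε hε1 hs (norm_nonneg _) hD0 h1.1 h1.2 h2.1 h2.2 h3.1 h3.2

end Vale.Agent.P249.H75
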