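import Vale.Agent.P249.H75.Fields

/-!
# P249: the map `g`, common form for both ranges
-/

set_option linter.all false

open Filter Topology Set
open scoped BigOperators

namespace Vale.Agent.P249.H75

open Vale.Agent.P249.UP

/-- flat almost isometric maps -/
def SpecG (P r θ : ℝ) : Prop :=
  ∃ C : ℝ, 1 ≤ C ∧ ∀ (V : Type) [Fintype V] [Nonempty V] (m T H : ℕ), 0 < T → m ≤ 2 ^ H →
    ∀ x : V → Fin m → ℝ, Function.Injective x → ∀ δ : ℝ, 0 < δ → δ ≤ 1 →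
    C * (1 + Real.log (Fintype.card V)) ^ θ / T ≤ δ →
    ∃ (M : ℕ) (g : V → Fin M → ℝ), 0 < M ∧ ∀ u v,
      (1 - δ) * nm P (x u - x v) ^ P ≤ (∑ i, |g u i - g v i| ^ P) / M ∧
      (∑ i, |g u i - g v i| ^ P) / M ≤ (1 + δ) * nm P (x u - x v) ^ P ∧
      (∑ i, |g u i - g v i| ^ r) / M ≤
        (C * (((H : ℝ) + 2 * T) * (1 + Real.log (Fintype.card V)) / δ) ^ C * 16 ^ T *
          nm P (x u - x v)) ^ r

theorem A_bounds (V : Type) [Fintype V] [Nonempty V] :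
    1 ≤ 1 + Real.log (Fintype.card V) ∧ 1 ≤ 4 * Real.log (Fintype.card V) + 2 ∧
      4 * Real.log (Fintype.card V) + 2 ≤ 4 * (1 + Real.log (Fintype.card V)) := by
  have := Real.log_natCast_nonneg (Fintype.card V)
  refine ⟨by linarith, by linarith, by linarith⟩

/-- the arithmetic of the constants -/
theorem core_arith {CZ C₁ Y L : ℝ} (hCZ : 1 ≤ CZ) (hC₁ : 1 ≤ C₁) (hY : 1 ≤ Y) (hL : 1 ≤ L)
    {C : ℝ} (hC : 4 * CZ * C₁ ^ (CZ + 1) ≤ C) (hC2 : CZ + 1 ≤ C) (T : ℕ) :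
    CZ * (Y * C₁) ^ CZ * 4 ^ T * (C₁ * 4 ^ T * (4 * L)) ≤ C * (Y * L) ^ C * 16 ^ T := by
  have h1 : (Y * C₁) ^ CZ = Y ^ CZ * C₁ ^ CZ := Real.mul_rpow (by linarith) (by linarith)
  have h2 : Y ^ CZ ≤ (Y * L) ^ CZ :=
    Real.rpow_le_rpow (by linarith) (le_mul_of_one_le_right (by linarith) hL) (by linarith)
  have hYL : 1 ≤ Y * L := one_le_mul_of_one_le_of_one_le hY hL
  have h3 : L ≤ Y * L := le_mul_of_one_le_left (by linarith) hY
  have h4 : (Y * L) ^ CZ * (Y * L) ≤ (Y * L) ^ C := by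
    rw [← Real.rpow_add_one (by linarith)]
    exact Real.rpow_le_rpow_of_exponent_le hYL hC2
  have h5 : (16 : ℝ) ^ T = 4 ^ T * 4 ^ T := by rw [← mul_pow]; norm_num
  have h6 : C₁ ^ (CZ + 1) = C₁ ^ CZ * C₁ := Real.rpow_add_one (by linarith) _
  have h0 : 0 < CZ := by linarith
  have h0' : 0 < C₁ := by linarith
  have h7 : Y ^ CZ * L ≤ (Y * L) ^ C := by
    refine le_trans ?_ h4
    exact mul_le_mul h2 h3 (by linarith) (Real.rpow_nonneg (by linarith) _)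
  have hYC : 0 ≤ Y ^ CZ := Real.rpow_nonneg (by linarith) _
  calc CZ * (Y * C₁) ^ CZ * 4 ^ T * (C₁ * 4 ^ T * (4 * L))
      = 4 * CZ * (C₁ ^ CZ * C₁) * (Y ^ CZ * L) * (4 ^ T * 4 ^ T) := by rw [h1]; ring
    _ = 4 * CZ * C₁ ^ (CZ + 1) * (Y ^ CZ * L) * 16 ^ T := by rw [h5, h6]
    _ ≤ C * (Y * L) ^ C * 16 ^ T := by
        refine mul_le_mul_of_nonneg_right ?_ (by positivity)
        exact mul_le_mul hC h7 (mul_nonneg hYC (by linarith)) (le_trans (by positivity) hC)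

theorem specG_gt {p : ℝ} (hp : 2 < p) (hZ : SpecZGt p) : SpecG p (2 * p) (1 - 2 / p) := by
  obtain ⟨CZ, hCZ, hZ⟩ := hZ
  obtain ⟨C₁, hC₁, hF⟩ := fields_gt hp
  have hp0 : 0 < p := by linarith
  set θ : ℝ := 1 - 2 / p with hθ
  have hθ0 : 0 < θ := by rw [hθ, sub_pos, div_lt_one hp0]; exact hp
  set C : ℝ := CZ * C₁ * 4 ^ θ + 4 * CZ * C₁ ^ (CZ + 1) + (CZ + 1) with hC
  have h40 : (1 : ℝ) ≤ 4 ^ θ := Real.one_le_rpow (by norm_num) hθ0.le
  have hcp : 0 < C₁ ^ (CZ + 1) := Real.rpow_pos_of_pos (by linarith) _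
  have ha : 0 < CZ * C₁ * 4 ^ θ := by positivity
  have hb : 0 < 4 * CZ * C₁ ^ (CZ + 1) := by positivity
  refine ⟨C, by rw [hC]; linarith, ?_⟩
  intro V _ _ m T H hT hm x hx δ hδ hδ1 hCT
  obtain ⟨hL, hA1, hA2⟩ := A_bounds V
  set L : ℝ := 1 + Real.log (Fintype.card V) with hLdef
  set A : ℝ := 4 * Real.log (Fintype.card V) + 2 with hA
  have hT0 : (0 : ℝ) < T := by exact_mod_cast hT
  have hT1 : (1 : ℝ) ≤ T := by exact_mod_cast hT
  obtain ⟨F, hF1, hF2, hF3⟩ := hF V (Fin m) T H hT A hA1 (modBound V) x hx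
  have hAθ : A ^ θ ≤ 4 ^ θ * L ^ θ := by
    rw [← Real.mul_rpow (by norm_num) (by linarith)]
    exact Real.rpow_le_rpow (by linarith) hA2 hθ0.le
  have hLθ : 0 < L ^ θ := Real.rpow_pos_of_pos (by linarith) _
  obtain ⟨M, g, hM, hg⟩ := hZ V (Fin m) T H hT (by rw [Fintype.card_fin]; exact hm) x F
    (C₁ * A ^ θ / T) C₁ (C₁ * 4 ^ T * (4 * L)) δ (by positivity) hC₁
    (by
      have : (1 : ℝ) ≤ 4 ^ T := one_le_pow₀ (by norm_num)
      exact one_le_mul_of_one_le_of_one_le (one_le_mul_of_one_le_of_one_le hC₁ this)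
        (by linarith)) hδ hδ1
    (by
      refine le_trans ?_ hCT
      have h1 : CZ * (C₁ * A ^ θ / T) = CZ * C₁ * A ^ θ / T := by ring
      rw [h1]
      refine div_le_div_of_nonneg_right ?_ hT0.le
      calc CZ * C₁ * A ^ θ ≤ CZ * C₁ * (4 ^ θ * L ^ θ) :=
            mul_le_mul_of_nonneg_left hAθ (by positivity)
        _ = CZ * C₁ * 4 ^ θ * L ^ θ := by ring
        _ ≤ C * L ^ θ := mul_le_mul_of_nonneg_right (by rw [hC]; linarith) hLθ.le)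
    hF1 hF2
    (fun u v => (hF3 u v).trans (by
      have h1 := nm_nonneg (p := p) (x u - x v)
      refine Real.rpow_le_rpow (by positivity) ?_ (by linarith)
      refine mul_le_mul_of_nonneg_right ?_ h1
      exact mul_le_mul_of_nonneg_left hA2 (by positivity)))
  refine ⟨M, g, hM, fun u v => ⟨(hg u v).1, (hg u v).2.1, (hg u v).2.2.trans ?_⟩⟩
  have h1 := nm_nonneg (p := p) (x u - x v)
  have hH0 : (0 : ℝ) ≤ H := Nat.cast_nonneg _
  refine Real.rpow_le_rpow (by positivity) ?_ (by linarith)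
  refine mul_le_mul_of_nonneg_right ?_ h1
  have hY : 1 ≤ ((H : ℝ) + 2 * T) / δ := by
    rw [le_div_iff₀ hδ]; linarith
  have h2 := core_arith (C := C) hCZ hC₁ hY hL (by rw [hC]; linarith) (by rw [hC]; linarith) T
  have h3 : ((H : ℝ) + 2 * T) * C₁ / δ = ((H : ℝ) + 2 * T) / δ * C₁ := by ring
  have h4 : ((H : ℝ) + 2 * T) * L / δ = ((H : ℝ) + 2 * T) / δ * L := by ring
  rw [h3, h4]
  exact h2

theorem specG_lt {p : ℝ} (hp1 : 1 < p) (hp : p < 2) (hZ : SpecZLt p) :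
    SpecG p 2 (2 / p - 1) := by
  obtain ⟨CZ, hCZ, hZ⟩ := hZ
  obtain ⟨C₁, hC₁, hF⟩ := fields_lt hp1 hp
  have hp0 : 0 < p := by linarith
  set θ : ℝ := 2 / p - 1 with hθ
  have hθ0 : 0 < θ := by rw [hθ, sub_pos, one_lt_div hp0]; exact hp
  set C : ℝ := CZ * C₁ * 4 ^ θ + 4 * CZ * C₁ ^ (CZ + 1) + (CZ + 1) with hC
  have h40 : (1 : ℝ) ≤ 4 ^ θ := Real.one_le_rpow (by norm_num) hθ0.le
  have hcp : 0 < C₁ ^ (CZ + 1) := Real.rpow_pos_of_pos (by linarith) _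
  have ha : 0 < CZ * C₁ * 4 ^ θ := by positivity
  have hb : 0 < 4 * CZ * C₁ ^ (CZ + 1) := by positivity
  refine ⟨C, by rw [hC]; linarith, ?_⟩
  intro V _ _ m T H hT hm x hx δ hδ hδ1 hCT
  obtain ⟨hL, hA1, hA2⟩ := A_bounds V
  set L : ℝ := 1 + Real.log (Fintype.card V) with hLdef
  set A : ℝ := 4 * Real.log (Fintype.card V) + 2 with hA
  have hT0 : (0 : ℝ) < T := by exact_mod_cast hT
  have hT1 : (1 : ℝ) ≤ T := by exact_mod_cast hT
  obtain ⟨F, hF1, hF3⟩ := hF V (Fin m) T H hT A hA1 (modBound V) x hx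
  have hAθ : A ^ θ ≤ 4 ^ θ * L ^ θ := by
    rw [← Real.mul_rpow (by norm_num) (by linarith)]
    exact Real.rpow_le_rpow (by linarith) hA2 hθ0.le
  have hLθ : 0 < L ^ θ := Real.rpow_pos_of_pos (by linarith) _
  have h4T : (1 : ℝ) ≤ 4 ^ T := one_le_pow₀ (by norm_num)
  obtain ⟨M, g, hM, hg⟩ := hZ V (Fin m) T H hT (by rw [Fintype.card_fin]; exact hm) x F
    (C₁ * A ^ θ / T) (C₁ * 4 ^ T) δ (by positivity)
    (one_le_mul_of_one_le_of_one_le hC₁ h4T) hδ hδ1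
    (by
      refine le_trans ?_ hCT
      have h1 : CZ * (C₁ * A ^ θ / T) = CZ * C₁ * A ^ θ / T := by ring
      rw [h1]
      refine div_le_div_of_nonneg_right ?_ hT0.le
      calc CZ * C₁ * A ^ θ ≤ CZ * C₁ * (4 ^ θ * L ^ θ) :=
            mul_le_mul_of_nonneg_left hAθ (by positivity)
        _ = CZ * C₁ * 4 ^ θ * L ^ θ := by ring
        _ ≤ C * L ^ θ := mul_le_mul_of_nonneg_right (by rw [hC]; linarith) hLθ.le)
    hF1 hF3
  refine ⟨M, g, hM, fun u v => ⟨(hg u v).1, (hg u v).2.1, (hg u v).2.2.trans ?_⟩⟩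
  have h1 := nm_nonneg (p := p) (x u - x v)
  have hH0 : (0 : ℝ) ≤ H := Nat.cast_nonneg _
  have hY : 1 ≤ ((H : ℝ) + 2 * T) / δ := by
    rw [le_div_iff₀ hδ]; linarith
  refine Real.rpow_le_rpow (by positivity) ?_ (by norm_num)
  refine mul_le_mul_of_nonneg_right ?_ h1
  have h2 := core_arith (C := C) hCZ hC₁ hY hL (by rw [hC]; linarith) (by rw [hC]; linarith) T
  have h4 : ((H : ℝ) + 2 * T) * L / δ = ((H : ℝ) + 2 * T) / δ * L := by ring
  rw [h4]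
  refine le_trans ?_ h2
  have hY0 : 0 ≤ ((H : ℝ) + 2 * T) / δ := by linarith
  have h5 : (((H : ℝ) + 2 * T) / δ) ^ CZ ≤ (((H : ℝ) + 2 * T) / δ * C₁) ^ CZ :=
    Real.rpow_le_rpow hY0 (le_mul_of_one_le_right hY0 hC₁) (by linarith)
  have h6 : C₁ * 4 ^ T ≤ C₁ * 4 ^ T * (4 * L) := le_mul_of_one_le_right (by positivity) (by linarith)
  have h7 := Real.rpow_nonneg hY0 CZ
  have h8 : 0 ≤ (((H : ℝ) + 2 * T) / δ * C₁) ^ CZ := h7.trans h5
  refine mul_le_mul ?_ h6 (by positivity) (by positivity)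
  exact mul_le_mul_of_nonneg_right (mul_le_mul_of_nonneg_left h5 (by linarith)) (by positivity)

end Vale.Agent.P249.H75
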