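import Vale.Agent.P249.H75.Core
import Vale.Agent.P249.H75.Assembly
import Vale.Agent.P249.H557.Prob

/-!
# P249: assembly, the exponent `|1 - 2 / p|`
-/

set_option linter.all false

open MeasureTheory
open scoped BigOperators ENNReal

namespace Vale.Agent.P249.H75

open Vale.Agent.P249

theorem le_exp_of_one_le {K z : ℝ} (hK : 1 ≤ K) (hz : 1 ≤ z) : K ≤ Real.exp (Real.log K * z) := by
  calc K = Real.exp (Real.log K) := (Real.exp_log (by linarith)).symm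
    _ ≤ Real.exp (Real.log K * z) := Real.exp_le_exp.2
        (le_mul_of_one_le_right (Real.log_nonneg hK) hz)

theorem exp_arith {θ C C₂ K₁ K₂ : ℝ} (hθ0 : 0 < θ) (hC : 1 ≤ C) (hC₂ : 1 ≤ C₂) (hK₁ : 1 ≤ K₁)
    (hK₂ : 0 ≤ K₂) : ∃ K : ℝ, 0 < K ∧ ∀ (l ε Y : ℝ) (T : ℕ), 1 ≤ l → 0 < ε → ε ≤ 1 → 0 ≤ Y →
      Y ≤ K₁ * l / ε → (T : ℝ) ≤ K₂ * l ^ θ / ε →
      C₂ * (2 * (C * (Y * l / (ε / 24)) ^ C * 16 ^ T) * l / (ε / 24)) ^ C₂ ≤
        Real.exp (K * l ^ θ / ε) := by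
  set a₁ : ℝ := Real.log 24 + Real.log K₁ + 1 / θ + 1 + 1 / θ + 1 with ha₁
  have hlK₁ : 0 ≤ Real.log K₁ := Real.log_nonneg hK₁
  have hl24 : 0 ≤ Real.log 24 := Real.log_nonneg (by norm_num)
  have hlC : 0 ≤ Real.log C := Real.log_nonneg hC
  have hlC₂ : 0 ≤ Real.log C₂ := Real.log_nonneg hC₂
  have hl16 : 0 ≤ Real.log 16 := Real.log_nonneg (by norm_num)
  have hl48 : 0 ≤ Real.log 48 := Real.log_nonneg (by norm_num)
  have hθ' : 0 < 1 / θ := by positivity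
  have ha₁0 : 0 < a₁ := by rw [ha₁]; linarith
  set a₂ : ℝ := Real.log C + C * a₁ + K₂ * Real.log 16 with ha₂
  have ha₂0 : 0 < a₂ := by
    have : 0 < C * a₁ := by positivity
    have : 0 ≤ K₂ * Real.log 16 := by positivity
    rw [ha₂]; linarith
  set a₃ : ℝ := Real.log 48 + a₂ + 1 / θ + 1 with ha₃
  have ha₃0 : 0 < a₃ := by rw [ha₃]; linarith
  refine ⟨Real.log C₂ + C₂ * a₃, by positivity, ?_⟩
  intro l ε Y T hl hε hε1 hY hY1 hT
  have hl0 : 0 < l := by linarith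
  have hC0 : 0 < C := by linarith
  have hC₂0 : 0 < C₂ := by linarith
  set z : ℝ := l ^ θ / ε with hz
  have hlθ : 1 ≤ l ^ θ := Real.one_le_rpow hl hθ0.le
  have hz1 : 1 ≤ z := by rw [hz, le_div_iff₀ hε]; linarith
  have hz0 : 0 < z := by linarith
  have hlz : l ^ θ ≤ z := by rw [hz, le_div_iff₀ hε]; exact mul_le_of_le_one_right (by linarith) hε1
  -- `l ≤ exp (z / θ)`
  have e1 : l ≤ Real.exp (1 / θ * z) := by
    have h1 : Real.log l ≤ 1 / θ * z := by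
      have h2 : Real.log (l ^ θ) ≤ l ^ θ - 1 := Real.log_le_sub_one_of_pos (by linarith)
      rw [Real.log_rpow hl0] at h2
      rw [one_div, inv_mul_eq_div, le_div_iff₀ hθ0]
      linarith
    calc l = Real.exp (Real.log l) := (Real.exp_log hl0).symm
      _ ≤ _ := Real.exp_le_exp.2 h1
  have e2 : 1 / ε ≤ Real.exp (1 * z) := by
    rw [one_mul]
    have h1 : 1 / ε ≤ z := by
      rw [hz]; exact div_le_div_of_nonneg_right hlθ hε.le
    have h2 := Real.add_one_le_exp z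
    linarith
  have e3 : Y ≤ Real.exp ((Real.log K₁ + 1 / θ + 1) * z) := by
    calc Y ≤ K₁ * l / ε := hY1
      _ = K₁ * l * (1 / ε) := by ring
      _ ≤ Real.exp (Real.log K₁ * z) * Real.exp (1 / θ * z) * Real.exp (1 * z) := by
          gcongr
          exact le_exp_of_one_le hK₁ hz1
      _ = _ := by rw [← Real.exp_add, ← Real.exp_add]; congr 1; ring
  have e4 : Y * l / (ε / 24) ≤ Real.exp (a₁ * z) := by
    calc Y * l / (ε / 24) = 24 * Y * l * (1 / ε) := by field_simp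
      _ ≤ Real.exp (Real.log 24 * z) * Real.exp ((Real.log K₁ + 1 / θ + 1) * z) *
          Real.exp (1 / θ * z) * Real.exp (1 * z) := by
          gcongr
          exact le_exp_of_one_le (by norm_num) hz1
      _ = _ := by
          rw [← Real.exp_add, ← Real.exp_add, ← Real.exp_add]; congr 1; rw [ha₁]; ring
  have h40 : 0 ≤ Y * l / (ε / 24) := by positivity
  have e5 : (Y * l / (ε / 24)) ^ C ≤ Real.exp (C * a₁ * z) := by
    calc (Y * l / (ε / 24)) ^ C ≤ Real.exp (a₁ * z) ^ C := Real.rpow_le_rpow h40 e4 hC0.le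
      _ = _ := by rw [← Real.exp_mul]; congr 1; ring
  have e6 : (16 : ℝ) ^ T ≤ Real.exp (K₂ * Real.log 16 * z) := by
    rw [← Real.rpow_natCast, Real.rpow_def_of_pos (by norm_num)]
    apply Real.exp_le_exp.2
    have h1 : (T : ℝ) ≤ K₂ * z := by rw [hz]; linarith [hT, mul_div_assoc K₂ (l ^ θ) ε]
    nlinarith
  have e7 : C * (Y * l / (ε / 24)) ^ C * 16 ^ T ≤ Real.exp (a₂ * z) := by
    calc C * (Y * l / (ε / 24)) ^ C * 16 ^ T
        ≤ Real.exp (Real.log C * z) * Real.exp (C * a₁ * z) *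
          Real.exp (K₂ * Real.log 16 * z) := by
          have := le_exp_of_one_le hC hz1
          gcongr
      _ = _ := by rw [← Real.exp_add, ← Real.exp_add]; congr 1; rw [ha₂]; ring
  have h70 : 0 ≤ C * (Y * l / (ε / 24)) ^ C * 16 ^ T := by positivity
  have e8 : 2 * (C * (Y * l / (ε / 24)) ^ C * 16 ^ T) * l / (ε / 24) ≤ Real.exp (a₃ * z) := by
    calc 2 * (C * (Y * l / (ε / 24)) ^ C * 16 ^ T) * l / (ε / 24)
        = 48 * (C * (Y * l / (ε / 24)) ^ C * 16 ^ T) * l * (1 / ε) := by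
          generalize C * (Y * l / (ε / 24)) ^ C * 16 ^ T = S
          field_simp
          ring
      _ ≤ Real.exp (Real.log 48 * z) * Real.exp (a₂ * z) * Real.exp (1 / θ * z) *
          Real.exp (1 * z) := by
          have := le_exp_of_one_le (by norm_num : (1 : ℝ) ≤ 48) hz1
          gcongr
      _ = _ := by
          rw [← Real.exp_add, ← Real.exp_add, ← Real.exp_add]; congr 1; rw [ha₃]; ring
  have h80 : 0 ≤ 2 * (C * (Y * l / (ε / 24)) ^ C * 16 ^ T) * l / (ε / 24) := by positivity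
  calc C₂ * (2 * (C * (Y * l / (ε / 24)) ^ C * 16 ^ T) * l / (ε / 24)) ^ C₂
      ≤ Real.exp (Real.log C₂ * z) * Real.exp (a₃ * z) ^ C₂ :=
        mul_le_mul (le_exp_of_one_le hC₂ hz1) (Real.rpow_le_rpow h80 e8 hC₂0.le)
          (Real.rpow_nonneg h80 _) (Real.exp_pos _).le
    _ = Real.exp ((Real.log C₂ + C₂ * a₃) * l ^ θ / ε) := by
        rw [← Real.exp_mul, ← Real.exp_add]; congr 1; rw [hz]; ring

/-- the number of coordinates -/
theorem exists_N {n : ℕ} (hn : 2 ≤ n) {ε : ℝ} (hε : 0 < ε) (hε1 : ε ≤ 1) :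
    ∃ N H : ℕ, 0 < N ∧ 4608 * (n : ℝ) ^ 3 / ε ^ 2 ≤ N ∧ N ≤ 2 ^ H ∧
      (H : ℝ) ≤ 41 * (1 + Real.log n) / ε := by
  have hnr : (1 : ℝ) ≤ n := by exact_mod_cast (by omega : 1 ≤ n)
  have hlog := Real.log_nonneg hnr
  set l : ℝ := 1 + Real.log n with hl
  have hl1 : 1 ≤ l := by rw [hl]; linarith
  set z : ℝ := l / ε with hz
  have hz1 : 1 ≤ z := by rw [hz, le_div_iff₀ hε]; linarith
  have hnz : Real.log n ≤ z := by
    rw [hz, le_div_iff₀ hε]
    have : Real.log n * ε ≤ Real.log n := mul_le_of_le_one_right hlog hε1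
    linarith
  have hεz : 1 / ε ≤ z := by rw [hz]; exact div_le_div_of_nonneg_right hl1 hε.le
  have hn3 : 1 ≤ (n : ℝ) ^ 3 := one_le_pow₀ hnr
  have hε2 : ε ^ 2 ≤ 1 := pow_le_one₀ hε.le hε1
  have hq : 1 ≤ (n : ℝ) ^ 3 / ε ^ 2 := by
    rw [le_div_iff₀ (by positivity)]; linarith
  refine ⟨⌈4608 * (n : ℝ) ^ 3 / ε ^ 2⌉₊, ⌈40 * z⌉₊, ?_, Nat.le_ceil _, ?_, ?_⟩
  · exact Nat.ceil_pos.2 (by positivity)
  · have h1 : ((⌈4608 * (n : ℝ) ^ 3 / ε ^ 2⌉₊ : ℕ) : ℝ) ≤ 4609 * ((n : ℝ) ^ 3 / ε ^ 2) := by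
      have := (Nat.ceil_lt_add_one (by positivity : 0 ≤ 4608 * (n : ℝ) ^ 3 / ε ^ 2)).le
      have h2 : 4608 * (n : ℝ) ^ 3 / ε ^ 2 = 4608 * ((n : ℝ) ^ 3 / ε ^ 2) := by ring
      rw [h2] at this ⊢
      linarith
    have h2 : (n : ℝ) ^ 3 ≤ Real.exp (3 * z) := by
      have h3 : (n : ℝ) ≤ Real.exp z := by
        calc (n : ℝ) = Real.exp (Real.log n) := (Real.exp_log (by linarith)).symm
          _ ≤ _ := Real.exp_le_exp.2 hnz
      calc (n : ℝ) ^ 3 ≤ Real.exp z ^ 3 := pow_le_pow_left₀ (by linarith) h3 3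
        _ = _ := by rw [← Real.exp_nat_mul]; norm_num
    have h3 : 1 / ε ^ 2 ≤ Real.exp (2 * z) := by
      have h4 : 1 / ε ≤ Real.exp z := by
        have := Real.add_one_le_exp z
        linarith
      calc 1 / ε ^ 2 = (1 / ε) ^ 2 := by rw [div_pow, one_pow]
        _ ≤ Real.exp z ^ 2 := pow_le_pow_left₀ (by positivity) h4 2
        _ = _ := by rw [← Real.exp_nat_mul]; norm_num
    have h4 : (4609 : ℝ) ≤ Real.exp (9 * z) := by
      have h5 : (4609 : ℝ) ≤ Real.exp 9 := by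
        have h6 := Real.exp_one_gt_d9
        calc (4609 : ℝ) ≤ 2.7182818283 ^ 9 := by norm_num
          _ ≤ Real.exp 1 ^ 9 := pow_le_pow_left₀ (by norm_num) h6.le 9
          _ = Real.exp 9 := by rw [← Real.exp_nat_mul]; norm_num
      exact h5.trans (Real.exp_le_exp.2 (by linarith))
    have h5 : ((⌈4608 * (n : ℝ) ^ 3 / ε ^ 2⌉₊ : ℕ) : ℝ) ≤ Real.exp (14 * z) := by
      calc _ ≤ 4609 * ((n : ℝ) ^ 3 / ε ^ 2) := h1
        _ = 4609 * (n : ℝ) ^ 3 * (1 / ε ^ 2) := by ring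
        _ ≤ Real.exp (9 * z) * Real.exp (3 * z) * Real.exp (2 * z) := by gcongr
        _ = _ := by rw [← Real.exp_add, ← Real.exp_add]; congr 1; ring
    have h6 : Real.exp (14 * z) ≤ (2 : ℝ) ^ ⌈40 * z⌉₊ := by
      rw [← Real.rpow_natCast, Real.rpow_def_of_pos (by norm_num)]
      apply Real.exp_le_exp.2
      have h7 := Nat.le_ceil (40 * z)
      have h8 := Real.log_two_gt_d9
      nlinarith
    exact_mod_cast h5.trans h6
  · have := (Nat.ceil_lt_add_one (by positivity : 0 ≤ 40 * z)).le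
    have h2 : 41 * l / ε = 41 * z := by rw [hz]; ring
    rw [h2]
    linarith

theorem N_bound {k n N : ℕ} {ε : ℝ} (hε : 0 < ε) (hk : 0 < k) (hkn : k ≤ n)
    (hN : 4608 * (n : ℝ) ^ 3 / ε ^ 2 ≤ N) :
    4 * (k : ℝ) ^ 2 * Real.log (2 * (k : ℝ) ^ 2) / (ε / 24) ^ 2 ≤ N := by
  refine le_trans ?_ hN
  have hk1 : (1 : ℝ) ≤ k := by exact_mod_cast hk
  have hkn' : (k : ℝ) ≤ n := by exact_mod_cast hkn
  have hlog : Real.log (2 * (k : ℝ) ^ 2) ≤ 2 * k := by
    have h1 : Real.log (2 * (k : ℝ) ^ 2) = Real.log 2 + 2 * Real.log k := by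
      rw [Real.log_mul (by norm_num) (by positivity), Real.log_pow]
      norm_num
    have h2 : Real.log k ≤ k - 1 := Real.log_le_sub_one_of_pos (by linarith)
    have h3 := Real.log_two_lt_d9
    rw [h1]
    linarith
  have h1 : 4 * (k : ℝ) ^ 2 * Real.log (2 * (k : ℝ) ^ 2) / (ε / 24) ^ 2 =
      2304 * ((k : ℝ) ^ 2 * Real.log (2 * (k : ℝ) ^ 2)) / ε ^ 2 := by
    field_simp
    ring
  rw [h1]
  refine div_le_div_of_nonneg_right ?_ (by positivity)
  have h2 : (k : ℝ) ^ 2 * Real.log (2 * (k : ℝ) ^ 2) ≤ 2 * (k : ℝ) ^ 3 := by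
    calc (k : ℝ) ^ 2 * Real.log (2 * (k : ℝ) ^ 2) ≤ (k : ℝ) ^ 2 * (2 * k) :=
          mul_le_mul_of_nonneg_left hlog (by positivity)
      _ = 2 * (k : ℝ) ^ 3 := by ring
  have h3 : (k : ℝ) ^ 3 ≤ (n : ℝ) ^ 3 := pow_le_pow_left₀ (by linarith) hkn' 3
  linarith

/-- distortion of `1 + e` over `1 - e` -/
theorem ratio_le {ε : ℝ} (hε : 0 < ε) (hε1 : ε ≤ 1) :
    1 ≤ (1 + ε / 24) / (1 - ε / 24) ∧ (1 + ε / 24) / (1 - ε / 24) ≤ 1 + ε / 8 := by
  constructor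
  · rw [le_div_iff₀ (by linarith)]; linarith
  · rw [div_le_iff₀ (by linarith)]
    nlinarith

theorem ratio_rpow_le {ε P : ℝ} (hε : 0 < ε) (hε1 : ε ≤ 1) (hP : 1 ≤ P) :
    ((1 + ε / 24) / (1 - ε / 24)) ^ (1 / P) ≤ 1 + ε / 8 := by
  obtain ⟨h1, h2⟩ := ratio_le hε hε1
  calc ((1 + ε / 24) / (1 - ε / 24)) ^ (1 / P) ≤ ((1 + ε / 24) / (1 - ε / 24)) ^ (1 : ℝ) :=
        Real.rpow_le_rpow_of_exponent_le h1 (by rw [div_le_one (by linarith)]; exact hP)
    _ = (1 + ε / 24) / (1 - ε / 24) := Real.rpow_one _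
    _ ≤ _ := h2

/-- final composition -/
theorem comp_arith {ε P s r D t y M S : ℝ} (hε : 0 < ε) (hε1 : ε ≤ 1) (hP : 1 ≤ P)
    (hs : 0 < s) (hr : 0 ≤ r) (hM : 0 < M) (ht : 0 ≤ t) (hy : 0 ≤ y)
    (hD0 : D ≤ 1 + ε / 8) (h1 : s * r ≤ t) (h2 : t ≤ D * s * r)
    (hQ1 : (1 - ε / 24) * t ^ P ≤ S / M) (hQ2 : S / M ≤ (1 + ε / 24) * t ^ P)
    (hy1 : (1 - ε / 24) * S ≤ y ^ P) (hy2 : y ^ P ≤ (1 + ε / 24) * S) :
    ((1 - ε / 24) ^ 2 * M) ^ (1 / P) * s * r ≤ y ∧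
      y ≤ (1 + ε) * (((1 - ε / 24) ^ 2 * M) ^ (1 / P) * s) * r := by
  have hP0 : 0 < P := by linarith
  have he1 : 0 < 1 - ε / 24 := by linarith
  have he2 : 0 < 1 + ε / 24 := by linarith
  set κ : ℝ := ((1 - ε / 24) ^ 2 * M) ^ (1 / P) with hκ
  have hκ0 : 0 < κ := by positivity
  have hκP : κ ^ P = (1 - ε / 24) ^ 2 * M := by
    rw [hκ, ← Real.rpow_mul (by positivity), one_div, inv_mul_cancel₀ hP0.ne', Real.rpow_one]
  rw [le_div_iff₀ hM] at hQ1
  rw [div_le_iff₀ hM] at hQ2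
  have hlow : κ * t ≤ y := by
    have h3 : (κ * t) ^ P ≤ y ^ P := by
      rw [Real.mul_rpow hκ0.le ht, hκP]
      refine le_trans ?_ hy1
      calc (1 - ε / 24) ^ 2 * M * t ^ P = (1 - ε / 24) * ((1 - ε / 24) * t ^ P * M) := by ring
        _ ≤ (1 - ε / 24) * S := mul_le_mul_of_nonneg_left hQ1 he1.le
    exact (Real.rpow_le_rpow_iff (by positivity) hy hP0).1 h3
  obtain ⟨hρ1, hρ2⟩ := ratio_le hε hε1
  set ρ : ℝ := (1 + ε / 24) / (1 - ε / 24) with hρ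
  have hupp : y ≤ ρ ^ 2 * (κ * t) := by
    have h3 : y ^ P ≤ (ρ ^ 2 * (κ * t)) ^ P := by
      rw [Real.mul_rpow (by positivity) (by positivity), Real.mul_rpow hκ0.le ht, hκP]
      have h4 : ρ ^ 2 ≤ (ρ ^ 2) ^ P := by
        calc ρ ^ 2 = (ρ ^ 2) ^ (1 : ℝ) := (Real.rpow_one _).symm
          _ ≤ _ := Real.rpow_le_rpow_of_exponent_le (one_le_pow₀ hρ1) hP
      calc y ^ P ≤ (1 + ε / 24) * S := hy2
        _ ≤ (1 + ε / 24) * ((1 + ε / 24) * t ^ P * M) := mul_le_mul_of_nonneg_left hQ2 he2.le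
        _ = ρ ^ 2 * ((1 - ε / 24) ^ 2 * M * t ^ P) := by
            have h5 : ρ ^ 2 * (1 - ε / 24) ^ 2 = (1 + ε / 24) ^ 2 := by
              rw [hρ, div_pow, div_mul_cancel₀ _ (by positivity)]
            linear_combination -(M * t ^ P) * h5
        _ ≤ (ρ ^ 2) ^ P * ((1 - ε / 24) ^ 2 * M * t ^ P) :=
            mul_le_mul_of_nonneg_right h4 (by positivity)
    exact (Real.rpow_le_rpow_iff hy (by positivity) hP0).1 h3
  have hsr : 0 ≤ s * r := mul_nonneg hs.le hr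
  constructor
  · calc κ * s * r = κ * (s * r) := by ring
      _ ≤ κ * t := mul_le_mul_of_nonneg_left h1 hκ0.le
      _ ≤ y := hlow
  · have ht2 : t ≤ (1 + ε / 8) * (s * r) := by
      calc t ≤ D * s * r := h2
        _ = D * (s * r) := by ring
        _ ≤ (1 + ε / 8) * (s * r) := mul_le_mul_of_nonneg_right hD0 hsr
    have hρsq : ρ ^ 2 ≤ (1 + ε / 8) ^ 2 := pow_le_pow_left₀ (by linarith) hρ2 2
    have hc : (1 + ε / 8) ^ 2 * (1 + ε / 8) ≤ 1 + ε := by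
      have h7 : ε ^ 2 ≤ ε := by nlinarith
      have h8 : ε ^ 3 ≤ ε := by
        calc ε ^ 3 = ε ^ 2 * ε := by ring
          _ ≤ 1 * ε := mul_le_mul_of_nonneg_right (h7.trans hε1) hε.le
          _ = ε := one_mul _
      nlinarith
    calc y ≤ ρ ^ 2 * (κ * t) := hupp
      _ ≤ (1 + ε / 8) ^ 2 * (κ * ((1 + ε / 8) * (s * r))) := by
          gcongr
      _ = ((1 + ε / 8) ^ 2 * (1 + ε / 8)) * (κ * (s * r)) := by ring
      _ ≤ (1 + ε) * (κ * (s * r)) := mul_le_mul_of_nonneg_right hc (by positivity)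
      _ = (1 + ε) * (κ * s) * r := by ring

theorem main_dual (p : ℝ≥0∞) [Fact (1 ≤ p)] (hp : p ≠ ∞) (r θ : ℝ) (hr : p.toReal < r)
    (hθ0 : 0 < θ) (hθ1 : θ ≤ 1) (hG : SpecG p.toReal r θ) :
    ∃ C : ℝ, 0 < C ∧ ∀ n : ℕ, 2 ≤ n → ∀ ε : ℝ, 0 < ε → ε ≤ 1 →
      ∀ (Ω : Type) [MeasurableSpace Ω] (μ : Measure Ω) (X : Finset (Lp ℝ p μ)), X.card ≤ n →
        ∃ (d : ℕ) (f : Lp ℝ p μ → PiLp p (fun _ : Fin d => ℝ)),
          (d : ℝ) ≤ Real.exp (C * (1 + Real.log n) ^ θ / ε) ∧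
            DistortionAtMost X f (1 + ε) := by
  classical
  have hP0 := toReal_pos_of_fact (p := p) hp
  have hP1 := one_le_toReal_of_fact (p := p) hp
  obtain ⟨C, hC, hG⟩ := hG
  obtain ⟨C₂, hC₂, hE⟩ := H557.flat_embed p hp r hr
  obtain ⟨K, hK, harith⟩ := exp_arith (K₁ := 41 + 96 * C) (K₂ := 48 * C) hθ0 hC hC₂
    (by linarith) (by linarith)
  generalize hP : p.toReal = P at *
  refine ⟨K, hK, fun n hn ε hε hε1 Ω _ μ X hX => ?_⟩
  have hnr : (1 : ℝ) ≤ n := by exact_mod_cast (by omega : 1 ≤ n)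
  have hlog := Real.log_nonneg hnr
  obtain ⟨N, H, hN0, hN, hNH, hH⟩ := exists_N hn hε hε1
  set l : ℝ := 1 + Real.log n with hl
  have hl1 : 1 ≤ l := by rw [hl]; linarith
  have hl0 : 0 < l := by linarith
  have hlθ : 1 ≤ l ^ θ := Real.one_le_rpow hl1 hθ0.le
  have hlθl : l ^ θ ≤ l := by
    calc l ^ θ ≤ l ^ (1 : ℝ) := Real.rpow_le_rpow_of_exponent_le hl1 hθ1
      _ = l := Real.rpow_one _
  rcases Finset.eq_empty_or_nonempty X with h0 | h0
  · subst h0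
    refine ⟨0, fun _ => 0, by rw [Nat.cast_zero]; positivity, 1, one_pos, ?_⟩
    intro x hx
    simp at hx
  have hne : Nonempty X := ⟨⟨h0.choose, h0.choose_spec⟩⟩
  -- first map
  set e : ℝ := ε / 24 with he
  have he0 : 0 < e := by positivity
  have he1 : e < 1 := by rw [he]; linarith
  obtain ⟨f₀, s, hs, hf₀⟩ := embed_all_pairs hp X he0 he1 N
    (N_bound hε h0.card_pos hX hN) hN0
  rw [hP] at hf₀
  have hD0 := ratio_rpow_le hε hε1 hP1
  rw [← he] at hD0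
  -- the finite set in `ℓ_p`
  set x : X → Fin N → ℝ := fun u i => f₀ u.1 i with hx
  have hxn : ∀ u v : X, nm P (x u - x v) = ‖f₀ u.1 - f₀ v.1‖ := by
    intro u v
    rw [← hP]
    exact nm_eq_piLp_sub hp _ _
  have hxinj : Function.Injective x := by
    intro u v huv
    have h1 : nm P (x u - x v) = 0 := by rw [huv, sub_self, nm_zero hP0]
    rw [hxn] at h1
    have h2 := (hf₀ u.1 u.2 v.1 v.2).1
    rw [h1] at h2
    have h3 : ‖u.1 - v.1‖ ≤ 0 := by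
      by_contra hcon
      push Not at hcon
      have := mul_pos hs hcon
      linarith
    exact Subtype.ext (sub_eq_zero.1 (norm_le_zero_iff.1 h3))
  -- second map
  set T : ℕ := ⌈24 * C * l ^ θ / ε⌉₊ with hT
  have hTge : 24 * C * l ^ θ / ε ≤ T := Nat.le_ceil _
  have h24 : 1 ≤ 24 * C * l ^ θ / ε := by
    rw [le_div_iff₀ hε]
    nlinarith
  have hTle : (T : ℝ) ≤ 48 * C * l ^ θ / ε := by
    have h1 := (Nat.ceil_lt_add_one (by linarith : 0 ≤ 24 * C * l ^ θ / ε)).le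
    have h2 : 48 * C * l ^ θ / ε = 2 * (24 * C * l ^ θ / ε) := by ring
    rw [h2]
    linarith
  have hT0 : 0 < T := Nat.ceil_pos.2 (by linarith)
  have hTr : (0 : ℝ) < T := by exact_mod_cast hT0
  have hcard : Fintype.card X = X.card := Fintype.card_coe X
  have hL1 : 1 ≤ 1 + Real.log (Fintype.card X) := by
    have := Real.log_natCast_nonneg (Fintype.card X)
    linarith
  have hLl : 1 + Real.log (Fintype.card X) ≤ l := by
    have h1 : Real.log (Fintype.card X) ≤ Real.log n := by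
      rw [hcard]
      exact Real.log_le_log (by exact_mod_cast h0.card_pos) (by exact_mod_cast hX)
    rw [hl]; linarith
  set L : ℝ := 1 + Real.log (Fintype.card X) with hL
  have hC0 : 0 < C := by linarith
  obtain ⟨M, g, hM, hg⟩ := hG X N T H hT0 hNH x hxinj e he0 he1.le (by
    rw [div_le_iff₀ hTr]
    have h1 : L ^ θ ≤ l ^ θ := Real.rpow_le_rpow (by linarith) hLl hθ0.le
    calc C * L ^ θ ≤ C * l ^ θ := mul_le_mul_of_nonneg_left h1 hC0.le
      _ = e * (24 * C * l ^ θ / ε) := by rw [he]; field_simp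
      _ ≤ e * T := mul_le_mul_of_nonneg_left hTge he0.le)
  have hMr : (0 : ℝ) < M := by exact_mod_cast hM
  -- the flatness constant
  set Y : ℝ := (H : ℝ) + 2 * T with hY
  have hY0 : 1 ≤ Y := by
    have h1 : (1 : ℝ) ≤ T := by exact_mod_cast hT0
    have h2 : (0 : ℝ) ≤ H := Nat.cast_nonneg _
    rw [hY]; linarith
  have hYle : Y ≤ (41 + 96 * C) * l / ε := by
    have h1 : 48 * C * l ^ θ / ε ≤ 48 * C * l / ε :=
      div_le_div_of_nonneg_right (mul_le_mul_of_nonneg_left hlθl (by linarith)) hε.le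
    have h2 : (41 + 96 * C) * l / ε = 41 * l / ε + 2 * (48 * C * l / ε) := by ring
    rw [h2, hY]
    linarith
  set B : ℝ := C * (Y * l / e) ^ C * 16 ^ T with hB
  have hYe : 1 ≤ Y * l / e := by
    rw [le_div_iff₀ he0]
    have : 1 ≤ Y * l := one_le_mul_of_one_le_of_one_le hY0 hl1
    linarith
  have hB1 : 1 ≤ B := by
    have h1 : 1 ≤ (Y * l / e) ^ C := Real.one_le_rpow hYe hC0.le
    have h2 : (1 : ℝ) ≤ 16 ^ T := one_le_pow₀ (by norm_num)
    exact one_le_mul_of_one_le_of_one_le (one_le_mul_of_one_le_of_one_le hC h1) h2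
  have hflat : ∀ u v : X, (M : ℝ) ^ (-(1 / r)) * lpd r g u v ≤
      2 * B * ((M : ℝ) ^ (-(1 / P)) * lpd P g u v) := by
    intro u v
    have hr0 : 0 < r := by linarith
    rw [H557.inv_rpow_lpd hr0 hM, H557.inv_rpow_lpd hP0 hM]
    obtain ⟨h1, h2, h3⟩ := hg u v
    set t : ℝ := nm P (x u - x v) with ht
    have ht0 : 0 ≤ t := nm_nonneg _
    have h4 : ((∑ i, |g u i - g v i| ^ r) / M) ^ (1 / r) ≤ B * t := by
      have h5 : (∑ i, |g u i - g v i| ^ r) / M ≤ (B * t) ^ r := by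
        refine h3.trans (Real.rpow_le_rpow (by positivity) ?_ hr0.le)
        refine mul_le_mul_of_nonneg_right ?_ ht0
        rw [hB]
        gcongr
      calc ((∑ i, |g u i - g v i| ^ r) / M) ^ (1 / r) ≤ ((B * t) ^ r) ^ (1 / r) :=
            Real.rpow_le_rpow (by positivity) h5 (by positivity)
        _ = B * t := by
            rw [← Real.rpow_mul (by positivity), mul_one_div_cancel hr0.ne', Real.rpow_one]
    have h6 : 1 / 2 * t ≤ ((∑ i, |g u i - g v i| ^ P) / M) ^ (1 / P) := by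
      have h7 : (1 / 2 * t) ^ P ≤ (∑ i, |g u i - g v i| ^ P) / M := by
        refine le_trans ?_ h1
        rw [Real.mul_rpow (by norm_num) ht0]
        refine mul_le_mul_of_nonneg_right ?_ (by positivity)
        calc (1 / 2 : ℝ) ^ P ≤ (1 / 2 : ℝ) ^ (1 : ℝ) :=
              Real.rpow_le_rpow_of_exponent_ge (by norm_num) (by norm_num) hP1
          _ = 1 / 2 := Real.rpow_one _
          _ ≤ 1 - e := by rw [he]; linarith
      calc 1 / 2 * t = ((1 / 2 * t) ^ P) ^ (1 / P) := by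
            rw [← Real.rpow_mul (by positivity), mul_one_div_cancel hP0.ne', Real.rpow_one]
        _ ≤ _ := Real.rpow_le_rpow (by positivity) h7 (by positivity)
    calc ((∑ i, |g u i - g v i| ^ r) / M) ^ (1 / r) ≤ B * t := h4
      _ = 2 * B * (1 / 2 * t) := by ring
      _ ≤ 2 * B * ((∑ i, |g u i - g v i| ^ P) / M) ^ (1 / P) :=
          mul_le_mul_of_nonneg_left h6 (by positivity)
  -- third map
  obtain ⟨d, W, hd, hW⟩ := hE X M hM g (2 * B) (by linarith) hflat e he0 he1.le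
  set F : Lp ℝ p μ → PiLp p (fun _ : Fin d => ℝ) := fun u =>
    if h : u ∈ X then W ⟨u, h⟩ else 0 with hF
  refine ⟨d, F, ?_, ((1 - ε / 24) ^ 2 * M) ^ (1 / P) * s, ?_, fun a ha b hb => ?_⟩
  · refine hd.trans (le_trans ?_ (harith l ε Y T hl1 hε hε1 (by linarith) hYle hTle))
    rw [← he, ← hB]
    gcongr
  · have : 0 < 1 - ε / 24 := by linarith
    positivity
  · obtain ⟨h1, h2⟩ := hf₀ a ha b hb
    obtain ⟨h3, h4, -⟩ := hg ⟨a, ha⟩ ⟨b, hb⟩
    obtain ⟨h5, h6⟩ := hW ⟨a, ha⟩ ⟨b, hb⟩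
    rw [hxn] at h3 h4
    simp only at h3 h4
    rw [lpd_rpow g hP0] at h5 h6
    have h7 : F a = W ⟨a, ha⟩ := by simp only [hF, dif_pos ha]
    have h8 : F b = W ⟨b, hb⟩ := by simp only [hF, dif_pos hb]
    rw [h7, h8]
    exact comp_arith hε hε1 hP1 hs (norm_nonneg _) hMr (norm_nonneg _) (norm_nonneg _) hD0 h1 h2
      h3 h4 h5 h6

end Vale.Agent.P249.H75
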