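import Vale.Agent.P249.H75.DualFin
import Vale.Agent.P249.UP.ZGt
import Vale.Agent.P249.UP.ZLt

/-!
# P249: the exponent `|1 - 2 / p|` for all `p ≠ 2`
-/

set_option linter.all false

open MeasureTheory
open scoped BigOperators ENNReal

namespace Vale.Agent.P249.H75

open Vale.Agent.P249 Vale.Agent.P249.UP

theorem dual (p : ℝ≥0∞) [Fact (1 ≤ p)] (hp1 : 1 < p) (hp : p ≠ ∞) (hp2 : p ≠ 2) :
    ∃ C : ℝ, 0 < C ∧ ∀ n : ℕ, 2 ≤ n → ∀ ε : ℝ, 0 < ε → ε ≤ 1 →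
      ∀ (Ω : Type) [MeasurableSpace Ω] (μ : Measure Ω) (X : Finset (Lp ℝ p μ)), X.card ≤ n →
        ∃ (d : ℕ) (f : Lp ℝ p μ → PiLp p (fun _ : Fin d => ℝ)),
          (d : ℝ) ≤ Real.exp (C * (1 + Real.log n) ^ |1 - 2 / p.toReal| / ε) ∧
            DistortionAtMost X f (1 + ε) :=
  dual_all (fun P hP => specZGt P hP) (fun P h1 h2 => specZLt P h1 h2) p hp1 hp hp2

end Vale.Agent.P249.H75
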