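import Vale.Agent.P249.H75.Dual

/-!
# P249: the exponent `|1 - 2 / p|`, from the random maps
-/

set_option linter.all false

open MeasureTheory
open scoped BigOperators ENNReal

namespace Vale.Agent.P249.H75

open Vale.Agent.P249 Vale.Agent.P249.UP

/-- the exponent of the logarithm -/
noncomputable def expo (P : ℝ) : ℝ := |1 - 2 / P|

theorem dual_all (hGt : ∀ P : ℝ, 2 < P → SpecZGt P) (hLt : ∀ P : ℝ, 1 < P → P < 2 → SpecZLt P)
    (p : ℝ≥0∞) [Fact (1 ≤ p)] (hp1 : 1 < p) (hp : p ≠ ∞) (hp2 : p ≠ 2) :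
    ∃ C : ℝ, 0 < C ∧ ∀ n : ℕ, 2 ≤ n → ∀ ε : ℝ, 0 < ε → ε ≤ 1 →
      ∀ (Ω : Type) [MeasurableSpace Ω] (μ : Measure Ω) (X : Finset (Lp ℝ p μ)), X.card ≤ n →
        ∃ (d : ℕ) (f : Lp ℝ p μ → PiLp p (fun _ : Fin d => ℝ)),
          (d : ℝ) ≤ Real.exp (C * (1 + Real.log n) ^ |1 - 2 / p.toReal| / ε) ∧
            DistortionAtMost X f (1 + ε) := by
  have hP0 := toReal_pos_of_fact (p := p) hp
  have hP1 : 1 < p.toReal := by
    have := (ENNReal.toReal_lt_toReal ENNReal.one_ne_top hp).2 hp1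
    simpa using this
  have hP2 : p.toReal ≠ 2 := by
    intro h
    apply hp2
    have := ENNReal.ofReal_toReal hp
    rw [h] at this
    rw [← this]
    norm_num
  rcases lt_or_gt_of_ne hP2 with h | h
  · have h1 : 1 < 2 / p.toReal := by rw [one_lt_div hP0]; exact h
    have h2 : |1 - 2 / p.toReal| = 2 / p.toReal - 1 := by
      rw [abs_sub_comm, abs_of_pos (by linarith)]
    rw [h2]
    refine main_dual p hp 2 (2 / p.toReal - 1) h (by linarith) ?_
      (specG_lt hP1 h (hLt _ hP1 h))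
    have : 2 / p.toReal ≤ 2 := div_le_self (by norm_num) hP1.le
    linarith
  · have h1 : 2 / p.toReal < 1 := by rw [div_lt_one hP0]; exact h
    have h2 : |1 - 2 / p.toReal| = 1 - 2 / p.toReal := abs_of_pos (by linarith)
    rw [h2]
    refine main_dual p hp (2 * p.toReal) (1 - 2 / p.toReal) (by linarith) (by linarith) ?_
      (specG_gt h (hGt _ h))
    have : 0 < 2 / p.toReal := by positivity
    linarith

end Vale.Agent.P249.H75
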