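import Vale.Agent.P249.H75.ModBound

/-!
# P249: minimax for several costs
-/

set_option linter.all false

open Filter Topology Set
open scoped BigOperators

namespace Vale.Agent.P249.H75

/-- `K` is a gradient projection for the weight `w` whose modulus has norm at most `A`. -/
structure IsGP {V : Type*} [Fintype V] (w : V → V → ℝ) (A : ℝ) (K : V × V → V × V → ℝ) : Prop where
  grad : ∀ g : V × V → ℝ, ∃ F : V → ℝ, ∀ e : V × V, ∑ e', K e e' * g e' = F e.1 - F e.2
  fix : ∀ F : V → ℝ, ∀ e : V × V, ∑ e', K e e' * (F e'.1 - F e'.2) = F e.1 - F e.2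
  contr : ∀ g : V × V → ℝ, ∑ e, w e.1 e.2 * (∑ e', K e e' * g e') ^ 2 ≤
    ∑ e, w e.1 e.2 * g e ^ 2
  mod : ∀ g : V × V → ℝ, (∀ e, 0 ≤ g e) → ∑ e, w e.1 e.2 * (∑ e', |K e e'| * g e') ^ 2 ≤
    A ^ 2 * ∑ e, w e.1 e.2 * g e ^ 2

theorem minimax_symm {V M : Type*} [Fintype V] [AddCommGroup M] [Module ℝ M]
    (c : V × V → M → ℝ) (hc : ∀ e, ConvexOn ℝ univ (c e))
    (hcs : ∀ u v F, c (u, v) F = c (v, u) F) (hc0 : ∀ e F, 0 ≤ c e F) {κ₀ κ : ℝ} (hκ₀ : 0 ≤ κ₀)
    (hκ : κ₀ < κ)
    (h : ∀ b : V → V → ℝ, (∀ u v, 0 < b u v) → (∀ u v, b u v = b v u) →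
      ∃ F, ∑ e : V × V, b e.1 e.2 * c e F ≤ κ₀ * ∑ e : V × V, b e.1 e.2) :
    ∃ F, ∀ e, c e F < κ := by
  classical
  obtain ⟨κ₁, h01, h1κ⟩ := exists_between hκ
  have hκ₁0 : 0 < κ₁ := hκ₀.trans_lt h01
  refine minimax c hc (b := κ₁) h1κ ?_
  intro a ha
  rcases eq_or_ne (∑ e, a e) 0 with h0 | h0
  · refine ⟨0, ?_⟩
    rw [h0, mul_zero]
    have : ∀ e, a e = 0 := fun e => (Finset.sum_eq_zero_iff_of_nonneg fun e _ => ha e).1 h0 e
      (Finset.mem_univ e)
    simp [this]
  have hsum : 0 < ∑ e, a e := lt_of_le_of_ne (Finset.sum_nonneg fun e _ => ha e) (Ne.symm h0)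
  obtain ⟨η, hη0, hη⟩ : ∃ η : ℝ, 0 < η ∧
      κ₀ * (∑ e, a e + η * Fintype.card (V × V)) ≤ κ₁ * ∑ e, a e := by
    refine ⟨(κ₁ - κ₀) * (∑ e, a e) / (κ₀ * Fintype.card (V × V) + 1), ?_, ?_⟩
    · have : 0 < κ₁ - κ₀ := by linarith
      positivity
    · set T : ℝ := κ₀ * Fintype.card (V × V) with hT
      have hT0 : 0 ≤ T := by positivity
      have h2 : 0 ≤ (κ₁ - κ₀) * (∑ e, a e) := by
        have : 0 < κ₁ - κ₀ := by linarith
        positivity
      have h3 : κ₀ * (∑ e, a e + (κ₁ - κ₀) * (∑ e, a e) / (T + 1) *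
          Fintype.card (V × V)) = κ₀ * ∑ e, a e +
          (κ₁ - κ₀) * (∑ e, a e) * (T / (T + 1)) := by
        rw [hT]; ring
      rw [h3]
      have h4 : T / (T + 1) ≤ 1 := by
        rw [div_le_one (by linarith)]; linarith
      have h5 := mul_le_mul_of_nonneg_left h4 h2
      linarith
  obtain ⟨F, hF⟩ := h (fun u v => (a (u, v) + a (v, u)) / 2 + η)
    (fun u v => by have := ha (u, v); have := ha (v, u); linarith) (fun u v => by ring)
  refine ⟨F, ?_⟩
  have h1 := sum_symm a (fun e => c e F) (fun u v => hcs u v F) (fun e => hc0 e F) hη0.le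
  rw [sum_symm_one] at hF
  exact (h1.trans hF).trans hη

theorem nm_abs_congr {ι : Type*} [Fintype ι] {p : ℝ} {u v : ι → ℝ} (h : ∀ i, |u i| = |v i|) :
    nm p u = nm p v := by
  unfold nm
  congr 1
  exact Finset.sum_congr rfl fun i _ => by rw [h i]

theorem convexOn_cost' {V κ : Type*} [Fintype κ] {q : ℝ} (hq1 : 1 ≤ q) (u v : V) (W y : κ → ℝ)
    (D : ℝ) (hD : 0 ≤ D) :
    ConvexOn ℝ univ fun F : V → κ → ℝ => (nm q fun k => W k * (y k - (F u k - F v k))) ^ 2 * D := by
  have h1 : ConvexOn ℝ univ fun F : V → κ → ℝ => nm q fun k => W k * (y k - (F u k - F v k)) := by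
    refine ⟨convex_univ, fun F _ G _ s t hs ht hst => ?_⟩
    have h2 := (convexOn_nm (ι := κ) hq1).2 (mem_univ fun k => W k * (y k - (F u k - F v k)))
      (mem_univ fun k => W k * (y k - (G u k - G v k))) hs ht hst
    have h3 : (fun k => W k * (y k - ((s • F + t • G) u k - (s • F + t • G) v k))) =
        s • (fun k => W k * (y k - (F u k - F v k))) +
          t • (fun k => W k * (y k - (G u k - G v k))) := by
      funext k
      simp only [Pi.add_apply, Pi.smul_apply, smul_eq_mul]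
      linear_combination (-(W k * y k)) * hst
    show nm q (fun k => W k * (y k - ((s • F + t • G) u k - (s • F + t • G) v k))) ≤ _
    rw [h3]
    exact h2
  have h2 := h1.pow (fun F _ => nm_nonneg _) 2
  have h3 := h2.smul (c := D) hD
  refine h3.congr fun F _ => ?_
  simp only [smul_eq_mul, Pi.smul_apply, Pi.pow_apply]
  rw [mul_comm]

theorem convexOn_sum' {J M : Type*} [AddCommGroup M] [Module ℝ M] (s : Finset J)
    (f : J → M → ℝ) (h : ∀ a ∈ s, ConvexOn ℝ univ (f a)) :
    ConvexOn ℝ univ fun F => ∑ a ∈ s, f a F := by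
  classical
  induction s using Finset.induction_on with
  | empty => simpa using convexOn_const (0 : ℝ) convex_univ
  | insert a s ha ih =>
    have h1 := (h a (Finset.mem_insert_self a s)).add
      (ih fun b hb => h b (Finset.mem_insert_of_mem hb))
    refine h1.congr fun F _ => ?_
    rw [Finset.sum_insert ha]
    rfl

theorem minimax_field {V κ J : Type*} [Fintype V] [Fintype κ] [Fintype J] {A : ℝ}
    (hK : ModBound V A) (Ψ : V × V → κ → ℝ) (hΨ : ∀ u v k, Ψ (v, u) k = -Ψ (u, v) k)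
    (d : V → V → ℝ) (hd : ∀ u v, u ≠ v → 0 < d u v) (hds : ∀ u v, d u v = d v u)
    (hd0 : ∀ u, d u u = 0) (s : J → ℝ) (hs : ∀ a, 1 ≤ s a) (W : J → κ → ℝ) (β : J → ℝ)
    (hβ : ∀ a, 0 < β a)
    (H : ∀ w : V → V → ℝ, (∀ x y, 0 < w x y) → (∀ x y, w x y = w y x) →
      ∀ K : V × V → V × V → ℝ, IsGP w A K → ∀ a,
        ∑ e : V × V, w e.1 e.2 * (nm (s a) fun k => W a k * (Ψ e k - ∑ e', K e e' * Ψ e' k)) ^ 2 ≤
          β a ^ 2 * ∑ e : V × V, w e.1 e.2 * d e.1 e.2 ^ 2) :
    ∃ F : V → κ → ℝ, ∀ u v a, (nm (s a) fun k => W a k * (Ψ (u, v) k - (F u k - F v k))) ≤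
      √(Fintype.card J + 1) * β a * d u v := by
  classical
  have hsp : ∀ a, 0 < s a := fun a => by linarith [hs a]
  set c : V × V → (V → κ → ℝ) → ℝ := fun e F =>
    ∑ a, (nm (s a) fun k => W a k * (Ψ e k - (F e.1 k - F e.2 k))) ^ 2 *
      (1 / (β a * d e.1 e.2) ^ 2) with hc
  have hΨ0 : ∀ u k, Ψ (u, u) k = 0 := fun u k => by
    have := hΨ u u k
    linarith
  have hconv : ∀ e, ConvexOn ℝ univ (c e) := fun e =>
    convexOn_sum' _ _ fun a _ => convexOn_cost' (hs a) _ _ _ _ _ (by positivity)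
  have hsym : ∀ u v F, c (u, v) F = c (v, u) F := by
    intro u v F
    simp only [hc]
    refine Finset.sum_congr rfl fun a _ => ?_
    rw [hds u v]
    congr 2
    refine nm_abs_congr fun k => ?_
    rw [hΨ u v]
    rw [← abs_neg]
    congr 1
    ring
  have hnn : ∀ e F, 0 ≤ c e F := fun e F => Finset.sum_nonneg fun a _ => by positivity
  have havg : ∀ b : V → V → ℝ, (∀ u v, 0 < b u v) → (∀ u v, b u v = b v u) →
      ∃ F, ∑ e : V × V, b e.1 e.2 * c e F ≤ (Fintype.card J : ℝ) * ∑ e : V × V, b e.1 e.2 := by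
    intro b hb0 hbs
    set w : V → V → ℝ := fun u v => if u = v then 1 else b u v / d u v ^ 2 with hw
    have hw0 : ∀ u v, 0 < w u v := by
      intro u v
      simp only [hw]
      split_ifs with h
      · exact one_pos
      · exact div_pos (hb0 u v) (pow_pos (hd u v h) 2)
    have hws : ∀ u v, w u v = w v u := by
      intro u v
      simp only [hw]
      by_cases h : u = v
      · subst h; rfl
      · rw [if_neg h, if_neg (Ne.symm h), hbs, hds]
    obtain ⟨K, hKa, hKb, hKc, hKd⟩ := hK w hw0 hws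
    have hGP : IsGP w A K := ⟨hKa, hKb, hKc, hKd⟩
    have hch : ∀ k, ∃ F : V → ℝ, ∀ e : V × V, ∑ e', K e e' * Ψ e' k = F e.1 - F e.2 :=
      fun k => hKa fun e => Ψ e k
    choose F hF using hch
    refine ⟨fun u k => F k u, ?_⟩
    set D := ∑ e : V × V, w e.1 e.2 * d e.1 e.2 ^ 2 with hD
    have hR : D ≤ ∑ e : V × V, b e.1 e.2 := by
      refine Finset.sum_le_sum fun e _ => ?_
      obtain ⟨u, v⟩ := e
      simp only [hw]
      by_cases h : u = v
      · subst h
        rw [hd0]
        have := hb0 u u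
        simp only [if_true]
        nlinarith
      · rw [if_neg h, div_mul_cancel₀ _ (pow_pos (hd u v h) 2).ne']
    have hH := H w hw0 hws K hGP
    have hbc : ∀ (e : V × V) a, b e.1 e.2 * ((nm (s a) fun k => W a k *
        (Ψ e k - (F k e.1 - F k e.2))) ^ 2 * (1 / (β a * d e.1 e.2) ^ 2)) =
        1 / β a ^ 2 * (w e.1 e.2 * (nm (s a) fun k => W a k *
          (Ψ e k - ∑ e', K e e' * Ψ e' k)) ^ 2) := by
      rintro ⟨u, v⟩ a
      have h1 : (fun k => W a k * (Ψ (u, v) k - ∑ e', K (u, v) e' * Ψ e' k)) =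
          fun k => W a k * (Ψ (u, v) k - (F k u - F k v)) := by
        funext k
        rw [hF k (u, v)]
      rw [h1]
      by_cases h : u = v
      · subst h
        have : (fun k => W a k * (Ψ (u, u) k - (F k u - F k u))) = 0 := by
          funext k
          simp [hΨ0]
        simp only [this]
        rw [nm_zero (hsp a)]
        ring
      · simp only [hw]
        rw [if_neg h]
        have h2 := (hβ a).ne'
        have h3 := (hd u v h).ne'
        field_simp
    calc ∑ e : V × V, b e.1 e.2 * c e (fun u k => F k u)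
        = ∑ a, 1 / β a ^ 2 * ∑ e : V × V, w e.1 e.2 * (nm (s a) fun k => W a k *
          (Ψ e k - ∑ e', K e e' * Ψ e' k)) ^ 2 := by
          simp only [hc]
          simp_rw [Finset.mul_sum, hbc]
          rw [Finset.sum_comm]
      _ ≤ ∑ a : J, D := by
          refine Finset.sum_le_sum fun a _ => ?_
          have h1 := mul_le_mul_of_nonneg_left (hH a) (by positivity : 0 ≤ 1 / β a ^ 2)
          refine h1.trans (le_of_eq ?_)
          have h2 := (hβ a).ne'
          have h3 : ∀ D : ℝ, 1 / β a ^ 2 * (β a ^ 2 * D) = D := fun D => by field_simp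
          exact h3 _
      _ = Fintype.card J * D := by rw [Finset.sum_const, Finset.card_univ, nsmul_eq_mul]
      _ ≤ Fintype.card J * ∑ e : V × V, b e.1 e.2 :=
          mul_le_mul_of_nonneg_left hR (by positivity)
  obtain ⟨F, hF⟩ := minimax_symm c hconv hsym hnn
    (κ₀ := Fintype.card J) (κ := Fintype.card J + 1) (by positivity) (by linarith) havg
  · refine ⟨F, fun u v a => ?_⟩
    rcases eq_or_ne u v with h | h
    · subst h
      have : (fun k => W a k * (Ψ (u, u) k - (F u k - F u k))) = 0 := by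
        funext k
        simp [hΨ0]
      rw [this, nm_zero (hsp a), hd0, mul_zero]
    · have h1 := hF (u, v)
      simp only [hc] at h1
      have h2 : (nm (s a) fun k => W a k * (Ψ (u, v) k - (F u k - F v k))) ^ 2 *
          (1 / (β a * d u v) ^ 2) ≤ Fintype.card J + 1 := by
        refine le_trans ?_ h1.le
        exact Finset.single_le_sum (f := fun a => (nm (s a) fun k => W a k *
          (Ψ (u, v) k - (F u k - F v k))) ^ 2 * (1 / (β a * d u v) ^ 2))
          (fun a _ => by positivity) (Finset.mem_univ a)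
      have h3 : 0 < β a * d u v := mul_pos (hβ a) (hd u v h)
      rw [mul_one_div, div_le_iff₀ (by positivity)] at h2
      have h4 : (nm (s a) fun k => W a k * (Ψ (u, v) k - (F u k - F v k))) ^ 2 ≤
          (√(Fintype.card J + 1) * β a * d u v) ^ 2 := by
        rw [mul_assoc, mul_pow, Real.sq_sqrt (by positivity)]
        exact h2
      exact (pow_le_pow_iff_left₀ (nm_nonneg _) (mul_nonneg (mul_nonneg (Real.sqrt_nonneg _)
        (hβ a).le) (hd u v h).le) (by norm_num)).1 h4

end Vale.Agent.P249.H75
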