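import Vale.Agent.P249.H75.KGt2

/-!
# P249: estimates for the complementary gradient projection, `1 < p < 2`
-/

set_option linter.all false

open Filter Topology Set
open scoped BigOperators

namespace Vale.Agent.P249.H75

/-- weighted `ℓ_1` sum over the levels -/
noncomputable def LL {V ι : Type*} [Fintype ι] (γ : ℝ) (H : ℕ) (X : ℕ → V × V → ι → ℝ)
    (e : V × V) : ℝ := ∑ l ∈ Finset.range H, γ ^ l * ∑ i, |X l e i|

section

variable {V ι : Type*} [Fintype V] [Fintype ι] {w : V → V → ℝ} {A : ℝ} {K : V × V → V × V → ℝ}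
  {T H : ℕ} {d : V × V → ℝ} {v : V × V → ι → ℝ}

theorem half_pow_rpow {q : ℝ} (l : ℕ) : ((2 : ℝ) ^ q)⁻¹ ^ l = ((1 / 2 : ℝ) ^ l) ^ q := by
  have h3 : ((2 : ℝ) ^ q)⁻¹ = (1 / 2 : ℝ) ^ q := by
    rw [← Real.inv_rpow (by norm_num), one_div]
  rw [h3, ← Real.rpow_natCast, ← Real.rpow_mul (by norm_num), mul_comm,
    Real.rpow_mul (by norm_num), Real.rpow_natCast]

/-- average of the square sums, `p < 2` -/
theorem RR_lt {p : ℝ} (hp1 : 1 < p) (hp : p < 2) (hGP : IsGP w A K) (hw : ∀ x y, 0 < w x y)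
    (hv : ∀ e i, PK K v e i = 0) (hd : ∀ e, 0 ≤ d e) (hvd : ∀ e, ∑ i, |v e i| ^ p = d e ^ p) :
    ∑ e : V × V, w e.1 e.2 * RR ((2 : ℝ) ^ (2 - p)) H (fun l => PK K (cut H d v l)) e ≤
      4 * (1 / (1 - ((2 : ℝ) ^ (2 - p))⁻¹)) * ∑ e : V × V, w e.1 e.2 * d e ^ 2 := by
  have hp0 : 0 < p := by linarith
  set α : ℝ := 2 ^ (2 - p) with hα
  have hα1 : 1 < α := Real.one_lt_rpow (by norm_num) (by linarith)
  have hα0 : 0 < α := by linarith
  have hb0 : 0 < α⁻¹ := inv_pos.2 hα0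
  have hb1 : α⁻¹ < 1 := inv_lt_one_of_one_lt₀ hα1
  have hb2 : 0 < 1 - α⁻¹ := by linarith
  have hvle := abs_le_of_nm hp0 hd hvd
  -- pointwise estimate
  have hpt : ∀ e i, ∑ l ∈ Finset.range H, α ^ l * cut H d v l e i ^ 2 ≤
      1 / (1 - α⁻¹) * (|v e i| ^ p * d e ^ (2 - p)) := by
    intro e i
    rcases eq_or_ne (v e i) 0 with h0 | h0
    · have : ∀ l ∈ Finset.range H, α ^ l * cut H d v l e i ^ 2 = 0 := by
        intro l hl
        unfold cut
        rw [h0]
        simp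
      rw [Finset.sum_eq_zero this]
      have := hd e
      positivity
    · have hv0 : 0 < |v e i| := abs_pos.2 h0
      have hd0 : 0 < d e := hv0.trans_le (hvle e i)
      have h1 : ∑ l ∈ Finset.range H, α ^ l * cut H d v l e i ^ 2 =
          (∑ l ∈ (Finset.range H).filter fun l => l + 1 ≤ lev (d e) (v e i) H, α ^ l) *
            v e i ^ 2 := by
        rw [Finset.sum_mul, Finset.sum_filter]
        refine Finset.sum_congr rfl fun l hl => ?_
        unfold cut
        split_ifs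
        · rfl
        · simp
      rw [h1]
      have h2 : ∑ l ∈ (Finset.range H).filter (fun l => l + 1 ≤ lev (d e) (v e i) H), α ^ l ≤
          ((d e / |v e i|) ^ (2 - p)) / (1 - α⁻¹) := by
        refine geo_down hα1 _ (by positivity) fun l hl => ?_
        rw [Finset.mem_filter, Finset.mem_range] at hl
        have h3 := (le_lev_iff (hvle e i) (by omega : l + 1 ≤ H)).1 hl.2
        have h4 : (2 : ℝ) ^ l ≤ d e / |v e i| := by
          rw [le_div_iff₀ hv0]
          have h5 : (2 : ℝ) ^ l * |v e i| ≤ 2 ^ l * ((1 / 2) ^ (l + 1) * d e) :=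
            mul_le_mul_of_nonneg_left h3 (by positivity)
          have h6 : (2 : ℝ) ^ l * ((1 / 2) ^ (l + 1) * d e) = 1 / 2 * d e := by
            rw [pow_succ, one_div, inv_pow]
            field_simp
          linarith
        have h5 : α ^ l = ((2 : ℝ) ^ l) ^ (2 - p) := by
          rw [hα, ← Real.rpow_natCast, ← Real.rpow_mul (by norm_num), mul_comm,
            Real.rpow_mul (by norm_num), Real.rpow_natCast]
        rw [h5]
        exact Real.rpow_le_rpow (by positivity) h4 (by linarith)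
      have h3 : ((d e / |v e i|) ^ (2 - p)) / (1 - α⁻¹) * v e i ^ 2 =
          1 / (1 - α⁻¹) * (|v e i| ^ p * d e ^ (2 - p)) := by
        have h4 : |v e i| ^ p * |v e i| ^ (2 - p) = v e i ^ 2 := by
          rw [← sq_abs (v e i), ← Real.rpow_natCast, ← Real.rpow_add hv0]
          congr 1
          push_cast; ring
        rw [Real.div_rpow hd0.le hv0.le, ← h4]
        have : |v e i| ^ (2 - p) ≠ 0 := (Real.rpow_pos_of_pos hv0 _).ne'
        field_simp
      rw [← h3]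
      exact mul_le_mul_of_nonneg_right h2 (sq_nonneg _)
  have h4 : ∑ e : V × V, w e.1 e.2 * RR α H (fun l => PK K (cut H d v l)) e =
      ∑ l ∈ Finset.range H, α ^ l * ∑ e : V × V, w e.1 e.2 *
        ∑ i, PK K (cut H d v l) e i ^ 2 := by
    unfold RR
    simp_rw [Finset.mul_sum]
    rw [Finset.sum_comm]
    refine Finset.sum_congr rfl fun l _ => Finset.sum_congr rfl fun e _ =>
      Finset.sum_congr rfl fun i _ => by ring
  rw [h4]
  calc ∑ l ∈ Finset.range H, α ^ l * ∑ e : V × V, w e.1 e.2 *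
        ∑ i, PK K (cut H d v l) e i ^ 2
      ≤ ∑ l ∈ Finset.range H, α ^ l * (4 * ∑ e : V × V, w e.1 e.2 *
        ∑ i, cut H d v l e i ^ 2) :=
        Finset.sum_le_sum fun l hl => mul_le_mul_of_nonneg_left (PK_sq hGP hw _) (by positivity)
    _ = 4 * ∑ e : V × V, w e.1 e.2 * ∑ i, ∑ l ∈ Finset.range H,
        α ^ l * cut H d v l e i ^ 2 := by
        simp_rw [Finset.mul_sum]
        rw [Finset.sum_comm]
        refine Finset.sum_congr rfl fun e _ => ?_
        rw [Finset.sum_comm]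
        exact Finset.sum_congr rfl fun i _ => Finset.sum_congr rfl fun l _ => by ring
    _ ≤ 4 * ∑ e : V × V, w e.1 e.2 * ∑ i, 1 / (1 - α⁻¹) * (|v e i| ^ p * d e ^ (2 - p)) :=
        mul_le_mul_of_nonneg_left (Finset.sum_le_sum fun e _ =>
          mul_le_mul_of_nonneg_left (Finset.sum_le_sum fun i _ => hpt e i) (hw _ _).le)
          (by norm_num)
    _ = 4 * ∑ e : V × V, w e.1 e.2 * (1 / (1 - α⁻¹) * d e ^ 2) := by
        congr 1
        refine Finset.sum_congr rfl fun e _ => ?_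
        congr 1
        rw [← Finset.mul_sum, ← Finset.sum_mul, hvd e]
        congr 1
        rcases (hd e).eq_or_lt with h0 | h0
        · rw [← h0, Real.zero_rpow hp0.ne']; simp
        · rw [← Real.rpow_add h0, ← Real.rpow_natCast]
          congr 1
          push_cast; ring
    _ = _ := by
        rw [Finset.mul_sum, Finset.mul_sum]
        exact Finset.sum_congr rfl fun e _ => by ring

/-- the `ℓ_1` sums are bounded by the majorant, `p < 2` -/
theorem LL_lt {p : ℝ} (hp1 : 1 < p) (hv : ∀ e i, PK K v e i = 0)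
    (hd : ∀ e, 0 ≤ d e) (hvd : ∀ e, ∑ i, |v e i| ^ p = d e ^ p) (e : V × V) :
    LL ((2 : ℝ) ^ (p - 1))⁻¹ H (fun l => PK K (cut H d v l)) e ≤
      2 ^ (p - 1) / (1 - ((2 : ℝ) ^ (p - 1))⁻¹) * YY K d e := by
  have hp0 : 0 < p := by linarith
  set γ : ℝ := 2 ^ (p - 1) with hγ
  have hγ1 : 1 < γ := Real.one_lt_rpow (by norm_num) (by linarith)
  have hγ0 : 0 < γ := by linarith
  have hb0 : 0 < γ⁻¹ := inv_pos.2 hγ0
  have hb1 : γ⁻¹ < 1 := inv_lt_one_of_one_lt₀ hγ1
  have hb2 : 0 < 1 - γ⁻¹ := by linarith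
  have hvle := abs_le_of_nm hp0 hd hvd
  -- pointwise estimate
  have hpt : ∀ e i, ∑ l ∈ Finset.range H, (γ⁻¹) ^ l * |v e i - cut H d v l e i| ≤
      γ / (1 - γ⁻¹) * (|v e i| ^ p * d e ^ (1 - p)) := by
    intro e i
    rcases eq_or_ne (v e i) 0 with h0 | h0
    · have : ∀ l ∈ Finset.range H, (γ⁻¹) ^ l * |v e i - cut H d v l e i| = 0 := by
        intro l hl
        rw [cut_compl hvle (Finset.mem_range.1 hl), h0]
        simp
      rw [Finset.sum_eq_zero this]
      have := hd e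
      positivity
    · have hv0 : 0 < |v e i| := abs_pos.2 h0
      have hd0 : 0 < d e := hv0.trans_le (hvle e i)
      have h1 : ∑ l ∈ Finset.range H, (γ⁻¹) ^ l * |v e i - cut H d v l e i| =
          (∑ l ∈ (Finset.range H).filter fun l => ¬ |v e i| ≤ (1 / 2) ^ (l + 1) * d e,
            (γ⁻¹) ^ l) * |v e i| := by
        rw [Finset.sum_mul, Finset.sum_filter]
        refine Finset.sum_congr rfl fun l hl => ?_
        rw [cut_compl hvle (Finset.mem_range.1 hl)]
        by_cases h2 : |v e i| ≤ (1 / 2) ^ (l + 1) * d e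
        · rw [if_pos h2, if_neg (not_not.2 h2)]; simp
        · rw [if_neg h2, if_pos h2]
      rw [h1]
      have h2 : ∑ l ∈ (Finset.range H).filter (fun l => ¬ |v e i| ≤ (1 / 2) ^ (l + 1) * d e),
          (γ⁻¹) ^ l ≤ (γ * (|v e i| / d e) ^ (p - 1)) / (1 - γ⁻¹) := by
        refine geo_up hb0 hb1 _ (by positivity) fun l hl => ?_
        rw [Finset.mem_filter, not_le] at hl
        have h3 : (1 / 2 : ℝ) ^ l ≤ 2 * (|v e i| / d e) := by
          have h4 := hl.2
          rw [pow_succ] at h4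
          rw [mul_div_assoc', le_div_iff₀ hd0]
          linarith
        rw [hγ, half_pow_rpow, ← Real.mul_rpow (by norm_num) (by positivity)]
        exact Real.rpow_le_rpow (by positivity) h3 (by linarith)
      have h3 : (γ * (|v e i| / d e) ^ (p - 1)) / (1 - γ⁻¹) * |v e i| =
          γ / (1 - γ⁻¹) * (|v e i| ^ p * d e ^ (1 - p)) := by
        have h4 : |v e i| ^ p = |v e i| ^ (p - 1) * |v e i| := by
          rw [← Real.rpow_add_one hv0.ne', sub_add_cancel]
        have h5 : d e ^ (1 - p) = (d e ^ (p - 1))⁻¹ := by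
          rw [← Real.rpow_neg hd0.le]
          congr 1
          ring
        rw [Real.div_rpow hv0.le hd0.le, h4, h5]
        field_simp
      rw [← h3]
      exact mul_le_mul_of_nonneg_right h2 (abs_nonneg _)
  -- the same for sums
  have hsum : ∀ e, ∑ l ∈ Finset.range H, (γ⁻¹) ^ l * ∑ i, |v e i - cut H d v l e i| ≤
      γ / (1 - γ⁻¹) * d e := by
    intro e
    calc ∑ l ∈ Finset.range H, (γ⁻¹) ^ l * ∑ i, |v e i - cut H d v l e i|
        = ∑ i, ∑ l ∈ Finset.range H, (γ⁻¹) ^ l * |v e i - cut H d v l e i| := by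
          simp_rw [Finset.mul_sum]
          rw [Finset.sum_comm]
      _ ≤ ∑ i, γ / (1 - γ⁻¹) * (|v e i| ^ p * d e ^ (1 - p)) :=
          Finset.sum_le_sum fun i _ => hpt e i
      _ = γ / (1 - γ⁻¹) * (d e ^ p * d e ^ (1 - p)) := by
          rw [← Finset.mul_sum, ← Finset.sum_mul, hvd e]
      _ = _ := by
          congr 1
          rcases (hd e).eq_or_lt with h0 | h0
          · rw [← h0, Real.zero_rpow hp0.ne', zero_mul]
          · rw [← Real.rpow_add h0]
            have : p + (1 - p) = 1 := by ring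
            rw [this, Real.rpow_one]
  have hX : ∀ l ∈ Finset.range H, ∑ i, |PK K (cut H d v l) e i| ≤
      ∑ i, |v e i - cut H d v l e i| +
        ∑ e', |K e e'| * ∑ i, |v e' i - cut H d v l e' i| := by
    intro l hl
    have h1 : ∀ i, |PK K (cut H d v l) e i| ≤ |v e i - cut H d v l e i| +
        ∑ e', |K e e'| * |v e' i - cut H d v l e' i| := by
      intro i
      rw [PK_neg v _ hv e i, abs_neg]
      exact PK_abs_le _ e i
    refine (Finset.sum_le_sum fun i _ => h1 i).trans (le_of_eq ?_)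
    rw [Finset.sum_add_distrib, Finset.sum_comm]
    simp_rw [Finset.mul_sum]
  calc LL γ⁻¹ H (fun l => PK K (cut H d v l)) e
      ≤ ∑ l ∈ Finset.range H, (γ⁻¹) ^ l * (∑ i, |v e i - cut H d v l e i| +
        ∑ e', |K e e'| * ∑ i, |v e' i - cut H d v l e' i|) :=
        Finset.sum_le_sum fun l hl => mul_le_mul_of_nonneg_left (hX l hl) (by positivity)
    _ = ∑ l ∈ Finset.range H, (γ⁻¹) ^ l * ∑ i, |v e i - cut H d v l e i| +
        ∑ e', |K e e'| * ∑ l ∈ Finset.range H, (γ⁻¹) ^ l *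
          ∑ i, |v e' i - cut H d v l e' i| := by
        simp_rw [mul_add, Finset.sum_add_distrib]
        congr 1
        simp_rw [Finset.mul_sum]
        rw [Finset.sum_comm]
        refine Finset.sum_congr rfl fun e' _ => Finset.sum_congr rfl fun l _ =>
          Finset.sum_congr rfl fun i _ => by ring
    _ ≤ γ / (1 - γ⁻¹) * d e + ∑ e', |K e e'| * (γ / (1 - γ⁻¹) * d e') :=
        add_le_add (hsum e) (Finset.sum_le_sum fun e' _ =>
          mul_le_mul_of_nonneg_left (hsum e') (abs_nonneg _))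
    _ = _ := by
        unfold YY
        rw [mul_add, Finset.mul_sum]
        congr 1
        exact Finset.sum_congr rfl fun e' _ => by ring

/-- pointwise estimate of the bands, `p < 2` -/
theorem band_lt_aux {p : ℝ} (hp1 : 1 < p) (hp : p < 2) : ∃ C : ℝ, 0 < C ∧
    ∀ {V ι : Type*} [Fintype V] [Fintype ι] {K : V × V → V × V → ℝ}
      {T H : ℕ} {d : V × V → ℝ} {v : V × V → ι → ℝ},
      (∀ e i, PK K v e i = 0) → 0 < T →
      ∀ (J : ℕ) (e : V × V) (t : ℝ), 0 < t →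
      ∑ j ∈ Finset.range J, ∑ i, |PK K (bnd T H d v j) e i| ^ p ≤
        C * T ^ (1 - p) * (t ^ (p - 2) *
          RR ((2 : ℝ) ^ (2 - p)) H (fun l => PK K (cut H d v l)) e +
          t ^ (p - 1) * LL ((2 : ℝ) ^ (p - 1))⁻¹ H (fun l => PK K (cut H d v l)) e) := by
  obtain ⟨C, hC, hpi⟩ := pi_lt hp1 hp
  have hp0 : 0 < p := by linarith
  refine ⟨2 * C, by positivity, ?_⟩
  intro V ι _ _ K T H d v hv hT J e t ht
  have hT0 : (0 : ℝ) < T := by exact_mod_cast hT
  set β : ℝ := (2 : ℝ) ^ (2 - p) with hβ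
  set γ : ℝ := ((2 : ℝ) ^ (p - 1))⁻¹ with hγ
  have hβ0 : 0 < β := by positivity
  have hγ0 : 0 < γ := by positivity
  have htp2 : 0 < t ^ (p - 2) := Real.rpow_pos_of_pos ht _
  have htp1 : 0 < t ^ (p - 1) := Real.rpow_pos_of_pos ht _
  set X : ℕ → ι → ℝ := fun l => PK K (cut H d v l) e with hX
  have hTinc : ∀ j l, T * |inc T j l| ≤ 1 := by
    intro j l
    have := mul_le_mul_of_nonneg_left (abs_inc_le T j l) hT0.le
    rwa [mul_one_div_cancel hT0.ne'] at this
  -- one band, one coordinate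
  have h1 : ∀ j i, |PK K (bnd T H d v j) e i| ^ p ≤ ∑ l ∈ Finset.range H,
      (T : ℝ) ^ (-p) * (C * (t ^ (p - 2) * (β ^ l * (T * |inc T j l| * |X l i|) ^ 2) +
        t ^ (p - 1) * (γ ^ l * (T * |inc T j l| * |X l i|)))) := by
    intro j i
    set a : ℕ → ℝ := fun l => T * |inc T j l| * |X l i| with ha
    have ha0 : ∀ l, 0 ≤ a l := fun l => by simp only [ha]; positivity
    have h2 := hpi H a t ha0 ht
    have h3 : |PK K (bnd T H d v j) e i| ≤ (1 / T) * ∑ l ∈ Finset.range H, a l := by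
      rw [PK_bnd hv, Finset.mul_sum]
      refine (Finset.abs_sum_le_sum_abs _ _).trans (le_of_eq ?_)
      refine Finset.sum_congr rfl fun l hl => ?_
      simp only [ha]
      rw [abs_mul]
      field_simp
      rfl
    have hS0 : 0 ≤ ∑ l ∈ Finset.range H, a l := Finset.sum_nonneg fun l _ => ha0 l
    calc |PK K (bnd T H d v j) e i| ^ p ≤ ((1 / T) * ∑ l ∈ Finset.range H, a l) ^ p :=
          Real.rpow_le_rpow (abs_nonneg _) h3 hp0.le
      _ = (T : ℝ) ^ (-p) * (∑ l ∈ Finset.range H, a l) ^ p := by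
          rw [Real.mul_rpow (by positivity) hS0, one_div, Real.inv_rpow hT0.le,
            Real.rpow_neg hT0.le]
      _ ≤ (T : ℝ) ^ (-p) * (C * (t ^ (p - 2) * ∑ l ∈ Finset.range H, β ^ l * a l ^ 2 +
          t ^ (p - 1) * ∑ l ∈ Finset.range H, γ ^ l * a l)) :=
          mul_le_mul_of_nonneg_left h2 (by positivity)
      _ = _ := by
          rw [Finset.mul_sum, Finset.mul_sum, ← Finset.sum_add_distrib, Finset.mul_sum,
            Finset.mul_sum]
  -- sum over the coordinates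
  have h2 : ∀ j, ∑ i, |PK K (bnd T H d v j) e i| ^ p ≤ ∑ l ∈ Finset.range H,
      (T : ℝ) ^ (-p) * (C * (t ^ (p - 2) * (β ^ l * ((T * |inc T j l|) ^ 2 * ∑ i, X l i ^ 2)) +
        t ^ (p - 1) * (γ ^ l * (T * |inc T j l| * ∑ i, |X l i|)))) := by
    intro j
    refine (Finset.sum_le_sum fun i _ => h1 j i).trans (le_of_eq ?_)
    rw [Finset.sum_comm]
    refine Finset.sum_congr rfl fun l _ => ?_
    rw [← Finset.mul_sum, ← Finset.mul_sum, Finset.sum_add_distrib, ← Finset.mul_sum,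
      ← Finset.mul_sum, ← Finset.mul_sum, ← Finset.mul_sum, ← Finset.mul_sum]
    congr 5
    rw [Finset.mul_sum]
    refine Finset.sum_congr rfl fun i _ => ?_
    rw [mul_pow _ (|X l i|), sq_abs (X l i)]
  refine (Finset.sum_le_sum fun j _ => h2 j).trans ?_
  have h3 := sum_bands (T := T) (H := H)
    (c := fun j l => (T : ℝ) ^ (-p) * (C * (t ^ (p - 2) *
      (β ^ l * ((T * |inc T j l|) ^ 2 * ∑ i, X l i ^ 2)) +
        t ^ (p - 1) * (γ ^ l * (T * |inc T j l| * ∑ i, |X l i|)))))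
    hT J (f := fun l => (T : ℝ) ^ (-p) * C * (t ^ (p - 2) * (β ^ l * ∑ i, X l i ^ 2) +
      t ^ (p - 1) * (γ ^ l * ∑ i, |X l i|)))
    (fun l => mul_nonneg (by positivity) (add_nonneg
      (mul_nonneg htp2.le (mul_nonneg (by positivity) (Finset.sum_nonneg fun i _ => sq_nonneg _)))
      (mul_nonneg htp1.le (mul_nonneg (by positivity)
        (Finset.sum_nonneg fun i _ => abs_nonneg _)))))
    (fun j l h => by rw [h]; simp) (fun j l => ?_)
  · refine h3.trans (le_of_eq ?_)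
    rw [RR, LL, ← Finset.mul_sum, Finset.sum_add_distrib, ← Finset.mul_sum, ← Finset.mul_sum]
    have h4 : (T : ℝ) ^ (1 - p) = T * (T : ℝ) ^ (-p) := by
      rw [sub_eq_add_neg, Real.rpow_add hT0, Real.rpow_one]
    rw [h4]
    ring
  · have h4 : 0 ≤ ∑ i, X l i ^ 2 := Finset.sum_nonneg fun i _ => sq_nonneg _
    have h40 : 0 ≤ ∑ i, |X l i| := Finset.sum_nonneg fun i _ => abs_nonneg _
    have h5 : (T * |inc T j l|) ^ 2 ≤ 1 := pow_le_one₀ (by positivity) (hTinc j l)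
    have h6 : (T * |inc T j l|) ^ 2 * ∑ i, X l i ^ 2 ≤ 1 * ∑ i, X l i ^ 2 :=
      mul_le_mul_of_nonneg_right h5 h4
    have h7 : T * |inc T j l| * ∑ i, |X l i| ≤ 1 * ∑ i, |X l i| :=
      mul_le_mul_of_nonneg_right (hTinc j l) h40
    calc (T : ℝ) ^ (-p) * (C * (t ^ (p - 2) * (β ^ l * ((T * |inc T j l|) ^ 2 * ∑ i, X l i ^ 2)) +
          t ^ (p - 1) * (γ ^ l * (T * |inc T j l| * ∑ i, |X l i|))))
        ≤ (T : ℝ) ^ (-p) * (C * (t ^ (p - 2) * (β ^ l * (1 * ∑ i, X l i ^ 2)) +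
          t ^ (p - 1) * (γ ^ l * (1 * ∑ i, |X l i|)))) := by gcongr
      _ = _ := by ring

theorem band_lt {p : ℝ} (hp1 : 1 < p) (hp : p < 2) : ∃ C : ℝ, 0 < C ∧
    ∀ {V ι : Type*} [Fintype V] [Fintype ι] {K : V × V → V × V → ℝ}
      {T H : ℕ} {d : V × V → ℝ} {v : V × V → ι → ℝ},
      (∀ e i, PK K v e i = 0) → (∀ e, 0 ≤ d e) → (∀ e, ∑ i, |v e i| ^ p = d e ^ p) → 0 < T →
      ∀ (J : ℕ) (e : V × V),
      ∑ j ∈ Finset.range J, ∑ i, |PK K (bnd T H d v j) e i| ^ p ≤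
        C * T ^ (1 - p) * (YY K d e ^ (2 - p) *
          RR ((2 : ℝ) ^ (2 - p)) H (fun l => PK K (cut H d v l)) e ^ (p - 1)) := by
  obtain ⟨C, hC, haux⟩ := band_lt_aux hp1 hp
  have hp0 : 0 < p := by linarith
  have hγ1 : (1 : ℝ) < 2 ^ (p - 1) := Real.one_lt_rpow (by norm_num) (by linarith)
  have hb1 : ((2 : ℝ) ^ (p - 1))⁻¹ < 1 := inv_lt_one_of_one_lt₀ hγ1
  have hb2 : 0 < 1 - ((2 : ℝ) ^ (p - 1))⁻¹ := by linarith
  set CL : ℝ := 2 ^ (p - 1) / (1 - ((2 : ℝ) ^ (p - 1))⁻¹) with hCL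
  have hCL0 : 0 < CL := by positivity
  refine ⟨C * (1 + CL), by positivity, ?_⟩
  intro V ι _ _ K T H d v hv hd hvd hT J e
  have hT0 : (0 : ℝ) < T := by exact_mod_cast hT
  have hL := LL_lt (H := H) hp1 hv hd hvd e
  set Y : ℝ := YY K d e with hY
  have hY0 : 0 ≤ Y := YY_nonneg d hd e
  set R : ℝ := RR ((2 : ℝ) ^ (2 - p)) H (fun l => PK K (cut H d v l)) e with hR
  have hR0 : 0 ≤ R := RR_nonneg (by positivity) _ e
  have hzero : (∀ l ∈ Finset.range H, ∀ i, PK K (cut H d v l) e i = 0) →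
      ∑ j ∈ Finset.range J, ∑ i, |PK K (bnd T H d v j) e i| ^ p = 0 := by
    intro h
    refine Finset.sum_eq_zero fun j _ => Finset.sum_eq_zero fun i _ => ?_
    rw [PK_bnd hv, Finset.sum_eq_zero fun l hl => by rw [h l hl i, mul_zero], abs_zero,
      Real.zero_rpow hp0.ne']
  rcases hR0.eq_or_lt with hRz | hRp
  · rw [hzero]
    · positivity
    intro l hl i
    have h1 := (Finset.sum_eq_zero_iff_of_nonneg fun l _ => mul_nonneg (by positivity)
      (Finset.sum_nonneg fun i _ => sq_nonneg _)).1 hRz.symm l hl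
    rcases mul_eq_zero.1 h1 with h2 | h2
    · exact absurd h2 (by positivity)
    · have h3 := (Finset.sum_eq_zero_iff_of_nonneg fun i _ => sq_nonneg _).1 h2 i
        (Finset.mem_univ i)
      exact pow_eq_zero_iff (by norm_num) |>.1 h3
  rcases hY0.eq_or_lt with hYz | hYp
  · rw [hzero]
    · positivity
    intro l hl i
    have hL0 : LL ((2 : ℝ) ^ (p - 1))⁻¹ H (fun l => PK K (cut H d v l)) e ≤ 0 := by
      rw [← hYz, mul_zero] at hL
      exact hL
    have hL1 : 0 ≤ LL ((2 : ℝ) ^ (p - 1))⁻¹ H (fun l => PK K (cut H d v l)) e :=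
      Finset.sum_nonneg fun l _ => mul_nonneg (by positivity)
        (Finset.sum_nonneg fun i _ => abs_nonneg _)
    have h1 := (Finset.sum_eq_zero_iff_of_nonneg fun l _ => mul_nonneg (by positivity)
      (Finset.sum_nonneg fun i _ => abs_nonneg _)).1 (le_antisymm hL0 hL1) l hl
    rcases mul_eq_zero.1 h1 with h2 | h2
    · exact absurd h2 (by positivity)
    · have h3 := (Finset.sum_eq_zero_iff_of_nonneg fun i _ => abs_nonneg _).1 h2 i
        (Finset.mem_univ i)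
      exact abs_eq_zero.1 h3
  have ht : 0 < R / Y := div_pos hRp hYp
  refine (haux (H := H) hv hT J e (R / Y) ht).trans ?_
  rw [← hR]
  have h1 : (R / Y) ^ (p - 2) * R = Y ^ (2 - p) * R ^ (p - 1) := by
    rw [Real.div_rpow hR0 hY0, div_eq_mul_inv, ← Real.rpow_neg hY0]
    have e1 : -(p - 2) = 2 - p := by ring
    have e2 : R ^ (p - 1) = R ^ (p - 2) * R := by
      rw [← Real.rpow_add_one hRp.ne']
      congr 1
      ring
    rw [e1, e2]; ring
  have h2 : (R / Y) ^ (p - 1) * Y = Y ^ (2 - p) * R ^ (p - 1) := by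
    rw [Real.div_rpow hR0 hY0, div_eq_mul_inv, ← Real.rpow_neg hY0]
    have e2 : Y ^ (2 - p) = Y ^ (-(p - 1)) * Y := by
      rw [← Real.rpow_add_one hYp.ne']
      congr 1
      ring
    rw [e2]; ring
  have h3 : (R / Y) ^ (p - 1) * LL ((2 : ℝ) ^ (p - 1))⁻¹ H (fun l => PK K (cut H d v l)) e ≤
      CL * (Y ^ (2 - p) * R ^ (p - 1)) := by
    calc (R / Y) ^ (p - 1) * LL ((2 : ℝ) ^ (p - 1))⁻¹ H (fun l => PK K (cut H d v l)) e
        ≤ (R / Y) ^ (p - 1) * (CL * Y) := mul_le_mul_of_nonneg_left hL (by positivity)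
      _ = CL * ((R / Y) ^ (p - 1) * Y) := by ring
      _ = _ := by rw [h2]
  rw [h1]
  calc C * (T : ℝ) ^ (1 - p) * (Y ^ (2 - p) * R ^ (p - 1) + _)
      ≤ C * (T : ℝ) ^ (1 - p) * (Y ^ (2 - p) * R ^ (p - 1) + CL * (Y ^ (2 - p) * R ^ (p - 1))) :=
        mul_le_mul_of_nonneg_left (by linarith) (by positivity)
    _ = _ := by ring

/-- averaged costs for `1 < p < 2` -/
theorem kest_lt {p : ℝ} (hp1 : 1 < p) (hp : p < 2) : ∃ C : ℝ, 1 ≤ C ∧
    ∀ {V ι : Type*} [Fintype V] [Fintype ι] {w : V → V → ℝ} {A : ℝ} {K : V × V → V × V → ℝ}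
      {T : ℕ} (H : ℕ) {d : V × V → ℝ} {v : V × V → ι → ℝ}, IsGP w A K → (∀ x y, 0 < w x y) →
      1 ≤ A → (∀ e i, PK K v e i = 0) → (∀ e, 0 ≤ d e) → (∀ e, ∑ i, |v e i| ^ p = d e ^ p) →
      0 < T → 0 < ∑ e : V × V, w e.1 e.2 * d e ^ 2 →
      (∑ e : V × V, w e.1 e.2 * nm p (fun k : Fin (H + 2 * T) × ι =>
        cT p T ^ (-(1 / p)) * PK K (bnd T H d v k.1) e k.2) ^ 2 ≤
        (C * A ^ (2 / p - 1) / T) ^ 2 * ∑ e : V × V, w e.1 e.2 * d e ^ 2) ∧
      (∑ e : V × V, w e.1 e.2 * nm 2 (fun k : Fin (H + 2 * T) × ι =>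
        √(((2 : ℝ) ^ (2 - p)) ^ (k.1 : ℕ)) * PK K (bnd T H d v k.1) e k.2) ^ 2 ≤
        (C * 4 ^ T) ^ 2 * ∑ e : V × V, w e.1 e.2 * d e ^ 2) := by
  obtain ⟨C₁, hC₁, hband⟩ := band_lt hp1 hp
  have hp0 : 0 < p := by linarith
  set α : ℝ := 2 ^ (2 - p) with hα
  have hα1 : 1 < α := Real.one_lt_rpow (by norm_num) (by linarith)
  have hα0 : 0 < α := by linarith
  have hα2 : α ≤ 2 := by
    calc α ≤ 2 ^ (1 : ℝ) := Real.rpow_le_rpow_of_exponent_le (by norm_num) (by linarith)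
      _ = 2 := Real.rpow_one _
  have hb1 : α⁻¹ < 1 := inv_lt_one_of_one_lt₀ hα1
  have hb2 : 0 < 1 - α⁻¹ := by linarith
  set CR : ℝ := 4 * (1 / (1 - α⁻¹)) with hCR
  have hCR0 : 0 < CR := by positivity
  set θ : ℝ := 2 - 2 / p with hθ
  have h2p : 1 < 2 / p := by rw [one_lt_div hp0]; exact hp
  have h2p' : 2 / p < 2 := by rw [div_lt_iff₀ hp0]; linarith
  have hθ0 : 0 ≤ θ := by rw [hθ]; linarith
  have hθ1 : θ ≤ 1 := by rw [hθ]; linarith
  have h1θ : 1 - θ = 2 / p - 1 := by rw [hθ]; ring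
  set B₁ : ℝ := ((C₁ * 2 ^ p) ^ (1 / p)) ^ 2 * (4 ^ (1 - θ) * CR ^ θ) with hB₁
  have hB₁0 : 0 < B₁ := by positivity
  set C : ℝ := 1 + B₁ + 4 * CR with hC
  have hC1 : 1 ≤ C := by rw [hC]; linarith
  have hCsq : C ≤ C ^ 2 := by nlinarith
  refine ⟨C, hC1, ?_⟩
  intro V ι _ _ w A K T H d v hGP hw hA hv hd hvd hT hD
  have hT0 : (0 : ℝ) < T := by exact_mod_cast hT
  have hA0 : 0 < A := by linarith
  have hw0 : ∀ e : V × V, 0 ≤ w e.1 e.2 := fun e => (hw _ _).le
  have hYs := YY_sq hGP hw hA d hd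
  have hRs := RR_lt (H := H) hp1 hp hGP hw hv hd hvd
  rw [← hα] at hRs
  set D := ∑ e : V × V, w e.1 e.2 * d e ^ 2 with hDdef
  set R : V × V → ℝ := RR α H (fun l => PK K (cut H d v l)) with hR
  have hR0 : ∀ e, 0 ≤ R e := fun e => RR_nonneg hα0.le _ e
  have hY0 : ∀ e, 0 ≤ YY K d e := fun e => YY_nonneg d hd e
  refine ⟨?_, ?_⟩
  · -- `ℓ_p`
    have h1 : ∀ e : V × V, nm p (fun k : Fin (H + 2 * T) × ι =>
        cT p T ^ (-(1 / p)) * PK K (bnd T H d v k.1) e k.2) ^ 2 ≤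
        ((C₁ * 2 ^ p) ^ (1 / p) / T) ^ 2 * ((YY K d e ^ 2) ^ (1 - θ) * R e ^ θ) := by
      intro e
      have h2 := hband (H := H) hv hd hvd hT (H + 2 * T) e
      have h3 := cost_p_eq hp0 hT (J := H + 2 * T) (fun j i => PK K (bnd T H d v j) e i)
        (mul_nonneg (Real.rpow_nonneg (hY0 e) _) (Real.rpow_nonneg (hR0 e) _)) hC₁.le h2
      refine h3.trans (le_of_eq ?_)
      congr 1
      rw [Real.mul_rpow (Real.rpow_nonneg (hY0 e) _) (Real.rpow_nonneg (hR0 e) _)]
      congr 1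
      · rw [← Real.rpow_mul (hY0 e), ← Real.rpow_natCast, ← Real.rpow_mul (hY0 e), h1θ]
        congr 1
        push_cast
        field_simp
      · rw [← Real.rpow_mul (hR0 e), hθ]
        congr 1
        field_simp
    have h2 := avg_cost (fun e : V × V => w e.1 e.2) hw0 (fun e => YY K d e) R _ hY0 hR0
      hθ0 hθ1 (by positivity) hA hD hCR0 h1 hYs hRs
    refine h2.trans ?_
    have h3 : ((C₁ * 2 ^ p) ^ (1 / p) / T) ^ 2 * (4 ^ (1 - θ) * CR ^ θ) *
        (A ^ (1 - θ)) ^ 2 * D = B₁ * (A ^ (1 - θ) / T) ^ 2 * D := by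
      rw [hB₁]; ring
    rw [h3, h1θ]
    refine mul_le_mul_of_nonneg_right ?_ hD.le
    calc B₁ * (A ^ (2 / p - 1) / T) ^ 2 ≤ C ^ 2 * (A ^ (2 / p - 1) / T) ^ 2 := by
          refine mul_le_mul_of_nonneg_right (le_trans ?_ hCsq) (sq_nonneg _)
          rw [hC]; linarith
      _ = _ := by ring
  · -- `ℓ_2`
    have hcost2 : ∀ e, ∑ j ∈ Finset.range (H + 2 * T), α ^ j *
        ∑ i, PK K (bnd T H d v j) e i ^ 2 ≤ 4 * 4 ^ T * R e := by
      intro e
      refine cost_two (d := d) (H := H) hv hT (H + 2 * T) (β := α) (M := 4 ^ T) hα0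
        (fun j l h => ?_) (by positivity) e
      calc α ^ j ≤ α ^ (2 * T + l) := pow_le_pow_right₀ hα1.le (by have := (inc_ne hT h).2; omega)
        _ = α ^ (2 * T) * α ^ l := pow_add _ _ _
        _ ≤ 4 ^ T * α ^ l := by
            refine mul_le_mul_of_nonneg_right ?_ (by positivity)
            calc α ^ (2 * T) ≤ 2 ^ (2 * T) := pow_le_pow_left₀ hα0.le hα2 _
              _ = 4 ^ T := by rw [pow_mul]; norm_num
    have h1 : ∀ e : V × V, nm 2 (fun k : Fin (H + 2 * T) × ι =>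
        √(α ^ (k.1 : ℕ)) * PK K (bnd T H d v k.1) e k.2) ^ 2 ≤ 4 * 4 ^ T * R e := by
      intro e
      rw [nm_two_sq]
      refine le_trans (le_of_eq ?_) (hcost2 e)
      simp_rw [Finset.mul_sum]
      rw [← sum_fin_prod fun j i => α ^ j * PK K (bnd T H d v j) e i ^ 2]
      refine Finset.sum_congr rfl fun k _ => ?_
      rw [mul_pow, Real.sq_sqrt (by positivity)]
    calc ∑ e : V × V, w e.1 e.2 * nm 2 (fun k : Fin (H + 2 * T) × ι =>
          √(α ^ (k.1 : ℕ)) * PK K (bnd T H d v k.1) e k.2) ^ 2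
        ≤ ∑ e : V × V, w e.1 e.2 * (4 * 4 ^ T * R e) :=
          Finset.sum_le_sum fun e _ => mul_le_mul_of_nonneg_left (h1 e) (hw0 e)
      _ = 4 * 4 ^ T * ∑ e : V × V, w e.1 e.2 * R e := by
          rw [Finset.mul_sum]
          exact Finset.sum_congr rfl fun e _ => by ring
      _ ≤ 4 * 4 ^ T * (CR * D) := mul_le_mul_of_nonneg_left hRs (by positivity)
      _ = (4 * CR) * 4 ^ T * D := by ring
      _ ≤ (C * 4 ^ T) ^ 2 * D := by
          refine mul_le_mul_of_nonneg_right ?_ hD.le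
          have h5 : (1 : ℝ) ≤ 4 ^ T := one_le_pow₀ (by norm_num)
          calc (4 * CR) * 4 ^ T ≤ C ^ 2 * (4 ^ T * 4 ^ T) := by
                refine mul_le_mul (le_trans ?_ hCsq) ?_ (by positivity) (by positivity)
                · rw [hC]; linarith
                · nlinarith
            _ = _ := by ring

end

end Vale.Agent.P249.H75
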