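import Vale.Agent.P249.H75.KGt2
import Vale.Agent.P249.H75.KLt
import Vale.Agent.P249.UP.ZSpec

/-!
# P249: the maps `F` with small error
-/

set_option linter.all false

open Filter Topology Set
open scoped BigOperators

namespace Vale.Agent.P249.H75

open Vale.Agent.P249.UP

theorem sum_of_nm {κ : Type*} [Fintype κ] {s : ℝ} (hs : 0 < s) (W E : κ → ℝ) (hW : ∀ k, 0 ≤ W k)
    {B : ℝ} (h : nm s (fun k => W k * E k) ≤ B) : ∑ k, W k ^ s * |E k| ^ s ≤ B ^ s := by
  have h1 : ∑ k, W k ^ s * |E k| ^ s = nm s (fun k => W k * E k) ^ s := by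
    rw [← nm_pow hs]
    refine Finset.sum_congr rfl fun k _ => ?_
    rw [abs_mul, abs_of_nonneg (hW k), Real.mul_rpow (hW k) (abs_nonneg _)]
  rw [h1]
  exact Real.rpow_le_rpow (nm_nonneg _) h hs.le

theorem lev_neg (d v : ℝ) (H : ℕ) : lev d (-v) H = lev d v H := by
  unfold lev
  congr 1
  funext l
  rw [abs_neg]

theorem lev_congr_abs {d v v' : ℝ} (h : |v| = |v'|) (H : ℕ) : lev d v H = lev d v' H := by
  rcases abs_eq_abs.1 h with h | h
  · rw [h]
  · rw [h, lev_neg]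

variable {V ι : Type*} [Fintype V] [Fintype ι]

theorem DD_symm (p : ℝ) (T H : ℕ) (x : V → ι → ℝ) (u v : V) (k : Fin (H + 2 * T) × ι) :
    DD p T H x v u k = -DD p T H x u v k := by
  unfold DD
  have h1 : nm p (x v - x u) = nm p (x u - x v) := nm_sub_comm _ _
  have h2 : lev (nm p (x u - x v)) (x v k.2 - x u k.2) H =
      lev (nm p (x u - x v)) (x u k.2 - x v k.2) H :=
    lev_congr_abs (abs_sub_comm _ _) H
  rw [h1, h2]; ring

theorem EE_zero_of_subsingleton [Subsingleton V] (p : ℝ) (T H : ℕ) (x : V → ι → ℝ)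
    (u v : V) (k : Fin (H + 2 * T) × ι) : EE p T H x (fun _ _ => 0) u v k = 0 := by
  have h := Subsingleton.elim u v
  subst h
  simp [EE, DD]

theorem D_pos [Nontrivial V] {p : ℝ} (hp : 0 < p) {x : V → ι → ℝ} (hx : Function.Injective x)
    {w : V → V → ℝ} (hw : ∀ u v, 0 < w u v) :
    0 < ∑ e : V × V, w e.1 e.2 * nm p (x e.1 - x e.2) ^ 2 := by
  obtain ⟨a, b, hab⟩ := exists_pair_ne V
  refine Finset.sum_pos' (fun e _ => mul_nonneg (hw _ _).le (sq_nonneg _)) ⟨(a, b),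
    Finset.mem_univ _, ?_⟩
  have h1 : 0 < nm p (x a - x b) := nm_pos hp (sub_ne_zero.2 (hx.ne hab))
  exact mul_pos (hw _ _) (pow_pos h1 2)

theorem conv_p {p : ℝ} (hp0 : 0 < p) {c : ℝ} (hc : 0 < c) {κ : Type*} [Fintype κ] (E : κ → ℝ) {B : ℝ}
    (h : nm p (fun k => c ^ (-(1 / p)) * E k) ≤ B) : ∑ k, |E k| ^ p ≤ c * B ^ p := by
  have h3 := sum_of_nm hp0 (fun _ => c ^ (-(1 / p))) E (fun _ => by positivity) h
  have h4 : (c ^ (-(1 / p))) ^ p = c⁻¹ := by
    rw [← Real.rpow_mul hc.le, neg_mul, one_div, inv_mul_cancel₀ hp0.ne',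
      Real.rpow_neg hc.le, Real.rpow_one]
  simp only [h4] at h3
  rw [← Finset.mul_sum, inv_mul_le_iff₀ hc] at h3
  exact h3

theorem conv_two {κ : Type*} [Fintype κ] (W E : κ → ℝ) (hW : ∀ k, 0 ≤ W k) {B : ℝ}
    (h : nm 2 (fun k => √(W k) * E k) ≤ B) : ∑ k, W k * E k ^ 2 ≤ B ^ 2 := by
  have h3 := sum_of_nm (by norm_num : (0 : ℝ) < 2) (fun k => √(W k)) E
    (fun _ => Real.sqrt_nonneg _) h
  simp only [Real.rpow_two, sq_abs, Real.sq_sqrt (hW _)] at h3
  exact h3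

theorem conv_r {κ : Type*} [Fintype κ] {r : ℝ} (hr : 0 < r) (W E : κ → ℝ) (hW : ∀ k, 0 ≤ W k)
    {B : ℝ} (h : nm r (fun k => W k ^ (1 / r) * E k) ≤ B) : ∑ k, W k * |E k| ^ r ≤ B ^ r := by
  have h3 := sum_of_nm hr (fun k => W k ^ (1 / r)) E (fun _ => Real.rpow_nonneg (hW _) _) h
  have h4 : ∀ k, (W k ^ (1 / r)) ^ r = W k := fun k => by
    rw [← Real.rpow_mul (hW k), one_div, inv_mul_cancel₀ hr.ne', Real.rpow_one]
  simp only [h4] at h3
  exact h3

theorem sub_zero_sums [Subsingleton V] {p : ℝ} (hp0 : 0 < p) (T H : ℕ) (x : V → ι → ℝ) (u v : V) :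
    ∑ k, |EE p T H x (fun _ _ => 0) u v k| ^ p = 0 ∧
    (∀ W : Fin (H + 2 * T) × ι → ℝ, ∑ k, W k * EE p T H x (fun _ _ => 0) u v k ^ 2 = 0) ∧
    (∀ (W : Fin (H + 2 * T) × ι → ℝ) (r : ℝ), 0 < r →
      ∑ k, W k * |EE p T H x (fun _ _ => 0) u v k| ^ r = 0) := by
  refine ⟨?_, fun W => ?_, fun W r hr => ?_⟩
  · simp only [EE_zero_of_subsingleton, abs_zero, Real.zero_rpow hp0.ne', Finset.sum_const_zero]
  · simp only [EE_zero_of_subsingleton, ne_eq, OfNat.ofNat_ne_zero, not_false_eq_true, zero_pow,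
      mul_zero, Finset.sum_const_zero]
  · simp only [EE_zero_of_subsingleton, abs_zero, Real.zero_rpow hr.ne', mul_zero,
      Finset.sum_const_zero]

/-- the maps, in norm form -/
theorem fields_gt_aux {p : ℝ} (hp : 2 < p) : ∃ C : ℝ, 1 ≤ C ∧
    ∀ (V ι : Type) [Fintype V] [Fintype ι] [Nontrivial V] (T H : ℕ), 0 < T → ∀ A : ℝ, 1 ≤ A →
    ModBound V A →
    ∀ x : V → ι → ℝ, Function.Injective x → ∃ F : V → Fin (H + 2 * T) × ι → ℝ,
      (∀ u v, (nm p fun k => cT p T ^ (-(1 / p)) * EE p T H x F u v k) ≤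
        2 * (C * A ^ (1 - 2 / p) / T) * nm p (x u - x v)) ∧
      (∀ u v, (nm 2 fun k => √(((2 : ℝ) ^ (2 - p)) ^ (k.1 : ℕ)) * EE p T H x F u v k) ≤
        2 * C * nm p (x u - x v)) ∧
      (∀ u v, (nm (2 * p) fun k => (((2 : ℝ) ^ (2 * p - p)) ^ (k.1 : ℕ)) ^ (1 / (2 * p)) *
        EE p T H x F u v k) ≤ 2 * (C * 4 ^ T * A) * nm p (x u - x v)) := by
  obtain ⟨C, hC, hk⟩ := kest_gt hp
  have hp0 : 0 < p := by linarith
  have h2 : √((Fintype.card (Fin 3) : ℝ) + 1) = 2 := by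
    rw [Fintype.card_fin]
    norm_num
  refine ⟨C, hC, ?_⟩
  intro V ι _ _ _ T H hT A hA hmod x hx
  have hT0 : (0 : ℝ) < T := by exact_mod_cast hT
  have hC0 : 0 < C := by linarith
  have hA0 : 0 < A := by linarith
  set d : V × V → ℝ := fun e => nm p (x e.1 - x e.2) with hd
  set v : V × V → ι → ℝ := fun e i => x e.1 i - x e.2 i with hv
  obtain ⟨F, hF⟩ := minimax_field (J := Fin 3) (κ := Fin (H + 2 * T) × ι) hmod
    (fun e k => bnd T H d v k.1 e k.2) (fun a b k => DD_symm p T H x a b k)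
    (fun a b => nm p (x a - x b)) (fun a b hab => nm_pos hp0 (sub_ne_zero.2 (hx.ne hab)))
    (fun a b => nm_sub_comm _ _) (fun a => by rw [sub_self, nm_zero hp0])
    ![p, 2, 2 * p] (by
      intro a
      fin_cases a
      · show 1 ≤ p
        linarith
      · show (1 : ℝ) ≤ 2
        norm_num
      · show 1 ≤ 2 * p
        linarith)
    ![fun _ => cT p T ^ (-(1 / p)), fun k => √(((2 : ℝ) ^ (2 - p)) ^ (k.1 : ℕ)),
      fun k => (((2 : ℝ) ^ (2 * p - p)) ^ (k.1 : ℕ)) ^ (1 / (2 * p))]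
    ![C * A ^ (1 - 2 / p) / T, C, C * 4 ^ T * A] (by
      intro a
      fin_cases a
      · show 0 < C * A ^ (1 - 2 / p) / T
        positivity
      · show 0 < C
        exact hC0
      · show 0 < C * 4 ^ T * A
        positivity) (by
      intro w hw hws K hGP a
      have hPK : ∀ e i, PK K v e i = 0 := by
        intro e i
        have := hGP.fix (fun u => x u i) e
        show (x e.1 i - x e.2 i) - ∑ e', K e e' * (x e'.1 i - x e'.2 i) = 0
        rw [this, sub_self]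
      have h3 := hk (T := T) H (d := d) (v := v) hGP hw hA hPK (fun e => nm_nonneg _)
        (fun e => nm_pow hp0 _) hT (D_pos hp0 hx hw)
      fin_cases a
      · exact h3.1
      · exact h3.2.1
      · exact h3.2.2)
  rw [h2] at hF
  exact ⟨F, fun a b => hF a b 0, fun a b => hF a b 1, fun a b => hF a b 2⟩

/-- the maps, in norm form -/
theorem fields_lt_aux {p : ℝ} (hp1 : 1 < p) (hp : p < 2) : ∃ C : ℝ, 1 ≤ C ∧
    ∀ (V ι : Type) [Fintype V] [Fintype ι] [Nontrivial V] (T H : ℕ), 0 < T → ∀ A : ℝ, 1 ≤ A →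
    ModBound V A →
    ∀ x : V → ι → ℝ, Function.Injective x → ∃ F : V → Fin (H + 2 * T) × ι → ℝ,
      (∀ u v, (nm p fun k => cT p T ^ (-(1 / p)) * EE p T H x F u v k) ≤
        √((Fintype.card (Fin 2) : ℝ) + 1) * (C * A ^ (2 / p - 1) / T) * nm p (x u - x v)) ∧
      (∀ u v, (nm 2 fun k => √(((2 : ℝ) ^ (2 - p)) ^ (k.1 : ℕ)) * EE p T H x F u v k) ≤
        √((Fintype.card (Fin 2) : ℝ) + 1) * (C * 4 ^ T) * nm p (x u - x v)) := by
  obtain ⟨C, hC, hk⟩ := kest_lt hp1 hp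
  have hp0 : 0 < p := by linarith
  refine ⟨C, hC, ?_⟩
  intro V ι _ _ _ T H hT A hA hmod x hx
  have hT0 : (0 : ℝ) < T := by exact_mod_cast hT
  have hC0 : 0 < C := by linarith
  have hA0 : 0 < A := by linarith
  set d : V × V → ℝ := fun e => nm p (x e.1 - x e.2) with hd
  set v : V × V → ι → ℝ := fun e i => x e.1 i - x e.2 i with hv
  obtain ⟨F, hF⟩ := minimax_field (J := Fin 2) (κ := Fin (H + 2 * T) × ι) hmod
    (fun e k => bnd T H d v k.1 e k.2) (fun a b k => DD_symm p T H x a b k)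
    (fun a b => nm p (x a - x b)) (fun a b hab => nm_pos hp0 (sub_ne_zero.2 (hx.ne hab)))
    (fun a b => nm_sub_comm _ _) (fun a => by rw [sub_self, nm_zero hp0])
    ![p, 2] (by
      intro a
      fin_cases a
      · show 1 ≤ p
        linarith
      · show (1 : ℝ) ≤ 2
        norm_num)
    ![fun _ => cT p T ^ (-(1 / p)), fun k => √(((2 : ℝ) ^ (2 - p)) ^ (k.1 : ℕ))]
    ![C * A ^ (2 / p - 1) / T, C * 4 ^ T] (by
      intro a
      fin_cases a
      · show 0 < C * A ^ (2 / p - 1) / T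
        positivity
      · show 0 < C * 4 ^ T
        positivity) (by
      intro w hw hws K hGP a
      have hPK : ∀ e i, PK K v e i = 0 := by
        intro e i
        have := hGP.fix (fun u => x u i) e
        show (x e.1 i - x e.2 i) - ∑ e', K e e' * (x e'.1 i - x e'.2 i) = 0
        rw [this, sub_self]
      have h3 := hk (T := T) H (d := d) (v := v) hGP hw hA hPK (fun e => nm_nonneg _)
        (fun e => nm_pow hp0 _) hT (D_pos hp0 hx hw)
      fin_cases a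
      · exact h3.1
      · exact h3.2)
  exact ⟨F, fun a b => hF a b 0, fun a b => hF a b 1⟩

theorem fields_gt {p : ℝ} (hp : 2 < p) : ∃ C : ℝ, 1 ≤ C ∧
    ∀ (V ι : Type) [Fintype V] [Fintype ι] (T H : ℕ), 0 < T → ∀ A : ℝ, 1 ≤ A → ModBound V A →
    ∀ x : V → ι → ℝ, Function.Injective x → ∃ F : V → Fin (H + 2 * T) × ι → ℝ,
      (∀ u v, ∑ k, |EE p T H x F u v k| ^ p ≤
        cT p T * (C * A ^ (1 - 2 / p) / T * nm p (x u - x v)) ^ p) ∧
      (∀ u v, ∑ k, ((2 : ℝ) ^ (2 - p)) ^ (k.1 : ℕ) * EE p T H x F u v k ^ 2 ≤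
        (C * nm p (x u - x v)) ^ 2) ∧
      (∀ u v, ∑ k, ((2 : ℝ) ^ (2 * p - p)) ^ (k.1 : ℕ) * |EE p T H x F u v k| ^ (2 * p) ≤
        (C * 4 ^ T * A * nm p (x u - x v)) ^ (2 * p)) := by
  obtain ⟨C, hC, hk⟩ := fields_gt_aux hp
  have hp0 : 0 < p := by linarith
  refine ⟨2 * C, by linarith, ?_⟩
  intro V ι _ _ T H hT A hA hmod x hx
  have hT0 : (0 : ℝ) < T := by exact_mod_cast hT
  have hcT := cT_pos hp0 hT
  have hC0 : 0 < C := by linarith
  have hA0 : 0 < A := by linarith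
  rcases subsingleton_or_nontrivial V with hV | hV
  · refine ⟨fun _ _ => 0, fun u v => ?_, fun u v => ?_, fun u v => ?_⟩
    · rw [(sub_zero_sums hp0 T H x u v).1]
      have := nm_nonneg (p := p) (x u - x v)
      positivity
    · rw [(sub_zero_sums hp0 T H x u v).2.1 fun k => ((2 : ℝ) ^ (2 - p)) ^ (k.1 : ℕ)]
      have := nm_nonneg (p := p) (x u - x v)
      positivity
    · rw [(sub_zero_sums hp0 T H x u v).2.2 (fun k => ((2 : ℝ) ^ (2 * p - p)) ^ (k.1 : ℕ))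
        (2 * p) (by linarith)]
      have := nm_nonneg (p := p) (x u - x v)
      positivity
  · obtain ⟨F, h1, h2, h3⟩ := hk V ι T H hT A hA hmod x hx
    refine ⟨F, fun a b => ?_, fun a b => ?_, fun a b => ?_⟩
    · refine (conv_p hp0 hcT _ (h1 a b)).trans (le_of_eq ?_)
      congr 2
      ring
    · exact conv_two _ _ (fun _ => by positivity) (h2 a b)
    · refine (conv_r (by linarith : 0 < 2 * p)
        (fun k : Fin (H + 2 * T) × ι => ((2 : ℝ) ^ (2 * p - p)) ^ (k.1 : ℕ)) _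
        (fun _ => by positivity) (h3 a b)).trans (le_of_eq ?_)
      congr 1
      ring

theorem fields_lt {p : ℝ} (hp1 : 1 < p) (hp : p < 2) : ∃ C : ℝ, 1 ≤ C ∧
    ∀ (V ι : Type) [Fintype V] [Fintype ι] (T H : ℕ), 0 < T → ∀ A : ℝ, 1 ≤ A → ModBound V A →
    ∀ x : V → ι → ℝ, Function.Injective x → ∃ F : V → Fin (H + 2 * T) × ι → ℝ,
      (∀ u v, ∑ k, |EE p T H x F u v k| ^ p ≤
        cT p T * (C * A ^ (2 / p - 1) / T * nm p (x u - x v)) ^ p) ∧
      (∀ u v, ∑ k, ((2 : ℝ) ^ (2 - p)) ^ (k.1 : ℕ) * EE p T H x F u v k ^ 2 ≤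
        (C * 4 ^ T * nm p (x u - x v)) ^ 2) := by
  obtain ⟨C, hC, hk⟩ := fields_lt_aux hp1 hp
  have hp0 : 0 < p := by linarith
  have h2 : √((Fintype.card (Fin 2) : ℝ) + 1) ≤ 2 := by
    rw [Fintype.card_fin, Real.sqrt_le_left (by norm_num)]
    norm_num
  refine ⟨2 * C, by linarith, ?_⟩
  intro V ι _ _ T H hT A hA hmod x hx
  have hT0 : (0 : ℝ) < T := by exact_mod_cast hT
  have hcT := cT_pos hp0 hT
  have hC0 : 0 < C := by linarith
  have hA0 : 0 < A := by linarith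
  rcases subsingleton_or_nontrivial V with hV | hV
  · refine ⟨fun _ _ => 0, fun u v => ?_, fun u v => ?_⟩
    · rw [(sub_zero_sums hp0 T H x u v).1]
      have := nm_nonneg (p := p) (x u - x v)
      positivity
    · rw [(sub_zero_sums hp0 T H x u v).2.1 fun k => ((2 : ℝ) ^ (2 - p)) ^ (k.1 : ℕ)]
      have := nm_nonneg (p := p) (x u - x v)
      positivity
  · obtain ⟨F, h1, h3⟩ := hk V ι T H hT A hA hmod x hx
    refine ⟨F, fun a b => ?_, fun a b => ?_⟩
    · have h4 := mul_le_mul_of_nonneg_right (mul_le_mul_of_nonneg_right h2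
        (by positivity : 0 ≤ C * A ^ (2 / p - 1) / T)) (nm_nonneg (p := p) (x a - x b))
      refine (conv_p hp0 hcT _ ((h1 a b).trans h4)).trans (le_of_eq ?_)
      congr 2
      ring
    · have h4 := mul_le_mul_of_nonneg_right (mul_le_mul_of_nonneg_right h2
        (by positivity : 0 ≤ C * 4 ^ T)) (nm_nonneg (p := p) (x a - x b))
      refine (conv_two _ _ (fun _ => by positivity) ((h3 a b).trans h4)).trans (le_of_eq ?_)
      congr 1
      ring

end Vale.Agent.P249.H75
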