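import Vale.Agent.P249.H75.Tent

/-!
# P249: the two pointwise inequalities
-/

set_option linter.all false

open Filter Topology Set
open scoped BigOperators

namespace Vale.Agent.P249.H75

theorem sum_half_pow_le (m H : ℕ) (Y : ℝ) (hY : 0 ≤ Y) :
    ∑ l ∈ (Finset.range H).filter (fun l => ¬ l < m), (1 / 2 : ℝ) ^ (l + 1) * Y ≤ (1 / 2) ^ m * Y := by
  rw [← Finset.sum_mul]
  refine mul_le_mul_of_nonneg_right ?_ hY
  have h1 := geo_up (β := 1 / 2) (M := (1 / 2) ^ m) (by norm_num) (by norm_num)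
    ((Finset.range H).filter (fun l => ¬ l < m)) (by positivity) (fun l hl => by
      rw [Finset.mem_filter] at hl
      exact pow_le_pow_of_le_one (by norm_num) (by norm_num) (not_lt.1 hl.2))
  have h2 : ∑ l ∈ (Finset.range H).filter (fun l => ¬ l < m), (1 / 2 : ℝ) ^ (l + 1) =
      1 / 2 * ∑ l ∈ (Finset.range H).filter (fun l => ¬ l < m), (1 / 2 : ℝ) ^ l := by
    rw [Finset.mul_sum]
    exact Finset.sum_congr rfl fun l _ => by ring
  rw [h2]
  norm_num at h1 ⊢
  linarith

/-- The pointwise inequality for `p > 2`. -/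
theorem pi_gt {p : ℝ} (hp : 2 < p) : ∃ C : ℝ, 0 < C ∧ ∀ (H : ℕ) (a : ℕ → ℝ) (Y : ℝ),
    (∀ l, 0 ≤ a l) → (∀ l, a l ≤ (1 / 2) ^ (l + 1) * Y) →
    (∑ l ∈ Finset.range H, a l) ^ p ≤
      C * (Y ^ (p - 2) * ∑ l ∈ Finset.range H, (((2 : ℝ) ^ (p - 2))⁻¹) ^ l * a l ^ 2) := by
  set α : ℝ := 2 ^ (p - 2) with hα
  have hp0 : 0 < p := by linarith
  have hα1 : 1 < α := Real.one_lt_rpow (by norm_num) (by linarith)
  have hα0 : 0 < α := by linarith
  have hb0 : 0 < α⁻¹ := inv_pos.2 hα0
  have hb1 : α⁻¹ < 1 := inv_lt_one_of_one_lt₀ hα1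
  have hb2 : 0 < 1 - α⁻¹ := by linarith
  set c : ℝ := √(α / (1 - α⁻¹)) with hc
  have hc0 : 0 ≤ c := Real.sqrt_nonneg _
  refine ⟨(c + 1) ^ p, by positivity, fun H a Y ha haY => ?_⟩
  have hY : 0 ≤ Y := by
    have := (ha 0).trans (haY 0)
    norm_num at this
    linarith
  set G : ℝ := ∑ l ∈ Finset.range H, (α⁻¹) ^ l * a l ^ 2 with hG
  have hG0 : 0 ≤ G := Finset.sum_nonneg fun l _ => by positivity
  set S : ℝ := ∑ l ∈ Finset.range H, a l with hS
  have hS0 : 0 ≤ S := Finset.sum_nonneg fun l _ => ha l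
  rcases hG0.eq_or_lt with hGz | hGp
  · -- all terms vanish
    have h1 : ∀ l ∈ Finset.range H, a l = 0 := by
      intro l hl
      have h2 := (Finset.sum_eq_zero_iff_of_nonneg fun l _ => by positivity).1 hGz.symm l hl
      rcases mul_eq_zero.1 h2 with h3 | h3
      · exact absurd h3 (pow_pos hb0 _).ne'
      · exact pow_eq_zero_iff (by norm_num) |>.1 h3
    have h2 : S = 0 := Finset.sum_eq_zero h1
    rw [h2, Real.zero_rpow hp0.ne']
    positivity
  rcases hY.eq_or_lt with hYz | hYp
  · have h1 : ∀ l, a l = 0 := fun l => le_antisymm (by simpa [← hYz] using haY l) (ha l)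
    have h2 : S = 0 := Finset.sum_eq_zero fun l _ => h1 l
    rw [h2, Real.zero_rpow hp0.ne']
    positivity
  set τ : ℝ := (Y ^ (p - 2) * G) ^ (1 / p) with hτ
  have hYG : 0 < Y ^ (p - 2) * G := by positivity
  have hτ0 : 0 < τ := Real.rpow_pos_of_pos hYG _
  have hτp : τ ^ p = Y ^ (p - 2) * G := by
    rw [hτ, ← Real.rpow_mul hYG.le, one_div_mul_cancel hp0.ne', Real.rpow_one]
  have key : S ≤ (c + 1) * τ := by
    rcases le_or_gt Y τ with h | h
    · have h1 : S ≤ Y := by
        have h2 := sum_half_pow_le 0 H Y hY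
        simp only [not_lt_zero', not_false_eq_true, Finset.filter_true, pow_zero, one_mul] at h2
        exact (Finset.sum_le_sum fun l _ => haY l).trans h2
      nlinarith
    · have h1 : 1 ≤ Y / τ := by rw [le_div_iff₀ hτ0]; linarith
      obtain ⟨n, hn1, hn2⟩ := exists_nat_pow_near h1 (by norm_num : (1 : ℝ) < 2)
      set m := n + 1 with hm
      -- tail
      have htail : ∑ l ∈ (Finset.range H).filter (fun l => ¬ l < m), a l ≤ τ := by
        refine (Finset.sum_le_sum fun l _ => haY l).trans ((sum_half_pow_le m H Y hY).trans ?_)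
        rw [one_div, inv_pow, inv_mul_le_iff₀ (by positivity)]
        rw [div_lt_iff₀ hτ0] at hn2
        exact hn2.le
      -- head
      have hhead : ∑ l ∈ (Finset.range H).filter (fun l => l < m), a l ≤ c * τ := by
        have h2 : (∑ l ∈ (Finset.range H).filter (fun l => l < m), a l) ^ 2 ≤
            (∑ l ∈ (Finset.range H).filter (fun l => l < m), α ^ l) *
              ∑ l ∈ (Finset.range H).filter (fun l => l < m), (α⁻¹) ^ l * a l ^ 2 := by
          refine Finset.sum_sq_le_sum_mul_sum_of_sq_eq_mul _ (fun l _ => by positivity)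
            (fun l _ => by positivity) fun l _ => ?_
          rw [inv_pow]
          have : α ^ l ≠ 0 := by positivity
          field_simp
        have h3 : ∑ l ∈ (Finset.range H).filter (fun l => l < m), α ^ l ≤
            α ^ n / (1 - α⁻¹) := by
          refine geo_down hα1 _ (by positivity) fun l hl => ?_
          rw [Finset.mem_filter] at hl
          exact pow_le_pow_right₀ hα1.le (by omega)
        have h4 : ∑ l ∈ (Finset.range H).filter (fun l => l < m), (α⁻¹) ^ l * a l ^ 2 ≤ G :=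
          Finset.sum_le_sum_of_subset_of_nonneg (Finset.filter_subset _ _)
            fun l _ _ => by positivity
        have h5 : α ^ n * G ≤ τ ^ 2 := by
          have h6 : α ^ n ≤ (Y / τ) ^ (p - 2) := by
            rw [hα, ← Real.rpow_natCast, ← Real.rpow_mul (by norm_num), mul_comm,
              Real.rpow_mul (by norm_num), Real.rpow_natCast]
            exact Real.rpow_le_rpow (by positivity) hn1 (by linarith)
          have h7 : (Y / τ) ^ (p - 2) * G = τ ^ 2 := by
            rw [Real.div_rpow hY hτ0.le, div_mul_eq_mul_div, ← hτp, div_eq_iff (by positivity),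
              ← Real.rpow_natCast, ← Real.rpow_add hτ0]
            congr 1
            push_cast; ring
          calc α ^ n * G ≤ (Y / τ) ^ (p - 2) * G := mul_le_mul_of_nonneg_right h6 hG0
            _ = τ ^ 2 := h7
        have h8 : (∑ l ∈ (Finset.range H).filter (fun l => l < m), a l) ^ 2 ≤
            (α / (1 - α⁻¹)) * τ ^ 2 := by
          calc _ ≤ _ := h2
            _ ≤ α ^ n / (1 - α⁻¹) * G := mul_le_mul h3 h4 (Finset.sum_nonneg fun l _ => by
                positivity) (by positivity)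
            _ = (α ^ n * G) / (1 - α⁻¹) := by ring
            _ ≤ τ ^ 2 / (1 - α⁻¹) := div_le_div_of_nonneg_right h5 hb2.le
            _ ≤ α * τ ^ 2 / (1 - α⁻¹) := by
                refine div_le_div_of_nonneg_right ?_ hb2.le
                nlinarith [sq_nonneg τ]
            _ = _ := by ring
        have h9 := Real.sqrt_le_sqrt h8
        rw [Real.sqrt_sq (Finset.sum_nonneg fun l _ => ha l),
          Real.sqrt_mul (by positivity), Real.sqrt_sq hτ0.le] at h9
        exact h9
      have h10 := Finset.sum_filter_add_sum_filter_not (Finset.range H) (fun l => l < m) a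
      rw [hS, ← h10]
      linarith
  calc S ^ p ≤ ((c + 1) * τ) ^ p := Real.rpow_le_rpow hS0 key hp0.le
    _ = (c + 1) ^ p * τ ^ p := Real.mul_rpow (by positivity) hτ0.le
    _ = _ := by rw [hτp]

/-- The pointwise inequality for `p < 2`. -/
theorem pi_lt {p : ℝ} (hp1 : 1 < p) (hp : p < 2) : ∃ C : ℝ, 0 < C ∧ ∀ (H : ℕ) (a : ℕ → ℝ) (t : ℝ),
    (∀ l, 0 ≤ a l) → 0 < t →
    (∑ l ∈ Finset.range H, a l) ^ p ≤
      C * (t ^ (p - 2) * ∑ l ∈ Finset.range H, ((2 : ℝ) ^ (2 - p)) ^ l * a l ^ 2 +
        t ^ (p - 1) * ∑ l ∈ Finset.range H, (((2 : ℝ) ^ (p - 1))⁻¹) ^ l * a l) := by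
  set α : ℝ := 2 ^ (2 - p) with hα
  set γ : ℝ := 2 ^ (p - 1) with hγ
  have hp0 : 0 < p := by linarith
  have hα1 : 1 < α := Real.one_lt_rpow (by norm_num) (by linarith)
  have hα0 : 0 < α := by linarith
  have hγ1 : 1 < γ := Real.one_lt_rpow (by norm_num) (by linarith)
  have hγ0 : 0 < γ := by linarith
  have hb0 : 0 < α⁻¹ := inv_pos.2 hα0
  have hb1 : α⁻¹ < 1 := inv_lt_one_of_one_lt₀ hα1
  have hb2 : 0 < 1 - α⁻¹ := by linarith
  refine ⟨max 2 (16 / (1 - α⁻¹)), lt_max_of_lt_left (by norm_num), fun H a t ha ht => ?_⟩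
  set C : ℝ := max 2 (16 / (1 - α⁻¹)) with hC
  have hC1 : 2 ≤ C := le_max_left _ _
  have hC2 : 16 / (1 - α⁻¹) ≤ C := le_max_right _ _
  have hC0 : 0 < C := by linarith
  set G : ℝ := ∑ l ∈ Finset.range H, α ^ l * a l ^ 2 with hG
  have hG0 : 0 ≤ G := Finset.sum_nonneg fun l _ => by positivity
  set L : ℝ := ∑ l ∈ Finset.range H, (γ⁻¹) ^ l * a l with hL
  have hL0 : 0 ≤ L := Finset.sum_nonneg fun l _ => mul_nonneg (by positivity) (ha l)
  set S : ℝ := ∑ l ∈ Finset.range H, a l with hS
  have hS0 : 0 ≤ S := Finset.sum_nonneg fun l _ => ha l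
  have htp2 : 0 < t ^ (p - 2) := Real.rpow_pos_of_pos ht _
  have htp1 : 0 < t ^ (p - 1) := Real.rpow_pos_of_pos ht _
  rcases hS0.eq_or_lt with hSz | hSp
  · rw [← hSz, Real.zero_rpow hp0.ne']
    positivity
  -- tail estimate
  have htail : ∀ m : ℕ, (∑ l ∈ (Finset.range H).filter (fun l => ¬ l < m), a l) ^ 2 ≤
      (α⁻¹) ^ m / (1 - α⁻¹) * G := by
    intro m
    have h2 : (∑ l ∈ (Finset.range H).filter (fun l => ¬ l < m), a l) ^ 2 ≤
        (∑ l ∈ (Finset.range H).filter (fun l => ¬ l < m), (α⁻¹) ^ l) *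
          ∑ l ∈ (Finset.range H).filter (fun l => ¬ l < m), α ^ l * a l ^ 2 := by
      refine Finset.sum_sq_le_sum_mul_sum_of_sq_eq_mul _ (fun l _ => by positivity)
        (fun l _ => by positivity) fun l _ => ?_
      rw [inv_pow]
      have : α ^ l ≠ 0 := by positivity
      field_simp
    have h3 : ∑ l ∈ (Finset.range H).filter (fun l => ¬ l < m), (α⁻¹) ^ l ≤
        (α⁻¹) ^ m / (1 - α⁻¹) := by
      refine geo_up hb0 hb1 _ (by positivity) fun l hl => ?_
      rw [Finset.mem_filter] at hl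
      exact pow_le_pow_of_le_one hb0.le hb1.le (not_lt.1 hl.2)
    have h4 : ∑ l ∈ (Finset.range H).filter (fun l => ¬ l < m), α ^ l * a l ^ 2 ≤ G :=
      Finset.sum_le_sum_of_subset_of_nonneg (Finset.filter_subset _ _)
        fun l _ _ => by positivity
    exact h2.trans (mul_le_mul h3 h4 (Finset.sum_nonneg fun l _ => by positivity) (by positivity))
  -- head estimate
  have hhead : ∀ m : ℕ, ∑ l ∈ (Finset.range H).filter (fun l => l < m), a l ≤ γ ^ m * L := by
    intro m
    calc ∑ l ∈ (Finset.range H).filter (fun l => l < m), a l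
        ≤ ∑ l ∈ (Finset.range H).filter (fun l => l < m), γ ^ m * ((γ⁻¹) ^ l * a l) := by
          refine Finset.sum_le_sum fun l hl => ?_
          rw [Finset.mem_filter] at hl
          have h1 : 1 ≤ γ ^ m * (γ⁻¹) ^ l := by
            rw [inv_pow, ← div_eq_mul_inv, le_div_iff₀ (by positivity), one_mul]
            exact pow_le_pow_right₀ hγ1.le hl.2.le
          calc a l = 1 * a l := (one_mul _).symm
            _ ≤ (γ ^ m * (γ⁻¹) ^ l) * a l := mul_le_mul_of_nonneg_right h1 (ha l)
            _ = _ := by ring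
      _ ≤ ∑ l ∈ Finset.range H, γ ^ m * ((γ⁻¹) ^ l * a l) :=
          Finset.sum_le_sum_of_subset_of_nonneg (Finset.filter_subset _ _)
            fun l _ _ => mul_nonneg (by positivity) (mul_nonneg (by positivity) (ha l))
      _ = γ ^ m * L := by rw [← Finset.mul_sum]
  rcases le_or_gt S t with h | h
  · -- `S ≤ t`
    have h1 : 1 ≤ t / S := by rw [le_div_iff₀ hSp]; linarith
    obtain ⟨n, hn1, hn2⟩ := exists_nat_pow_near h1 (by norm_num : (1 : ℝ) < 2)
    have hsplit := Finset.sum_filter_add_sum_filter_not (Finset.range H) (fun l => l < n) a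
    have hγn : γ ^ n ≤ (t / S) ^ (p - 1) := by
      rw [hγ, ← Real.rpow_natCast, ← Real.rpow_mul (by norm_num), mul_comm,
        Real.rpow_mul (by norm_num), Real.rpow_natCast]
      exact Real.rpow_le_rpow (by positivity) hn1 (by linarith)
    have hαn : (α⁻¹) ^ n ≤ 2 * (S / t) ^ (2 - p) := by
      have h2 : (α⁻¹) ^ n = ((1 / 2 : ℝ) ^ n) ^ (2 - p) := by
        have h3 : α⁻¹ = (1 / 2 : ℝ) ^ (2 - p) := by
          rw [hα, ← Real.inv_rpow (by norm_num), one_div]
        rw [h3, ← Real.rpow_natCast, ← Real.rpow_mul (by norm_num), mul_comm,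
          Real.rpow_mul (by norm_num), Real.rpow_natCast]
      rw [h2]
      have h20 : (0 : ℝ) ≤ 2 ^ (2 - p) := (Real.rpow_pos_of_pos (by norm_num) _).le
      have h3 : (1 / 2 : ℝ) ^ n ≤ 2 * (S / t) := by
        rw [div_lt_iff₀ hSp, pow_succ] at hn2
        rw [one_div, inv_pow, inv_le_iff_one_le_mul₀ (by positivity)]
        have h4 : 2 * (S / t) * 2 ^ n = (2 ^ n * 2 * S) / t := by ring
        rw [h4, le_div_iff₀ ht, one_mul]
        exact hn2.le
      calc ((1 / 2 : ℝ) ^ n) ^ (2 - p) ≤ (2 * (S / t)) ^ (2 - p) :=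
            Real.rpow_le_rpow (by positivity) h3 (by linarith)
        _ = 2 ^ (2 - p) * (S / t) ^ (2 - p) := Real.mul_rpow (by norm_num) (by positivity)
        _ ≤ 2 * (S / t) ^ (2 - p) := by
            refine mul_le_mul_of_nonneg_right ?_ (by positivity)
            calc (2 : ℝ) ^ (2 - p) ≤ 2 ^ (1 : ℝ) :=
                  Real.rpow_le_rpow_of_exponent_le (by norm_num) (by linarith)
              _ = 2 := Real.rpow_one _
    have hor : S / 2 ≤ ∑ l ∈ (Finset.range H).filter (fun l => l < n), a l ∨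
        S / 2 ≤ ∑ l ∈ (Finset.range H).filter (fun l => ¬ l < n), a l := by
      by_contra hcon
      rw [not_or, not_le, not_le] at hcon
      have h3 : S = ∑ l ∈ Finset.range H, a l := rfl
      linarith [hcon.1, hcon.2]
    have hA0 : 0 ≤ t ^ (p - 2) * G := by positivity
    have hB0 : 0 ≤ t ^ (p - 1) * L := by positivity
    rcases hor with h2 | h2
    · have h3 : S / 2 ≤ (t / S) ^ (p - 1) * L :=
        h2.trans ((hhead n).trans (mul_le_mul_of_nonneg_right hγn hL0))
      have h4 : S ^ p ≤ 2 * (t ^ (p - 1) * L) := by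
        rw [Real.div_rpow ht.le hSp.le] at h3
        have h5 : S ^ p = S ^ (p - 1) * S := by
          rw [← Real.rpow_add_one hSp.ne', sub_add_cancel]
        have h6 : 0 < S ^ (p - 1) := Real.rpow_pos_of_pos hSp _
        have h7 := mul_le_mul_of_nonneg_left h3 h6.le
        have h8 : S ^ (p - 1) * (t ^ (p - 1) / S ^ (p - 1) * L) = t ^ (p - 1) * L := by
          field_simp
        rw [h8] at h7
        rw [h5]
        linarith
      calc S ^ p ≤ 2 * (t ^ (p - 1) * L) := h4
        _ ≤ C * (t ^ (p - 1) * L) := mul_le_mul_of_nonneg_right hC1 hB0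
        _ ≤ C * (t ^ (p - 2) * G + t ^ (p - 1) * L) :=
            mul_le_mul_of_nonneg_left (by linarith) hC0.le
    · have h3 : (S / 2) ^ 2 ≤ 2 * (S / t) ^ (2 - p) / (1 - α⁻¹) * G := by
        refine (pow_le_pow_left₀ (by positivity) h2 2).trans ((htail n).trans ?_)
        exact mul_le_mul_of_nonneg_right (div_le_div_of_nonneg_right hαn hb2.le) hG0
      have h4 : S ^ p ≤ 8 / (1 - α⁻¹) * (t ^ (p - 2) * G) := by
        have h5 : (S / t) ^ (2 - p) = S ^ (2 - p) * t ^ (p - 2) := by
          rw [Real.div_rpow hSp.le ht.le, div_eq_mul_inv, ← Real.rpow_neg ht.le]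
          congr 2
          ring
        rw [h5] at h3
        have h6 : S ^ p * S ^ (2 - p) = S ^ 2 := by
          rw [← Real.rpow_add hSp, ← Real.rpow_natCast]
          congr 1
          push_cast; ring
        have h7 : 0 < S ^ (2 - p) := Real.rpow_pos_of_pos hSp _
        have h8 : S ^ p * S ^ (2 - p) ≤ (8 / (1 - α⁻¹) * (t ^ (p - 2) * G)) * S ^ (2 - p) := by
          rw [h6]
          have h9 : 2 * (S ^ (2 - p) * t ^ (p - 2)) / (1 - α⁻¹) * G * 4 =
              (8 / (1 - α⁻¹) * (t ^ (p - 2) * G)) * S ^ (2 - p) := by ring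
          rw [← h9]
          have h10 : (S / 2) ^ 2 * 4 = S ^ 2 := by ring
          rw [← h10]
          exact mul_le_mul_of_nonneg_right h3 (by norm_num)
        exact le_of_mul_le_mul_right h8 h7
      calc S ^ p ≤ 8 / (1 - α⁻¹) * (t ^ (p - 2) * G) := h4
        _ ≤ C * (t ^ (p - 2) * G) := by
            refine mul_le_mul_of_nonneg_right (le_trans ?_ hC2) hA0
            exact div_le_div_of_nonneg_right (by norm_num) hb2.le
        _ ≤ C * (t ^ (p - 2) * G + t ^ (p - 1) * L) :=
            mul_le_mul_of_nonneg_left (by linarith) hC0.le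
  · -- `t < S`
    have h1 := htail 0
    simp only [not_lt_zero', not_false_eq_true, Finset.filter_true, pow_zero] at h1
    have h2 : S ^ p = S ^ 2 * S ^ (p - 2) := by
      rw [← Real.rpow_natCast, ← Real.rpow_add hSp]
      congr 1
      push_cast; ring
    have h3 : S ^ (p - 2) ≤ t ^ (p - 2) :=
      Real.rpow_le_rpow_of_nonpos ht h.le (by linarith)
    have hA0 : 0 ≤ t ^ (p - 2) * G := by positivity
    have hB0 : 0 ≤ t ^ (p - 1) * L := by positivity
    calc S ^ p = S ^ 2 * S ^ (p - 2) := h2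
      _ ≤ (1 / (1 - α⁻¹) * G) * t ^ (p - 2) :=
          mul_le_mul h1 h3 (Real.rpow_nonneg hS0 _) (by positivity)
      _ = 1 / (1 - α⁻¹) * (t ^ (p - 2) * G) := by ring
      _ ≤ C * (t ^ (p - 2) * G) := by
          refine mul_le_mul_of_nonneg_right (le_trans ?_ hC2) hA0
          exact div_le_div_of_nonneg_right (by norm_num) hb2.le
      _ ≤ C * (t ^ (p - 2) * G + t ^ (p - 1) * L) :=
          mul_le_mul_of_nonneg_left (by linarith) hC0.le

end Vale.Agent.P249.H75
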