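import Vale.Agent.P249.H75.Field
import Vale.Agent.P249.H75.PI

/-!
# P249: estimates for the complementary gradient projection, common part
-/

set_option linter.all false

open Filter Topology Set
open scoped BigOperators

namespace Vale.Agent.P249.H75

theorem wholder {E : Type*} [Fintype E] (w : E → ℝ) (hw : ∀ e, 0 ≤ w e) (F G : E → ℝ)
    (hF : ∀ e, 0 ≤ F e) (hG : ∀ e, 0 ≤ G e) {θ : ℝ} (hθ0 : 0 ≤ θ) (hθ1 : θ ≤ 1) {a b : ℝ}
    (ha : 0 < a) (hb : 0 < b) (hFa : ∑ e, w e * F e ≤ a) (hGb : ∑ e, w e * G e ≤ b) :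
    ∑ e, w e * (F e ^ (1 - θ) * G e ^ θ) ≤ a ^ (1 - θ) * b ^ θ := by
  have hab : 0 < a ^ (1 - θ) * b ^ θ := by positivity
  have h1 : ∀ e, w e * (F e ^ (1 - θ) * G e ^ θ) ≤
      a ^ (1 - θ) * b ^ θ * ((1 - θ) * (w e * F e / a) + θ * (w e * G e / b)) := by
    intro e
    have h2 := Real.geom_mean_le_arith_mean2_weighted (by linarith : 0 ≤ 1 - θ) hθ0
      (div_nonneg (hF e) ha.le) (div_nonneg (hG e) hb.le) (by ring)
    rw [Real.div_rpow (hF e) ha.le, Real.div_rpow (hG e) hb.le] at h2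
    have h3 : F e ^ (1 - θ) * G e ^ θ = a ^ (1 - θ) * b ^ θ *
        (F e ^ (1 - θ) / a ^ (1 - θ) * (G e ^ θ / b ^ θ)) := by
      have := (Real.rpow_pos_of_pos ha (1 - θ)).ne'
      have := (Real.rpow_pos_of_pos hb θ).ne'
      field_simp
    rw [h3]
    have h4 := mul_le_mul_of_nonneg_left (mul_le_mul_of_nonneg_left h2 hab.le) (hw e)
    refine h4.trans (le_of_eq ?_)
    ring
  refine (Finset.sum_le_sum fun e _ => h1 e).trans ?_
  rw [← Finset.mul_sum, Finset.sum_add_distrib, ← Finset.mul_sum, ← Finset.mul_sum,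
    ← Finset.sum_div, ← Finset.sum_div]
  have h5 : (∑ e, w e * F e) / a ≤ 1 := by rw [div_le_one ha]; exact hFa
  have h6 : (∑ e, w e * G e) / b ≤ 1 := by rw [div_le_one hb]; exact hGb
  have h7 : (1 - θ) * ((∑ e, w e * F e) / a) + θ * ((∑ e, w e * G e) / b) ≤ 1 := by
    have h8 := mul_le_mul_of_nonneg_left h5 (by linarith : 0 ≤ 1 - θ)
    have h9 := mul_le_mul_of_nonneg_left h6 hθ0
    linarith
  calc a ^ (1 - θ) * b ^ θ * _ ≤ a ^ (1 - θ) * b ^ θ * 1 :=
        mul_le_mul_of_nonneg_left h7 hab.le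
    _ = _ := mul_one _

theorem nm_sq {ι : Type*} [Fintype ι] {s : ℝ} (hs : 0 < s) (u : ι → ℝ) :
    nm s u ^ 2 = (∑ i, |u i| ^ s) ^ (2 / s) := by
  rw [nm, ← Real.rpow_natCast, ← Real.rpow_mul (Finset.sum_nonneg fun i _ =>
    Real.rpow_nonneg (abs_nonneg _) _)]
  congr 1
  push_cast; ring

theorem nm_two_sq {ι : Type*} [Fintype ι] (u : ι → ℝ) : nm 2 u ^ 2 = ∑ i, u i ^ 2 := by
  rw [nm_sq (by norm_num)]
  norm_num

section

variable {V ι : Type*} [Fintype V] [Fintype ι]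

/-- complementary projection of a vector field -/
noncomputable def PK (K : V × V → V × V → ℝ) (g : V × V → ι → ℝ) (e : V × V) (i : ι) : ℝ :=
  g e i - ∑ e', K e e' * g e' i

/-- majorant of the modulus -/
noncomputable def YY (K : V × V → V × V → ℝ) (d : V × V → ℝ) (e : V × V) : ℝ :=
  d e + ∑ e', |K e e'| * d e'

variable {w : V → V → ℝ} {A : ℝ} {K : V × V → V × V → ℝ}

theorem PK_abs_le (g : V × V → ι → ℝ) (e : V × V) (i : ι) :
    |PK K g e i| ≤ |g e i| + ∑ e', |K e e'| * |g e' i| := by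
  unfold PK
  refine (abs_sub _ _).trans (add_le_add le_rfl ?_)
  refine (Finset.abs_sum_le_sum_abs _ _).trans (le_of_eq ?_)
  exact Finset.sum_congr rfl fun e' _ => abs_mul _ _

theorem PK_le (g : V × V → ι → ℝ) {d : V × V → ℝ} {c : ℝ} (hc : 0 ≤ c) (h : ∀ e i, |g e i| ≤ c * d e)
    (e : V × V) (i : ι) : |PK K g e i| ≤ c * YY K d e := by
  refine (PK_abs_le g e i).trans ?_
  unfold YY
  rw [mul_add, Finset.mul_sum]
  refine add_le_add (h e i) (Finset.sum_le_sum fun e' _ => ?_)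
  have := mul_le_mul_of_nonneg_left (h e' i) (abs_nonneg (K e e'))
  linarith

theorem PK_neg (g h : V × V → ι → ℝ) (hg : ∀ e i, PK K g e i = 0) (e : V × V) (i : ι) :
    PK K h e i = - PK K (fun e i => g e i - h e i) e i := by
  have h1 : PK K (fun e i => g e i - h e i) e i = PK K g e i - PK K h e i := by
    unfold PK
    have : ∑ e', K e e' * (g e' i - h e' i) = ∑ e', K e e' * g e' i - ∑ e', K e e' * h e' i := by
      rw [← Finset.sum_sub_distrib]
      exact Finset.sum_congr rfl fun e' _ => by ring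
    rw [this]; ring
  rw [h1, hg]; ring

theorem PK_lin (g : V × V → ι → ℝ) (hg : ∀ e i, PK K g e i = 0) (c₀ : ℝ) (H : ℕ) (c : ℕ → ℝ)
    (h : ℕ → V × V → ι → ℝ) (e : V × V) (i : ι) :
    PK K (fun e i => c₀ * g e i + ∑ l ∈ Finset.range H, c l * h l e i) e i =
      ∑ l ∈ Finset.range H, c l * PK K (h l) e i := by
  have h1 : PK K (fun e i => c₀ * g e i + ∑ l ∈ Finset.range H, c l * h l e i) e i =
      c₀ * PK K g e i + ∑ l ∈ Finset.range H, c l * PK K (h l) e i := by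
    unfold PK
    have h2 : ∑ e', K e e' * (c₀ * g e' i + ∑ l ∈ Finset.range H, c l * h l e' i) =
        c₀ * ∑ e', K e e' * g e' i +
          ∑ l ∈ Finset.range H, c l * ∑ e', K e e' * h l e' i := by
      simp_rw [mul_add, Finset.sum_add_distrib, Finset.mul_sum]
      congr 1
      · exact Finset.sum_congr rfl fun e' _ => by ring
      · rw [Finset.sum_comm]
        exact Finset.sum_congr rfl fun l _ => Finset.sum_congr rfl fun e' _ => by ring
    rw [h2]
    simp_rw [mul_sub]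
    rw [Finset.sum_sub_distrib]
    ring
  rw [h1, hg, mul_zero, zero_add]

theorem PK_sq (hGP : IsGP w A K) (hw : ∀ x y, 0 < w x y) (g : V × V → ι → ℝ) :
    ∑ e : V × V, w e.1 e.2 * ∑ i, PK K g e i ^ 2 ≤ 4 * ∑ e : V × V, w e.1 e.2 * ∑ i, g e i ^ 2 := by
  have h1 : ∀ i, ∑ e : V × V, w e.1 e.2 * PK K g e i ^ 2 ≤
      4 * ∑ e : V × V, w e.1 e.2 * g e i ^ 2 := by
    intro i
    have h2 := hGP.contr fun e => g e i
    have h3 : ∑ e : V × V, w e.1 e.2 * PK K g e i ^ 2 ≤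
        2 * ∑ e : V × V, w e.1 e.2 * g e i ^ 2 +
          2 * ∑ e : V × V, w e.1 e.2 * (∑ e', K e e' * g e' i) ^ 2 := by
      rw [Finset.mul_sum, Finset.mul_sum, ← Finset.sum_add_distrib]
      refine Finset.sum_le_sum fun e _ => ?_
      unfold PK
      have := mul_nonneg (hw e.1 e.2).le (sq_nonneg (g e i + ∑ e', K e e' * g e' i))
      nlinarith
    linarith
  simp_rw [Finset.mul_sum]
  rw [Finset.sum_comm, Finset.sum_comm (f := fun e i => 4 * (w e.1 e.2 * g e i ^ 2))]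
  refine Finset.sum_le_sum fun i _ => ?_
  rw [← Finset.mul_sum]
  exact h1 i

theorem YY_sq (hGP : IsGP w A K) (hw : ∀ x y, 0 < w x y) (hA : 1 ≤ A) (d : V × V → ℝ)
    (hd : ∀ e, 0 ≤ d e) :
    ∑ e : V × V, w e.1 e.2 * YY K d e ^ 2 ≤ 4 * A ^ 2 * ∑ e : V × V, w e.1 e.2 * d e ^ 2 := by
  have h2 := hGP.mod d hd
  have h3 : ∑ e : V × V, w e.1 e.2 * YY K d e ^ 2 ≤
      2 * ∑ e : V × V, w e.1 e.2 * d e ^ 2 +
        2 * ∑ e : V × V, w e.1 e.2 * (∑ e', |K e e'| * d e') ^ 2 := by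
    rw [Finset.mul_sum, Finset.mul_sum, ← Finset.sum_add_distrib]
    refine Finset.sum_le_sum fun e _ => ?_
    unfold YY
    have := mul_nonneg (hw e.1 e.2).le (sq_nonneg (d e - ∑ e', |K e e'| * d e'))
    nlinarith
  have h4 : 0 ≤ ∑ e : V × V, w e.1 e.2 * d e ^ 2 :=
    Finset.sum_nonneg fun e _ => mul_nonneg (hw _ _).le (sq_nonneg _)
  have h5 : 1 ≤ A ^ 2 := one_le_pow₀ hA
  nlinarith

theorem YY_nonneg (d : V × V → ℝ) (hd : ∀ e, 0 ≤ d e) (e : V × V) : 0 ≤ YY K d e :=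
  add_nonneg (hd e) (Finset.sum_nonneg fun e' _ => mul_nonneg (abs_nonneg _) (hd e'))

/-- the cut of a field at level `l + 1` -/
noncomputable def cut (H : ℕ) (d : V × V → ℝ) (v : V × V → ι → ℝ) (l : ℕ) (e : V × V) (i : ι) : ℝ :=
  if l + 1 ≤ lev (d e) (v e i) H then v e i else 0

/-- the bands of a field -/
noncomputable def bnd (T H : ℕ) (d : V × V → ℝ) (v : V × V → ι → ℝ) (j : ℕ) (e : V × V) (i : ι) :
    ℝ := v e i * psi T j (lev (d e) (v e i) H)

variable {T H : ℕ} {d : V × V → ℝ} {v : V × V → ι → ℝ}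

theorem bnd_eq (j : ℕ) (e : V × V) (i : ι) :
    bnd T H d v j e i = psi T j 0 * v e i + ∑ l ∈ Finset.range H, inc T j l * cut H d v l e i := by
  unfold bnd
  rw [psi_eq T j (lev_le (d e) (v e i) H), mul_add, Finset.mul_sum]
  congr 1
  · ring
  · refine Finset.sum_congr rfl fun l _ => ?_
    unfold cut
    split_ifs <;> ring

theorem PK_bnd (hv : ∀ e i, PK K v e i = 0) (j : ℕ) (e : V × V) (i : ι) :
    PK K (bnd T H d v j) e i = ∑ l ∈ Finset.range H, inc T j l * PK K (cut H d v l) e i := by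
  have h1 : bnd T H d v j = fun e i => psi T j 0 * v e i +
      ∑ l ∈ Finset.range H, inc T j l * cut H d v l e i := by
    funext e i
    exact bnd_eq j e i
  rw [h1]
  exact PK_lin v hv _ H _ _ e i

theorem cut_le (hvd : ∀ e i, |v e i| ≤ d e) {l : ℕ} (hl : l < H) (e : V × V) (i : ι) :
    |cut H d v l e i| ≤ (1 / 2) ^ (l + 1) * d e := by
  unfold cut
  split_ifs with h
  · exact (le_lev_iff (hvd e i) (by omega)).1 h
  · rw [abs_zero]
    exact mul_nonneg (by positivity) ((abs_nonneg _).trans (hvd e i))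

theorem cut_compl (hvd : ∀ e i, |v e i| ≤ d e) {l : ℕ} (hl : l < H) (e : V × V) (i : ι) :
    v e i - cut H d v l e i = if |v e i| ≤ (1 / 2) ^ (l + 1) * d e then 0 else v e i := by
  unfold cut
  have h1 := le_lev_iff (hvd e i) (by omega : l + 1 ≤ H)
  by_cases h : |v e i| ≤ (1 / 2) ^ (l + 1) * d e
  · rw [if_pos h, if_pos (h1.2 h), sub_self]
  · rw [if_neg h, if_neg fun h2 => h (h1.1 h2), sub_zero]

/-- the square of a band field -/
theorem bnd_sq (hT : 0 < T) (X : ℕ → ℝ) (j : ℕ) :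
    (∑ l ∈ Finset.range H, inc T j l * X l) ^ 2 ≤
      2 * ∑ l ∈ Finset.range H, |inc T j l| * X l ^ 2 := by
  have hT0 : (0 : ℝ) < T := by exact_mod_cast hT
  have h1 : (∑ l ∈ Finset.range H, inc T j l * X l) ^ 2 ≤
      (∑ l ∈ Finset.range H, |inc T j l|) * ∑ l ∈ Finset.range H, |inc T j l| * X l ^ 2 := by
    refine Finset.sum_sq_le_sum_mul_sum_of_sq_eq_mul _ (fun l _ => abs_nonneg _)
      (fun l _ => by positivity) fun l _ => ?_
    rw [mul_pow, ← sq_abs (inc T j l)]; ring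
  have h2 : ∑ l ∈ Finset.range H, |inc T j l| ≤ 2 := by
    calc ∑ l ∈ Finset.range H, |inc T j l|
        ≤ ∑ l ∈ Finset.range H, 1 / (T : ℝ) * (if inc T j l ≠ 0 then (1 : ℝ) else 0) := by
          refine Finset.sum_le_sum fun l _ => ?_
          split_ifs with h
          · rw [mul_one]; exact abs_inc_le T j l
          · rw [not_not] at h; rw [h]; simp
      _ = 1 / (T : ℝ) * ∑ l ∈ Finset.range H, (if inc T j l ≠ 0 then (1 : ℝ) else 0) := by
          rw [Finset.mul_sum]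
      _ ≤ 1 / (T : ℝ) * (2 * T) := mul_le_mul_of_nonneg_left (sum_inc_l hT H j) (by positivity)
      _ = 2 := by field_simp
  refine h1.trans (mul_le_mul_of_nonneg_right h2 (Finset.sum_nonneg fun l _ => by positivity))

end

end Vale.Agent.P249.H75
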