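import Vale.Agent.P249.H75.KEst

/-!
# P249: estimates for the complementary gradient projection, `p > 2`
-/

set_option linter.all false

open Filter Topology Set
open scoped BigOperators

namespace Vale.Agent.P249.H75

/-- weighted square sum over the levels -/
noncomputable def RR {V ι : Type*} [Fintype ι] (β : ℝ) (H : ℕ) (X : ℕ → V × V → ι → ℝ)
    (e : V × V) : ℝ := ∑ l ∈ Finset.range H, β ^ l * ∑ i, X l e i ^ 2

section

variable {V ι : Type*} [Fintype V] [Fintype ι] {w : V → V → ℝ} {A : ℝ} {K : V × V → V × V → ℝ}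
  {T H : ℕ} {d : V × V → ℝ} {v : V × V → ι → ℝ}

theorem RR_nonneg {β : ℝ} (hβ : 0 ≤ β) (X : ℕ → V × V → ι → ℝ) (e : V × V) : 0 ≤ RR β H X e :=
  Finset.sum_nonneg fun l _ => mul_nonneg (pow_nonneg hβ _)
    (Finset.sum_nonneg fun i _ => sq_nonneg _)

/-- counting the bands at one level -/
theorem sum_bands {c : ℕ → ℕ → ℝ} (hT : 0 < T) (J : ℕ) {f : ℕ → ℝ} (hf : ∀ l, 0 ≤ f l)
    (hc0 : ∀ j l, inc T j l = 0 → c j l = 0) (hc : ∀ j l, c j l ≤ f l) :
    ∑ j ∈ Finset.range J, ∑ l ∈ Finset.range H, c j l ≤ 2 * T * ∑ l ∈ Finset.range H, f l := by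
  rw [Finset.sum_comm, Finset.mul_sum]
  refine Finset.sum_le_sum fun l _ => ?_
  calc ∑ j ∈ Finset.range J, c j l
      ≤ ∑ j ∈ Finset.range J, f l * (if inc T j l ≠ 0 then (1 : ℝ) else 0) := by
        refine Finset.sum_le_sum fun j _ => ?_
        split_ifs with h
        · rw [mul_one]; exact hc j l
        · rw [not_not] at h; rw [hc0 j l h, mul_zero]
    _ = f l * ∑ j ∈ Finset.range J, (if inc T j l ≠ 0 then (1 : ℝ) else 0) := by
        rw [Finset.mul_sum]
    _ ≤ f l * (2 * T) := mul_le_mul_of_nonneg_left (sum_inc_j hT J l) (hf l)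
    _ = _ := by ring

/-- the weighted `ℓ_2` cost -/
theorem cost_two (hv : ∀ e i, PK K v e i = 0) (hT : 0 < T) (J : ℕ) {β M : ℝ} (hβ : 0 < β)
    (hM : ∀ j l, inc T j l ≠ 0 → β ^ j ≤ M * β ^ l) (hM0 : 0 ≤ M) (e : V × V) :
    ∑ j ∈ Finset.range J, β ^ j * ∑ i, PK K (bnd T H d v j) e i ^ 2 ≤
      4 * M * RR β H (fun l => PK K (cut H d v l)) e := by
  have hT0 : (0 : ℝ) < T := by exact_mod_cast hT
  set X : ℕ → ι → ℝ := fun l => PK K (cut H d v l) e with hX
  have h1 : ∀ j, β ^ j * ∑ i, PK K (bnd T H d v j) e i ^ 2 ≤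
      ∑ l ∈ Finset.range H, 2 * (β ^ j * |inc T j l| * ∑ i, X l i ^ 2) := by
    intro j
    have h2 : ∀ i, PK K (bnd T H d v j) e i ^ 2 ≤
        2 * ∑ l ∈ Finset.range H, |inc T j l| * X l i ^ 2 := by
      intro i
      rw [PK_bnd hv]
      exact bnd_sq hT (fun l => X l i) j
    calc β ^ j * ∑ i, PK K (bnd T H d v j) e i ^ 2
        ≤ β ^ j * ∑ i, 2 * ∑ l ∈ Finset.range H, |inc T j l| * X l i ^ 2 :=
          mul_le_mul_of_nonneg_left (Finset.sum_le_sum fun i _ => h2 i) (by positivity)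
      _ = _ := by
          rw [← Finset.mul_sum, Finset.sum_comm]
          simp_rw [Finset.mul_sum]
          exact Finset.sum_congr rfl fun l _ => Finset.sum_congr rfl fun i _ => by ring
  refine (Finset.sum_le_sum fun j _ => h1 j).trans ?_
  have h3 := sum_bands (T := T) (H := H) (c := fun j l => 2 * (β ^ j * |inc T j l| * ∑ i, X l i ^ 2))
    hT J (f := fun l => 2 / T * M * (β ^ l * ∑ i, X l i ^ 2))
    (fun l => mul_nonneg (by positivity) (mul_nonneg (by positivity)
      (Finset.sum_nonneg fun i _ => sq_nonneg _)))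
    (fun j l h => by rw [h]; simp) (fun j l => ?_)
  · refine h3.trans (le_of_eq ?_)
    rw [RR, ← Finset.mul_sum]
    field_simp
    ring
  · have h4 : 0 ≤ ∑ i, X l i ^ 2 := Finset.sum_nonneg fun i _ => sq_nonneg _
    by_cases h : inc T j l = 0
    · rw [h]
      simp
      positivity
    · have h5 : β ^ j * |inc T j l| ≤ (M * β ^ l) * (1 / T) :=
        mul_le_mul (hM j l h) (abs_inc_le T j l) (abs_nonneg _) (by positivity)
      calc 2 * (β ^ j * |inc T j l| * ∑ i, X l i ^ 2)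
          ≤ 2 * ((M * β ^ l) * (1 / T) * ∑ i, X l i ^ 2) :=
            mul_le_mul_of_nonneg_left (mul_le_mul_of_nonneg_right h5 h4) (by norm_num)
        _ = _ := by ring

theorem abs_le_of_nm {p : ℝ} (hp : 0 < p) (hd : ∀ e, 0 ≤ d e)
    (hvd : ∀ e, ∑ i, |v e i| ^ p = d e ^ p) (e : V × V) (i : ι) : |v e i| ≤ d e :=
  abs_le_of_sum hp (hd e) (hvd e) i

/-- average of the square sums, `p > 2` -/
theorem RR_gt {p : ℝ} (hp : 2 < p) (hGP : IsGP w A K) (hw : ∀ x y, 0 < w x y)
    (hv : ∀ e i, PK K v e i = 0) (hd : ∀ e, 0 ≤ d e) (hvd : ∀ e, ∑ i, |v e i| ^ p = d e ^ p) :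
    ∑ e : V × V, w e.1 e.2 * RR ((2 : ℝ) ^ (p - 2))⁻¹ H (fun l => PK K (cut H d v l)) e ≤
      4 * (2 ^ (p - 2) / (1 - ((2 : ℝ) ^ (p - 2))⁻¹)) * ∑ e : V × V, w e.1 e.2 * d e ^ 2 := by
  have hp0 : 0 < p := by linarith
  set α : ℝ := 2 ^ (p - 2) with hα
  have hα1 : 1 < α := Real.one_lt_rpow (by norm_num) (by linarith)
  have hα0 : 0 < α := by linarith
  have hb0 : 0 < α⁻¹ := inv_pos.2 hα0
  have hb1 : α⁻¹ < 1 := inv_lt_one_of_one_lt₀ hα1
  have hb2 : 0 < 1 - α⁻¹ := by linarith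
  have hvle := abs_le_of_nm hp0 hd hvd
  -- pointwise estimate
  have hpt : ∀ e i, ∑ l ∈ Finset.range H, (α⁻¹) ^ l * (v e i - cut H d v l e i) ^ 2 ≤
      α / (1 - α⁻¹) * (|v e i| ^ p * d e ^ (2 - p)) := by
    intro e i
    rcases eq_or_ne (v e i) 0 with h0 | h0
    · have : ∀ l ∈ Finset.range H, (α⁻¹) ^ l * (v e i - cut H d v l e i) ^ 2 = 0 := by
        intro l hl
        rw [cut_compl hvle (Finset.mem_range.1 hl), h0]
        simp
      rw [Finset.sum_eq_zero this]
      have := hd e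
      positivity
    · have hv0 : 0 < |v e i| := abs_pos.2 h0
      have hd0 : 0 < d e := hv0.trans_le (hvle e i)
      have h1 : ∑ l ∈ Finset.range H, (α⁻¹) ^ l * (v e i - cut H d v l e i) ^ 2 =
          (∑ l ∈ (Finset.range H).filter fun l => ¬ |v e i| ≤ (1 / 2) ^ (l + 1) * d e,
            (α⁻¹) ^ l) * v e i ^ 2 := by
        rw [Finset.sum_mul, Finset.sum_filter]
        refine Finset.sum_congr rfl fun l hl => ?_
        rw [cut_compl hvle (Finset.mem_range.1 hl)]
        by_cases h2 : |v e i| ≤ (1 / 2) ^ (l + 1) * d e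
        · rw [if_pos h2, if_neg (not_not.2 h2)]; simp
        · rw [if_neg h2, if_pos h2]
      rw [h1]
      have h2 : ∑ l ∈ (Finset.range H).filter (fun l => ¬ |v e i| ≤ (1 / 2) ^ (l + 1) * d e),
          (α⁻¹) ^ l ≤ (α * (|v e i| / d e) ^ (p - 2)) / (1 - α⁻¹) := by
        refine geo_up hb0 hb1 _ (by positivity) fun l hl => ?_
        rw [Finset.mem_filter, not_le] at hl
        have h3 : (1 / 2 : ℝ) ^ l ≤ 2 * (|v e i| / d e) := by
          have h4 := hl.2
          rw [pow_succ] at h4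
          rw [mul_div_assoc', le_div_iff₀ hd0]
          linarith
        have h5 : (α⁻¹) ^ l = ((1 / 2 : ℝ) ^ l) ^ (p - 2) := by
          have h6 : α⁻¹ = (1 / 2 : ℝ) ^ (p - 2) := by
            rw [hα, ← Real.inv_rpow (by norm_num), one_div]
          rw [h6, ← Real.rpow_natCast, ← Real.rpow_mul (by norm_num), mul_comm,
            Real.rpow_mul (by norm_num), Real.rpow_natCast]
        rw [h5, hα, ← Real.mul_rpow (by norm_num) (by positivity)]
        exact Real.rpow_le_rpow (by positivity) h3 (by linarith)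
      have h3 : (α * (|v e i| / d e) ^ (p - 2)) / (1 - α⁻¹) * v e i ^ 2 =
          α / (1 - α⁻¹) * (|v e i| ^ p * d e ^ (2 - p)) := by
        have h4 : |v e i| ^ p = |v e i| ^ (p - 2) * v e i ^ 2 := by
          rw [← sq_abs (v e i), ← Real.rpow_natCast, ← Real.rpow_add hv0]
          congr 1
          push_cast; ring
        have h5 : d e ^ (2 - p) = (d e ^ (p - 2))⁻¹ := by
          rw [← Real.rpow_neg hd0.le]
          congr 1
          ring
        rw [Real.div_rpow hv0.le hd0.le, h4, h5]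
        field_simp
      rw [← h3]
      exact mul_le_mul_of_nonneg_right h2 (sq_nonneg _)
  -- `ℓ_2` boundedness
  have h1 : ∀ l ∈ Finset.range H, ∑ e : V × V, w e.1 e.2 * ∑ i, PK K (cut H d v l) e i ^ 2 ≤
      4 * ∑ e : V × V, w e.1 e.2 * ∑ i, (v e i - cut H d v l e i) ^ 2 := by
    intro l hl
    have h2 := PK_sq hGP hw (fun e i => v e i - cut H d v l e i)
    have h3 : ∀ e i, PK K (cut H d v l) e i ^ 2 =
        PK K (fun e i => v e i - cut H d v l e i) e i ^ 2 := by
      intro e i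
      rw [PK_neg v _ hv e i, neg_sq]
    simp_rw [h3]
    exact h2
  have h4 : ∑ e : V × V, w e.1 e.2 * RR α⁻¹ H (fun l => PK K (cut H d v l)) e =
      ∑ l ∈ Finset.range H, (α⁻¹) ^ l * ∑ e : V × V, w e.1 e.2 *
        ∑ i, PK K (cut H d v l) e i ^ 2 := by
    unfold RR
    simp_rw [Finset.mul_sum]
    rw [Finset.sum_comm]
    refine Finset.sum_congr rfl fun l _ => Finset.sum_congr rfl fun e _ =>
      Finset.sum_congr rfl fun i _ => by ring
  rw [h4]
  calc ∑ l ∈ Finset.range H, (α⁻¹) ^ l * ∑ e : V × V, w e.1 e.2 *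
        ∑ i, PK K (cut H d v l) e i ^ 2
      ≤ ∑ l ∈ Finset.range H, (α⁻¹) ^ l * (4 * ∑ e : V × V, w e.1 e.2 *
        ∑ i, (v e i - cut H d v l e i) ^ 2) :=
        Finset.sum_le_sum fun l hl => mul_le_mul_of_nonneg_left (h1 l hl) (by positivity)
    _ = 4 * ∑ e : V × V, w e.1 e.2 * ∑ i, ∑ l ∈ Finset.range H,
        (α⁻¹) ^ l * (v e i - cut H d v l e i) ^ 2 := by
        simp_rw [Finset.mul_sum]
        rw [Finset.sum_comm]
        refine Finset.sum_congr rfl fun e _ => ?_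
        rw [Finset.sum_comm]
        exact Finset.sum_congr rfl fun i _ => Finset.sum_congr rfl fun l _ => by ring
    _ ≤ 4 * ∑ e : V × V, w e.1 e.2 * ∑ i, α / (1 - α⁻¹) * (|v e i| ^ p * d e ^ (2 - p)) :=
        mul_le_mul_of_nonneg_left (Finset.sum_le_sum fun e _ =>
          mul_le_mul_of_nonneg_left (Finset.sum_le_sum fun i _ => hpt e i) (hw _ _).le)
          (by norm_num)
    _ = 4 * ∑ e : V × V, w e.1 e.2 * (α / (1 - α⁻¹) * d e ^ 2) := by
        congr 1
        refine Finset.sum_congr rfl fun e _ => ?_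
        congr 1
        rw [← Finset.mul_sum, ← Finset.sum_mul, hvd e]
        congr 1
        rcases (hd e).eq_or_lt with h0 | h0
        · rw [← h0, Real.zero_rpow hp0.ne']; simp
        · rw [← Real.rpow_add h0, ← Real.rpow_natCast]
          congr 1
          push_cast; ring
    _ = _ := by
        rw [Finset.mul_sum, Finset.mul_sum]
        exact Finset.sum_congr rfl fun e _ => by ring

/-- pointwise estimate of the bands, `p > 2` -/
theorem band_gt {p : ℝ} (hp : 2 < p) : ∃ C : ℝ, 0 < C ∧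
    ∀ {V ι : Type*} [Fintype V] [Fintype ι] {K : V × V → V × V → ℝ}
      {T H : ℕ} {d : V × V → ℝ} {v : V × V → ι → ℝ},
      (∀ e i, PK K v e i = 0) → (∀ e, 0 ≤ d e) → (∀ e, ∑ i, |v e i| ^ p = d e ^ p) → 0 < T →
      ∀ (J : ℕ) (e : V × V),
      ∑ j ∈ Finset.range J, ∑ i, |PK K (bnd T H d v j) e i| ^ p ≤
        C * T ^ (1 - p) * (YY K d e ^ (p - 2) *
          RR ((2 : ℝ) ^ (p - 2))⁻¹ H (fun l => PK K (cut H d v l)) e) := by
  obtain ⟨C, hC, hpi⟩ := pi_gt hp
  have hp0 : 0 < p := by linarith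
  refine ⟨2 * C, by positivity, ?_⟩
  intro V ι _ _ K T H d v hv hd hvd hT J e
  have hT0 : (0 : ℝ) < T := by exact_mod_cast hT
  set β : ℝ := ((2 : ℝ) ^ (p - 2))⁻¹ with hβ
  have hβ0 : 0 < β := by positivity
  have hvle := abs_le_of_nm hp0 hd hvd
  set X : ℕ → ι → ℝ := fun l => PK K (cut H d v l) e with hX
  set Y : ℝ := YY K d e with hY
  have hY0 : 0 ≤ Y := YY_nonneg d hd e
  have hXY : ∀ l < H, ∀ i, |X l i| ≤ (1 / 2) ^ (l + 1) * Y := by
    intro l hl i
    exact PK_le _ (by positivity) (fun e i => cut_le hvle hl e i) e i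
  -- one band, one coordinate
  have h1 : ∀ j i, |PK K (bnd T H d v j) e i| ^ p ≤ ∑ l ∈ Finset.range H,
      (T : ℝ) ^ (-p) * (C * Y ^ (p - 2) * (β ^ l * (T * |inc T j l| * |X l i|) ^ 2)) := by
    intro j i
    set a : ℕ → ℝ := fun l => if l < H then T * |inc T j l| * |X l i| else 0 with ha
    have ha0 : ∀ l, 0 ≤ a l := by
      intro l
      simp only [ha]
      split_ifs <;> positivity
    have hTinc : ∀ l, T * |inc T j l| ≤ 1 := by
      intro l
      have := mul_le_mul_of_nonneg_left (abs_inc_le T j l) hT0.le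
      rwa [mul_one_div_cancel hT0.ne'] at this
    have haY : ∀ l, a l ≤ (1 / 2) ^ (l + 1) * Y := by
      intro l
      simp only [ha]
      split_ifs with h
      · calc T * |inc T j l| * |X l i| ≤ 1 * ((1 / 2) ^ (l + 1) * Y) :=
            mul_le_mul (hTinc l) (hXY l h i) (abs_nonneg _) zero_le_one
          _ = _ := one_mul _
      · positivity
    have h2 := hpi H a Y ha0 haY
    have h3 : |PK K (bnd T H d v j) e i| ≤ (1 / T) * ∑ l ∈ Finset.range H, a l := by
      rw [PK_bnd hv, Finset.mul_sum]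
      refine (Finset.abs_sum_le_sum_abs _ _).trans (le_of_eq ?_)
      refine Finset.sum_congr rfl fun l hl => ?_
      simp only [ha]
      rw [if_pos (Finset.mem_range.1 hl), abs_mul]
      field_simp
      rfl
    have hS0 : 0 ≤ ∑ l ∈ Finset.range H, a l := Finset.sum_nonneg fun l _ => ha0 l
    calc |PK K (bnd T H d v j) e i| ^ p ≤ ((1 / T) * ∑ l ∈ Finset.range H, a l) ^ p :=
          Real.rpow_le_rpow (abs_nonneg _) h3 hp0.le
      _ = (T : ℝ) ^ (-p) * (∑ l ∈ Finset.range H, a l) ^ p := by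
          rw [Real.mul_rpow (by positivity) hS0, one_div, Real.inv_rpow hT0.le,
            Real.rpow_neg hT0.le]
      _ ≤ (T : ℝ) ^ (-p) * (C * (Y ^ (p - 2) * ∑ l ∈ Finset.range H, β ^ l * a l ^ 2)) :=
          mul_le_mul_of_nonneg_left h2 (by positivity)
      _ = _ := by
          simp_rw [Finset.mul_sum]
          refine Finset.sum_congr rfl fun l hl => ?_
          simp only [ha]
          rw [if_pos (Finset.mem_range.1 hl)]
          ring
  -- sum over the coordinates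
  have h2 : ∀ j, ∑ i, |PK K (bnd T H d v j) e i| ^ p ≤ ∑ l ∈ Finset.range H,
      (T : ℝ) ^ (-p) * (C * Y ^ (p - 2) * (β ^ l * ((T * |inc T j l|) ^ 2 * ∑ i, X l i ^ 2))) := by
    intro j
    refine (Finset.sum_le_sum fun i _ => h1 j i).trans (le_of_eq ?_)
    rw [Finset.sum_comm]
    refine Finset.sum_congr rfl fun l _ => ?_
    simp_rw [Finset.mul_sum]
    refine Finset.sum_congr rfl fun i _ => ?_
    rw [mul_pow _ (|X l i|), sq_abs (X l i)]
  refine (Finset.sum_le_sum fun j _ => h2 j).trans ?_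
  have h3 := sum_bands (T := T) (H := H)
    (c := fun j l => (T : ℝ) ^ (-p) * (C * Y ^ (p - 2) *
      (β ^ l * ((T * |inc T j l|) ^ 2 * ∑ i, X l i ^ 2))))
    hT J (f := fun l => (T : ℝ) ^ (-p) * (C * Y ^ (p - 2)) * (β ^ l * ∑ i, X l i ^ 2))
    (fun l => mul_nonneg (by positivity) (mul_nonneg (by positivity)
      (Finset.sum_nonneg fun i _ => sq_nonneg _)))
    (fun j l h => by rw [h]; simp) (fun j l => ?_)
  · refine h3.trans (le_of_eq ?_)
    rw [RR, ← Finset.mul_sum]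
    have h4 : (T : ℝ) ^ (1 - p) = T * (T : ℝ) ^ (-p) := by
      rw [sub_eq_add_neg, Real.rpow_add hT0, Real.rpow_one]
    rw [h4]
    ring
  · have h4 : 0 ≤ ∑ i, X l i ^ 2 := Finset.sum_nonneg fun i _ => sq_nonneg _
    have hTinc : T * |inc T j l| ≤ 1 := by
      have := mul_le_mul_of_nonneg_left (abs_inc_le T j l) hT0.le
      rwa [mul_one_div_cancel hT0.ne'] at this
    have h5 : (T * |inc T j l|) ^ 2 ≤ 1 := pow_le_one₀ (by positivity) hTinc
    have h6 : (T * |inc T j l|) ^ 2 * ∑ i, X l i ^ 2 ≤ 1 * ∑ i, X l i ^ 2 :=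
      mul_le_mul_of_nonneg_right h5 h4
    calc (T : ℝ) ^ (-p) * (C * Y ^ (p - 2) * (β ^ l * ((T * |inc T j l|) ^ 2 * ∑ i, X l i ^ 2)))
        ≤ (T : ℝ) ^ (-p) * (C * Y ^ (p - 2) * (β ^ l * (1 * ∑ i, X l i ^ 2))) := by gcongr
      _ = _ := by ring

/-- sup bound of a band, `p > 2` -/
theorem band_sup {p : ℝ} (hp0 : 0 < p) (hv : ∀ e i, PK K v e i = 0) (hd : ∀ e, 0 ≤ d e)
    (hvd : ∀ e, ∑ i, |v e i| ^ p = d e ^ p) (hT : 0 < T) (j : ℕ) (e : V × V) (i : ι) :
    |PK K (bnd T H d v j) e i| ≤ 2 * 4 ^ T * (1 / 2) ^ j * YY K d e := by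
  have hT0 : (0 : ℝ) < T := by exact_mod_cast hT
  have hvle := abs_le_of_nm hp0 hd hvd
  have hY0 : 0 ≤ YY K d e := YY_nonneg d hd e
  rw [PK_bnd hv]
  refine (Finset.abs_sum_le_sum_abs _ _).trans ?_
  calc ∑ l ∈ Finset.range H, |inc T j l * PK K (cut H d v l) e i|
      ≤ ∑ l ∈ Finset.range H, (1 / T * (4 ^ T * (1 / 2) ^ j * YY K d e)) *
          (if inc T j l ≠ 0 then (1 : ℝ) else 0) := by
        refine Finset.sum_le_sum fun l hl => ?_
        rw [abs_mul]
        split_ifs with h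
        · rw [mul_one]
          refine mul_le_mul (abs_inc_le T j l) ?_ (abs_nonneg _) (by positivity)
          have h1 : |PK K (cut H d v l) e i| ≤ (1 / 2) ^ (l + 1) * YY K d e :=
            PK_le _ (by positivity) (fun e i => cut_le hvle (Finset.mem_range.1 hl) e i) e i
          refine h1.trans (mul_le_mul_of_nonneg_right ?_ hY0)
          have h2 := (inc_ne hT h).2
          have h3 : (1 / 2 : ℝ) ^ (l + 1 + 2 * T) ≤ (1 / 2) ^ j :=
            pow_le_pow_of_le_one (by norm_num) (by norm_num) (by omega)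
          have h4 : (1 / 2 : ℝ) ^ (l + 1) = 4 ^ T * (1 / 2) ^ (l + 1 + 2 * T) := by
            rw [pow_add _ (l + 1) (2 * T), pow_mul, ← mul_assoc, mul_comm (4 ^ T), mul_assoc,
              ← mul_pow]
            norm_num
          rw [h4]
          exact mul_le_mul_of_nonneg_left h3 (by positivity)
        · rw [not_not] at h; rw [h]; simp
    _ = (1 / T * (4 ^ T * (1 / 2) ^ j * YY K d e)) *
          ∑ l ∈ Finset.range H, (if inc T j l ≠ 0 then (1 : ℝ) else 0) := by
        rw [Finset.mul_sum]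
    _ ≤ (1 / T * (4 ^ T * (1 / 2) ^ j * YY K d e)) * (2 * T) :=
        mul_le_mul_of_nonneg_left (sum_inc_l hT H j) (by positivity)
    _ = _ := by field_simp

end

end Vale.Agent.P249.H75
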