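import Vale.Agent.P249.H75.KGt

/-!
# P249: averaged costs, `p > 2`
-/

set_option linter.all false

open Filter Topology Set
open scoped BigOperators

namespace Vale.Agent.P249.H75

theorem avg_cost {E : Type*} [Fintype E] (w : E → ℝ) (hw : ∀ e, 0 ≤ w e) (Y R Z : E → ℝ)
    (hY : ∀ e, 0 ≤ Y e) (hR : ∀ e, 0 ≤ R e) {θ Cc A D CR : ℝ} (hθ0 : 0 ≤ θ) (hθ1 : θ ≤ 1)
    (hCc : 0 ≤ Cc) (hA : 1 ≤ A) (hD : 0 < D) (hCR : 0 < CR)
    (hZ : ∀ e, Z e ≤ Cc * ((Y e ^ 2) ^ (1 - θ) * R e ^ θ))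
    (hYs : ∑ e, w e * Y e ^ 2 ≤ 4 * A ^ 2 * D) (hRs : ∑ e, w e * R e ≤ CR * D) :
    ∑ e, w e * Z e ≤ Cc * (4 ^ (1 - θ) * CR ^ θ) * (A ^ (1 - θ)) ^ 2 * D := by
  have hA0 : 0 < A := by linarith
  have h1 := wholder w hw (fun e => Y e ^ 2) R (fun e => sq_nonneg _) hR hθ0 hθ1
    (by positivity : 0 < 4 * A ^ 2 * D) (by positivity : 0 < CR * D) hYs hRs
  have h2 : (4 * A ^ 2 * D) ^ (1 - θ) * (CR * D) ^ θ =
      (4 ^ (1 - θ) * CR ^ θ) * (A ^ (1 - θ)) ^ 2 * D := by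
    rw [Real.mul_rpow (by positivity) hD.le, Real.mul_rpow (by norm_num) (by positivity),
      Real.mul_rpow hCR.le hD.le]
    have h3 : (A ^ 2) ^ (1 - θ) = (A ^ (1 - θ)) ^ 2 := by
      rw [← Real.rpow_natCast, ← Real.rpow_natCast, ← Real.rpow_mul hA0.le,
        ← Real.rpow_mul hA0.le, mul_comm]
    have h4 : D ^ (1 - θ) * D ^ θ = D := by
      rw [← Real.rpow_add hD, sub_add_cancel, Real.rpow_one]
    rw [h3]
    calc 4 ^ (1 - θ) * (A ^ (1 - θ)) ^ 2 * D ^ (1 - θ) * (CR ^ θ * D ^ θ) =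
        4 ^ (1 - θ) * CR ^ θ * (A ^ (1 - θ)) ^ 2 * (D ^ (1 - θ) * D ^ θ) := by ring
      _ = _ := by rw [h4]
  calc ∑ e, w e * Z e ≤ ∑ e, w e * (Cc * ((Y e ^ 2) ^ (1 - θ) * R e ^ θ)) :=
        Finset.sum_le_sum fun e _ => mul_le_mul_of_nonneg_left (hZ e) (hw e)
    _ = Cc * ∑ e, w e * ((Y e ^ 2) ^ (1 - θ) * R e ^ θ) := by
        rw [Finset.mul_sum]
        exact Finset.sum_congr rfl fun e _ => by ring
    _ ≤ Cc * ((4 * A ^ 2 * D) ^ (1 - θ) * (CR * D) ^ θ) := mul_le_mul_of_nonneg_left h1 hCc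
    _ = _ := by rw [h2]; ring

section

variable {V ι : Type*} [Fintype V] [Fintype ι] {w : V → V → ℝ} {A : ℝ} {K : V × V → V × V → ℝ}
  {T H : ℕ} {d : V × V → ℝ} {v : V × V → ι → ℝ}

theorem cT_pos {p : ℝ} (hp : 0 < p) (hT : 0 < T) : 0 < cT p T := by
  have hT0 : (0 : ℝ) < T := by exact_mod_cast hT
  exact lt_of_lt_of_le (by positivity) (cT_ge hp hT)

theorem sum_fin_prod {J : ℕ} (f : ℕ → ι → ℝ) :
    ∑ k : Fin J × ι, f k.1 k.2 = ∑ j ∈ Finset.range J, ∑ i, f j i := by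
  rw [Fintype.sum_prod_type, Finset.sum_range fun j => ∑ i, f j i]

/-- the normalised `ℓ_p` cost in terms of the double sum -/
theorem cost_p_eq {p : ℝ} (hp : 0 < p) (hT : 0 < T) {J : ℕ} (E : ℕ → ι → ℝ) {S Cp : ℝ} (hS : 0 ≤ S)
    (hCp : 0 ≤ Cp)
    (h : ∑ j ∈ Finset.range J, ∑ i, |E j i| ^ p ≤ Cp * T ^ (1 - p) * S) :
    nm p (fun k : Fin J × ι => cT p T ^ (-(1 / p)) * E k.1 k.2) ^ 2 ≤
      ((Cp * 2 ^ p) ^ (1 / p) / T) ^ 2 * S ^ (2 / p) := by
  have hT0 : (0 : ℝ) < T := by exact_mod_cast hT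
  have hc0 := cT_pos (T := T) hp hT
  rw [nm_sq hp]
  have h1 : ∑ k : Fin J × ι, |cT p T ^ (-(1 / p)) * E k.1 k.2| ^ p =
      (cT p T)⁻¹ * ∑ j ∈ Finset.range J, ∑ i, |E j i| ^ p := by
    rw [← sum_fin_prod fun j i => |E j i| ^ p, Finset.mul_sum]
    refine Finset.sum_congr rfl fun k _ => ?_
    rw [abs_mul, Real.mul_rpow (abs_nonneg _) (abs_nonneg _),
      abs_of_pos (Real.rpow_pos_of_pos hc0 _), ← Real.rpow_mul hc0.le]
    have : -(1 / p) * p = -1 := by field_simp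
    rw [this, Real.rpow_neg_one]
  rw [h1]
  have h2 : (cT p T)⁻¹ ≤ 2 ^ p * (T : ℝ)⁻¹ := by
    rw [inv_le_comm₀ hc0 (by positivity)]
    refine le_trans (le_of_eq ?_) (cT_ge hp hT)
    rw [mul_inv, inv_inv, one_div, Real.inv_rpow (by norm_num)]
  have h3 : (cT p T)⁻¹ * ∑ j ∈ Finset.range J, ∑ i, |E j i| ^ p ≤
      (Cp * 2 ^ p) * T ^ (-p) * S := by
    calc (cT p T)⁻¹ * ∑ j ∈ Finset.range J, ∑ i, |E j i| ^ p
        ≤ (2 ^ p * (T : ℝ)⁻¹) * (Cp * T ^ (1 - p) * S) :=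
          mul_le_mul h2 h (Finset.sum_nonneg fun j _ => Finset.sum_nonneg fun i _ =>
            Real.rpow_nonneg (abs_nonneg _) _) (by positivity)
      _ = (Cp * 2 ^ p) * ((T : ℝ)⁻¹ * T ^ (1 - p)) * S := by ring
      _ = _ := by
          congr 2
          rw [← Real.rpow_neg_one, ← Real.rpow_add hT0]
          congr 1
          ring
  have h0 : 0 ≤ (cT p T)⁻¹ * ∑ j ∈ Finset.range J, ∑ i, |E j i| ^ p :=
    mul_nonneg (inv_nonneg.2 hc0.le) (Finset.sum_nonneg fun j _ => Finset.sum_nonneg fun i _ =>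
      Real.rpow_nonneg (abs_nonneg _) _)
  refine (Real.rpow_le_rpow h0 h3 (by positivity)).trans (le_of_eq ?_)
  rw [Real.mul_rpow (by positivity) hS, Real.mul_rpow (by positivity) (by positivity)]
  congr 1
  have h4 : (T : ℝ) ^ (-p) = ((T : ℝ)⁻¹) ^ p := by
    rw [Real.inv_rpow hT0.le, Real.rpow_neg hT0.le]
  have h5 : (((T : ℝ)⁻¹) ^ p) ^ (2 / p) = ((T : ℝ)⁻¹) ^ 2 := by
    rw [← Real.rpow_mul (by positivity), mul_div_cancel₀ _ hp.ne', ← Real.rpow_natCast]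
    norm_num
  have h6 : (Cp * 2 ^ p) ^ (2 / p) = ((Cp * 2 ^ p) ^ (1 / p)) ^ 2 := by
    rw [← Real.rpow_natCast, ← Real.rpow_mul (by positivity)]
    congr 1
    push_cast; ring
  rw [h4, h5, h6]
  ring

/-- averaged costs for `p > 2` -/
theorem kest_gt {p : ℝ} (hp : 2 < p) : ∃ C : ℝ, 1 ≤ C ∧
    ∀ {V ι : Type*} [Fintype V] [Fintype ι] {w : V → V → ℝ} {A : ℝ} {K : V × V → V × V → ℝ}
      {T : ℕ} (H : ℕ) {d : V × V → ℝ} {v : V × V → ι → ℝ}, IsGP w A K → (∀ x y, 0 < w x y) →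
      1 ≤ A → (∀ e i, PK K v e i = 0) → (∀ e, 0 ≤ d e) → (∀ e, ∑ i, |v e i| ^ p = d e ^ p) →
      0 < T → 0 < ∑ e : V × V, w e.1 e.2 * d e ^ 2 →
      (∑ e : V × V, w e.1 e.2 * nm p (fun k : Fin (H + 2 * T) × ι =>
        cT p T ^ (-(1 / p)) * PK K (bnd T H d v k.1) e k.2) ^ 2 ≤
        (C * A ^ (1 - 2 / p) / T) ^ 2 * ∑ e : V × V, w e.1 e.2 * d e ^ 2) ∧
      (∑ e : V × V, w e.1 e.2 * nm 2 (fun k : Fin (H + 2 * T) × ι =>
        √(((2 : ℝ) ^ (2 - p)) ^ (k.1 : ℕ)) * PK K (bnd T H d v k.1) e k.2) ^ 2 ≤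
        C ^ 2 * ∑ e : V × V, w e.1 e.2 * d e ^ 2) ∧
      (∑ e : V × V, w e.1 e.2 * nm (2 * p) (fun k : Fin (H + 2 * T) × ι =>
        (((2 : ℝ) ^ (2 * p - p)) ^ (k.1 : ℕ)) ^ (1 / (2 * p)) *
          PK K (bnd T H d v k.1) e k.2) ^ 2 ≤
        (C * 4 ^ T * A) ^ 2 * ∑ e : V × V, w e.1 e.2 * d e ^ 2) := by
  obtain ⟨C₁, hC₁, hband⟩ := band_gt hp
  have hp0 : 0 < p := by linarith
  set α : ℝ := 2 ^ (p - 2) with hα
  have hα1 : 1 < α := Real.one_lt_rpow (by norm_num) (by linarith)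
  have hα0 : 0 < α := by linarith
  have hb0 : 0 < α⁻¹ := inv_pos.2 hα0
  have hb1 : α⁻¹ < 1 := inv_lt_one_of_one_lt₀ hα1
  have hb2 : 0 < 1 - α⁻¹ := by linarith
  have hω : (2 : ℝ) ^ (2 - p) = α⁻¹ := by
    rw [hα, ← Real.rpow_neg (by norm_num)]
    congr 1
    ring
  set CR : ℝ := 4 * (α / (1 - α⁻¹)) with hCR
  have hCR0 : 0 < CR := by positivity
  set B₁ : ℝ := ((C₁ * 2 ^ p) ^ (1 / p)) ^ 2 * (4 ^ (1 - 2 / p) * CR ^ (2 / p)) with hB₁
  set B₃ : ℝ := 16 * (4 ^ (1 - 2 / (2 * p)) * CR ^ (2 / (2 * p))) with hB₃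
  have hB₁0 : 0 < B₁ := by positivity
  have hB₃0 : 0 < B₃ := by positivity
  set C : ℝ := 1 + B₁ + 4 * CR + B₃ with hC
  have hC1 : 1 ≤ C := by rw [hC]; linarith
  have hCsq : C ≤ C ^ 2 := by nlinarith
  refine ⟨C, hC1, ?_⟩
  intro V ι _ _ w A K T H d v hGP hw hA hv hd hvd hT hD
  have hT0 : (0 : ℝ) < T := by exact_mod_cast hT
  have hA0 : 0 < A := by linarith
  have hw0 : ∀ e : V × V, 0 ≤ w e.1 e.2 := fun e => (hw _ _).le
  have hYs := YY_sq hGP hw hA d hd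
  have hRs := RR_gt (H := H) hp hGP hw hv hd hvd
  rw [← hα] at hRs
  set D := ∑ e : V × V, w e.1 e.2 * d e ^ 2 with hDdef
  set R : V × V → ℝ := RR α⁻¹ H (fun l => PK K (cut H d v l)) with hR
  have hR0 : ∀ e, 0 ≤ R e := fun e => RR_nonneg hb0.le _ e
  have hY0 : ∀ e, 0 ≤ YY K d e := fun e => YY_nonneg d hd e
  have hcost2 : ∀ e, ∑ j ∈ Finset.range (H + 2 * T), (α⁻¹) ^ j *
      ∑ i, PK K (bnd T H d v j) e i ^ 2 ≤ 4 * R e := by
    intro e
    have h1 := cost_two (d := d) (H := H) hv hT (H + 2 * T) (β := α⁻¹) (M := 1) hb0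
      (fun j l h => by
        rw [one_mul]
        exact pow_le_pow_of_le_one hb0.le hb1.le (inc_ne hT h).1.le) zero_le_one e
    rw [mul_one] at h1
    exact h1
  refine ⟨?_, ?_, ?_⟩
  · -- `ℓ_p`
    have h1 : ∀ e : V × V, nm p (fun k : Fin (H + 2 * T) × ι =>
        cT p T ^ (-(1 / p)) * PK K (bnd T H d v k.1) e k.2) ^ 2 ≤
        ((C₁ * 2 ^ p) ^ (1 / p) / T) ^ 2 * ((YY K d e ^ 2) ^ (1 - 2 / p) * R e ^ (2 / p)) := by
      intro e
      have h2 := hband (H := H) hv hd hvd hT (H + 2 * T) e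
      have h3 := cost_p_eq hp0 hT (J := H + 2 * T) (fun j i => PK K (bnd T H d v j) e i)
        (mul_nonneg (Real.rpow_nonneg (hY0 e) _) (hR0 e)) hC₁.le h2
      refine h3.trans (le_of_eq ?_)
      congr 1
      rw [Real.mul_rpow (Real.rpow_nonneg (hY0 e) _) (hR0 e)]
      congr 1
      rw [← Real.rpow_mul (hY0 e), ← Real.rpow_natCast, ← Real.rpow_mul (hY0 e)]
      congr 1
      push_cast
      field_simp
    have h2 := avg_cost (fun e : V × V => w e.1 e.2) hw0 (fun e => YY K d e) R _ hY0 hR0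
      (by positivity : 0 ≤ 2 / p) (by rw [div_le_one hp0]; linarith) (by positivity) hA hD hCR0
      h1 hYs hRs
    refine h2.trans ?_
    have h3 : ((C₁ * 2 ^ p) ^ (1 / p) / T) ^ 2 * (4 ^ (1 - 2 / p) * CR ^ (2 / p)) *
        (A ^ (1 - 2 / p)) ^ 2 * D = B₁ * (A ^ (1 - 2 / p) / T) ^ 2 * D := by
      rw [hB₁]; ring
    rw [h3]
    refine mul_le_mul_of_nonneg_right ?_ hD.le
    calc B₁ * (A ^ (1 - 2 / p) / T) ^ 2 ≤ C ^ 2 * (A ^ (1 - 2 / p) / T) ^ 2 := by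
          refine mul_le_mul_of_nonneg_right (le_trans ?_ hCsq) (sq_nonneg _)
          rw [hC]; linarith
      _ = _ := by ring
  · -- `ℓ_2`
    have h1 : ∀ e : V × V, nm 2 (fun k : Fin (H + 2 * T) × ι =>
        √(((2 : ℝ) ^ (2 - p)) ^ (k.1 : ℕ)) * PK K (bnd T H d v k.1) e k.2) ^ 2 ≤ 4 * R e := by
      intro e
      rw [nm_two_sq]
      refine le_trans (le_of_eq ?_) (hcost2 e)
      simp_rw [Finset.mul_sum]
      rw [← sum_fin_prod fun j i => (α⁻¹) ^ j * PK K (bnd T H d v j) e i ^ 2]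
      refine Finset.sum_congr rfl fun k _ => ?_
      rw [mul_pow, Real.sq_sqrt (by positivity), hω]
    calc ∑ e : V × V, w e.1 e.2 * nm 2 (fun k : Fin (H + 2 * T) × ι =>
          √(((2 : ℝ) ^ (2 - p)) ^ (k.1 : ℕ)) * PK K (bnd T H d v k.1) e k.2) ^ 2
        ≤ ∑ e : V × V, w e.1 e.2 * (4 * R e) :=
          Finset.sum_le_sum fun e _ => mul_le_mul_of_nonneg_left (h1 e) (hw0 e)
      _ = 4 * ∑ e : V × V, w e.1 e.2 * R e := by
          rw [Finset.mul_sum]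
          exact Finset.sum_congr rfl fun e _ => by ring
      _ ≤ 4 * (CR * D) := mul_le_mul_of_nonneg_left hRs (by norm_num)
      _ = (4 * CR) * D := by ring
      _ ≤ C ^ 2 * D := by
          refine mul_le_mul_of_nonneg_right (le_trans ?_ hCsq) hD.le
          rw [hC]; linarith
  · -- `ℓ_{2p}`
    have h1 : ∀ e : V × V, nm (2 * p) (fun k : Fin (H + 2 * T) × ι =>
        (((2 : ℝ) ^ (2 * p - p)) ^ (k.1 : ℕ)) ^ (1 / (2 * p)) *
          PK K (bnd T H d v k.1) e k.2) ^ 2 ≤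
        (16 * 16 ^ T) * ((YY K d e ^ 2) ^ (1 - 2 / (2 * p)) * R e ^ (2 / (2 * p))) := by
      intro e
      rw [nm_sq (by positivity)]
      have h2 : ∑ k : Fin (H + 2 * T) × ι, |(((2 : ℝ) ^ (2 * p - p)) ^ (k.1 : ℕ)) ^ (1 / (2 * p)) *
          PK K (bnd T H d v k.1) e k.2| ^ (2 * p) ≤
          (2 * 4 ^ T * YY K d e) ^ (2 * p - 2) * (4 * R e) := by
        have h3 : ∀ k : Fin (H + 2 * T) × ι, |(((2 : ℝ) ^ (2 * p - p)) ^ (k.1 : ℕ)) ^
            (1 / (2 * p)) * PK K (bnd T H d v k.1) e k.2| ^ (2 * p) ≤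
            (2 * 4 ^ T * YY K d e) ^ (2 * p - 2) *
              ((α⁻¹) ^ (k.1 : ℕ) * PK K (bnd T H d v k.1) e k.2 ^ 2) := by
          rintro ⟨j, i⟩
          simp only
          have hsup := band_sup (H := H) hp0 hv hd hvd hT (j : ℕ) e i
          set E := PK K (bnd T H d v j) e i with hE
          have hq0 : (0 : ℝ) < ((2 : ℝ) ^ (2 * p - p)) ^ (j : ℕ) := by positivity
          rw [abs_mul, Real.mul_rpow (abs_nonneg _) (abs_nonneg _),
            abs_of_pos (Real.rpow_pos_of_pos hq0 _), ← Real.rpow_mul hq0.le]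
          have e1 : 1 / (2 * p) * (2 * p) = 1 := by field_simp
          rw [e1, Real.rpow_one]
          rcases eq_or_ne E 0 with h0 | h0
          · rw [h0, abs_zero, Real.zero_rpow (by positivity)]
            simp
          have hE0 : 0 < |E| := abs_pos.2 h0
          have e2 : |E| ^ (2 * p) = |E| ^ (2 * p - 2) * E ^ 2 := by
            rw [← sq_abs E, ← Real.rpow_natCast, ← Real.rpow_add hE0]
            congr 1
            push_cast; ring
          have e3 : |E| ^ (2 * p - 2) ≤ (2 * 4 ^ T * YY K d e) ^ (2 * p - 2) *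
              ((1 / 2 : ℝ) ^ (j : ℕ)) ^ (2 * p - 2) := by
            rw [← Real.mul_rpow (by have := hY0 e; positivity) (by positivity)]
            refine Real.rpow_le_rpow (abs_nonneg _) (hsup.trans (le_of_eq (by ring)))
              (by linarith)
          have e4 : ((2 : ℝ) ^ (2 * p - p)) ^ (j : ℕ) * ((1 / 2 : ℝ) ^ (j : ℕ)) ^ (2 * p - 2) =
              (α⁻¹) ^ (j : ℕ) := by
            have e5 : ((1 / 2 : ℝ) ^ (j : ℕ)) ^ (2 * p - 2) =
                ((2 : ℝ) ^ (-(2 * p - 2))) ^ (j : ℕ) := by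
              rw [← Real.rpow_natCast, ← Real.rpow_mul (by norm_num), mul_comm,
                Real.rpow_mul (by norm_num), Real.rpow_natCast, one_div,
                Real.inv_rpow (by norm_num), Real.rpow_neg (by norm_num)]
            rw [e5, ← mul_pow, ← Real.rpow_add (by norm_num), ← hω]
            congr 2
            ring
          calc ((2 : ℝ) ^ (2 * p - p)) ^ (j : ℕ) * |E| ^ (2 * p)
              = ((2 : ℝ) ^ (2 * p - p)) ^ (j : ℕ) * |E| ^ (2 * p - 2) * E ^ 2 := by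
                rw [e2]; ring
            _ ≤ ((2 : ℝ) ^ (2 * p - p)) ^ (j : ℕ) * ((2 * 4 ^ T * YY K d e) ^ (2 * p - 2) *
                ((1 / 2 : ℝ) ^ (j : ℕ)) ^ (2 * p - 2)) * E ^ 2 :=
                mul_le_mul_of_nonneg_right (mul_le_mul_of_nonneg_left e3 hq0.le) (sq_nonneg _)
            _ = (2 * 4 ^ T * YY K d e) ^ (2 * p - 2) * ((((2 : ℝ) ^ (2 * p - p)) ^ (j : ℕ) *
                ((1 / 2 : ℝ) ^ (j : ℕ)) ^ (2 * p - 2)) * E ^ 2) := by ring
            _ = _ := by rw [e4]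
        refine (Finset.sum_le_sum fun k _ => h3 k).trans ?_
        rw [← Finset.mul_sum]
        refine mul_le_mul_of_nonneg_left ?_ (Real.rpow_nonneg (by have := hY0 e; positivity) _)
        refine le_trans (le_of_eq ?_) (hcost2 e)
        simp_rw [Finset.mul_sum]
        rw [← sum_fin_prod fun j i => (α⁻¹) ^ j * PK K (bnd T H d v j) e i ^ 2]
      have h4 : 0 ≤ 2 * 4 ^ T * YY K d e := by have := hY0 e; positivity
      refine (Real.rpow_le_rpow (Finset.sum_nonneg fun k _ => Real.rpow_nonneg (abs_nonneg _) _)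
        h2 (by positivity)).trans ?_
      rw [Real.mul_rpow (Real.rpow_nonneg h4 _) (by have := hR0 e; positivity),
        ← Real.rpow_mul h4, Real.mul_rpow (by norm_num) (hR0 e)]
      have e1 : (2 * p - 2) * (2 / (2 * p)) = 2 * (1 - 2 / (2 * p)) := by field_simp
      rw [e1, Real.rpow_mul h4]
      have e2 : (2 * 4 ^ T * YY K d e) ^ (2 : ℝ) = (4 * 16 ^ T) * YY K d e ^ 2 := by
        rw [show (2 : ℝ) = ((2 : ℕ) : ℝ) by norm_num, Real.rpow_natCast, mul_pow, mul_pow,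
          ← pow_mul, mul_comm T 2, pow_mul]
        norm_num
      rw [e2, Real.mul_rpow (by positivity) (sq_nonneg _)]
      have hθ : 0 ≤ 1 - 2 / (2 * p) := by
        rw [sub_nonneg, div_le_one (by positivity)]; linarith
      have hθ' : 2 / (2 * p) ≤ 1 := by rw [div_le_one (by positivity)]; linarith
      have e3 : ((4 : ℝ) * 16 ^ T) ^ (1 - 2 / (2 * p)) ≤ 4 * 16 ^ T := by
        have h5 : (1 : ℝ) ≤ 4 * 16 ^ T := by
          have : (1 : ℝ) ≤ 16 ^ T := one_le_pow₀ (by norm_num)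
          linarith
        calc ((4 : ℝ) * 16 ^ T) ^ (1 - 2 / (2 * p)) ≤ (4 * 16 ^ T) ^ (1 : ℝ) :=
              Real.rpow_le_rpow_of_exponent_le h5 (by
                have : 0 ≤ 2 / (2 * p) := by positivity
                linarith)
          _ = _ := Real.rpow_one _
      have e4 : (4 : ℝ) ^ (2 / (2 * p)) ≤ 4 := by
        calc (4 : ℝ) ^ (2 / (2 * p)) ≤ 4 ^ (1 : ℝ) :=
              Real.rpow_le_rpow_of_exponent_le (by norm_num) hθ'
          _ = 4 := Real.rpow_one _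
      have h6 : 0 ≤ (YY K d e ^ 2) ^ (1 - 2 / (2 * p)) := Real.rpow_nonneg (sq_nonneg _) _
      have h7 : 0 ≤ R e ^ (2 / (2 * p)) := Real.rpow_nonneg (hR0 e) _
      calc ((4 : ℝ) * 16 ^ T) ^ (1 - 2 / (2 * p)) * (YY K d e ^ 2) ^ (1 - 2 / (2 * p)) *
            (4 ^ (2 / (2 * p)) * R e ^ (2 / (2 * p)))
          ≤ (4 * 16 ^ T) * (YY K d e ^ 2) ^ (1 - 2 / (2 * p)) * (4 * R e ^ (2 / (2 * p))) :=
            mul_le_mul (mul_le_mul_of_nonneg_right e3 h6) (mul_le_mul_of_nonneg_right e4 h7)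
              (by positivity) (by positivity)
        _ = _ := by ring
    have h2 := avg_cost (fun e : V × V => w e.1 e.2) hw0 (fun e => YY K d e) R _ hY0 hR0
      (by positivity : 0 ≤ 2 / (2 * p)) (by rw [div_le_one (by positivity)]; linarith)
      (by positivity) hA hD hCR0 h1 hYs hRs
    refine h2.trans ?_
    have h3 : (16 * 16 ^ T) * (4 ^ (1 - 2 / (2 * p)) * CR ^ (2 / (2 * p))) *
        (A ^ (1 - 2 / (2 * p))) ^ 2 * D = B₃ * 16 ^ T * (A ^ (1 - 2 / (2 * p))) ^ 2 * D := by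
      rw [hB₃]; ring
    rw [h3]
    refine mul_le_mul_of_nonneg_right ?_ hD.le
    have h4 : A ^ (1 - 2 / (2 * p)) ≤ A := by
      calc A ^ (1 - 2 / (2 * p)) ≤ A ^ (1 : ℝ) :=
            Real.rpow_le_rpow_of_exponent_le hA (by
              have : 0 ≤ 2 / (2 * p) := by positivity
              linarith)
        _ = A := Real.rpow_one _
    have h5 : (A ^ (1 - 2 / (2 * p))) ^ 2 ≤ A ^ 2 :=
      pow_le_pow_left₀ (by positivity) h4 2
    calc B₃ * 16 ^ T * (A ^ (1 - 2 / (2 * p))) ^ 2 ≤ C ^ 2 * 16 ^ T * A ^ 2 := by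
          refine mul_le_mul (mul_le_mul_of_nonneg_right (le_trans ?_ hCsq) (by positivity)) h5
            (by positivity) (by positivity)
          rw [hC]; linarith
      _ = _ := by
          rw [mul_pow, mul_pow, ← pow_mul, mul_comm T 2, pow_mul]
          norm_num

end

end Vale.Agent.P249.H75
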