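import Mathlib

/-!
# P249: tent functions, dyadic levels and scalar inequalities
-/

set_option linter.all false

open Filter Topology Set
open scoped BigOperators

namespace Vale.Agent.P249.H75

/-! ### geometric sums -/

theorem geo_up {β M : ℝ} (h0 : 0 < β) (h1 : β < 1) (S : Finset ℕ) (hM : 0 ≤ M)
    (hS : ∀ l ∈ S, β ^ l ≤ M) : ∑ l ∈ S, β ^ l ≤ M / (1 - β) := by
  have h2 : 0 < 1 - β := by linarith
  rcases S.eq_empty_or_nonempty with h | h
  · subst h; simp; positivity
  set l₀ := S.min' h with hl₀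
  have h3 : S ⊆ (Finset.range (S.max' h + 1 - l₀)).map (addRightEmbedding l₀) := by
    intro l hl
    have h4 := S.min'_le l hl
    have h5 := S.le_max' l hl
    simp only [Finset.mem_map, Finset.mem_range, addRightEmbedding_apply]
    exact ⟨l - l₀, by omega, by omega⟩
  calc ∑ l ∈ S, β ^ l ≤ ∑ l ∈ (Finset.range (S.max' h + 1 - l₀)).map (addRightEmbedding l₀), β ^ l :=
        Finset.sum_le_sum_of_subset_of_nonneg h3 fun _ _ _ => (pow_pos h0 _).le
    _ = β ^ l₀ * ∑ k ∈ Finset.range (S.max' h + 1 - l₀), β ^ k := by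
        rw [Finset.sum_map, Finset.mul_sum]
        refine Finset.sum_congr rfl fun k _ => ?_
        rw [addRightEmbedding_apply, pow_add, mul_comm]
    _ ≤ M * (1 / (1 - β)) := by
        refine mul_le_mul (hS _ (S.min'_mem h)) ?_
          (Finset.sum_nonneg fun _ _ => (pow_pos h0 _).le) hM
        rw [geom_sum_eq h1.ne, le_div_iff₀ h2]
        have h6 : (β ^ (S.max' h + 1 - l₀) - 1) / (β - 1) * (1 - β) =
            1 - β ^ (S.max' h + 1 - l₀) := by
          have : β - 1 ≠ 0 := by linarith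
          field_simp
          ring
        rw [h6]
        linarith [pow_pos h0 (S.max' h + 1 - l₀)]
    _ = M / (1 - β) := by ring

theorem geo_down {α M : ℝ} (h1 : 1 < α) (S : Finset ℕ) (hM : 0 ≤ M)
    (hS : ∀ l ∈ S, α ^ l ≤ M) : ∑ l ∈ S, α ^ l ≤ M / (1 - α⁻¹) := by
  have h0 : 0 < α := by linarith
  have hb0 : 0 < α⁻¹ := inv_pos.2 h0
  have hb1 : α⁻¹ < 1 := inv_lt_one_of_one_lt₀ h1
  have h2 : 0 < 1 - α⁻¹ := by linarith
  rcases S.eq_empty_or_nonempty with h | h
  · subst h; simp; positivity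
  set l₁ := S.max' h with hl₁
  have h3 : ∀ l ∈ S, α ^ l = α ^ l₁ * (α⁻¹) ^ (l₁ - l) := by
    intro l hl
    have h5 := S.le_max' l hl
    have h6 : l₁ = (l₁ - l) + l := by omega
    have h7 : α ^ l₁ = α ^ (l₁ - l) * α ^ l := by rw [← pow_add, ← h6]
    rw [h7, inv_pow]
    have : α ^ (l₁ - l) ≠ 0 := (pow_pos h0 _).ne'
    field_simp
  have h4 : ∑ l ∈ S, (α⁻¹) ^ (l₁ - l) = ∑ k ∈ S.image fun l => l₁ - l, (α⁻¹) ^ k := by
    rw [Finset.sum_image]
    intro a ha b hb hab
    have h5 := S.le_max' a ha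
    have h6 := S.le_max' b hb
    simp only at hab
    omega
  have h5 : ∑ k ∈ S.image fun l => l₁ - l, (α⁻¹) ^ k ≤ 1 / (1 - α⁻¹) :=
    geo_up hb0 hb1 _ zero_le_one fun l _ => pow_le_one₀ hb0.le hb1.le
  calc ∑ l ∈ S, α ^ l = α ^ l₁ * ∑ l ∈ S, (α⁻¹) ^ (l₁ - l) := by
        rw [Finset.mul_sum]
        exact Finset.sum_congr rfl h3
    _ ≤ M * (1 / (1 - α⁻¹)) := by
        rw [h4]
        exact mul_le_mul (hS _ (S.max'_mem h)) h5
          (Finset.sum_nonneg fun _ _ => (pow_pos hb0 _).le) hM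
    _ = M / (1 - α⁻¹) := by ring

/-! ### tents -/

/-- the tent function of width `T` -/
noncomputable def tent (T : ℕ) (x : ℝ) : ℝ := max 0 (1 - |x| / T)

theorem tent_nonneg (T : ℕ) (x : ℝ) : 0 ≤ tent T x := le_max_left _ _

theorem tent_le_one (T : ℕ) (x : ℝ) : tent T x ≤ 1 := by
  refine max_le zero_le_one ?_
  have : 0 ≤ |x| / T := by positivity
  linarith

theorem tent_eq_zero {T : ℕ} (hT : 0 < T) {x : ℝ} (hx : (T : ℝ) ≤ |x|) : tent T x = 0 := by
  have hT0 : (0 : ℝ) < T := by exact_mod_cast hT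
  refine max_eq_left ?_
  have : 1 ≤ |x| / T := by rw [le_div_iff₀ hT0]; linarith
  linarith

theorem tent_lip {T : ℕ} (x y : ℝ) : |tent T x - tent T y| ≤ |x - y| / T := by
  rcases Nat.eq_zero_or_pos T with h | hT
  · subst h; simp [tent]
  have hT0 : (0 : ℝ) < T := by exact_mod_cast hT
  have h1 : |tent T x - tent T y| ≤ |(1 - |x| / T) - (1 - |y| / T)| := by
    have := abs_max_sub_max_le_abs (1 - |x| / (T : ℝ)) (1 - |y| / T) 0
    unfold tent
    rwa [max_comm, max_comm (1 - |y| / (T : ℝ))] at this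
  refine h1.trans ?_
  have h2 : (1 - |x| / (T : ℝ)) - (1 - |y| / T) = (|y| - |x|) / T := by ring
  rw [h2, abs_div, abs_of_pos hT0]
  refine div_le_div_of_nonneg_right ?_ hT0.le
  rw [abs_sub_comm x y]
  exact abs_abs_sub_abs_le_abs_sub y x

/-- the band function: `j` is the index of the band, `k` is the level -/
noncomputable def psi (T j k : ℕ) : ℝ := tent T ((k : ℝ) + T - j)

theorem psi_nonneg (T j k : ℕ) : 0 ≤ psi T j k := tent_nonneg _ _

theorem psi_le_one (T j k : ℕ) : psi T j k ≤ 1 := tent_le_one _ _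

theorem psi_eq_zero {T j k : ℕ} (hT : 0 < T) (h : j ≤ k ∨ k + 2 * T ≤ j) : psi T j k = 0 := by
  refine tent_eq_zero hT ?_
  rcases h with h | h
  · have : (j : ℝ) ≤ k := by exact_mod_cast h
    rw [le_abs]; left; linarith
  · have : (k : ℝ) + 2 * T ≤ j := by exact_mod_cast h
    rw [le_abs]; right; linarith

theorem psi_ne {T j k : ℕ} (hT : 0 < T) (h : psi T j k ≠ 0) : k < j ∧ j < k + 2 * T := by
  by_contra hcon
  refine h (psi_eq_zero hT ?_)
  omega

/-- increments of the band functions -/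
noncomputable def inc (T j l : ℕ) : ℝ := psi T j (l + 1) - psi T j l

theorem abs_inc_le (T j l : ℕ) : |inc T j l| ≤ 1 / T := by
  unfold inc psi
  refine (tent_lip _ _).trans ?_
  push_cast
  have : (l : ℝ) + 1 + T - j - (l + T - j) = 1 := by ring
  rw [this, abs_one]

theorem inc_eq_zero {T j l : ℕ} (hT : 0 < T) (h : j ≤ l ∨ l + 1 + 2 * T ≤ j) : inc T j l = 0 := by
  unfold inc
  rw [psi_eq_zero hT (by omega), psi_eq_zero hT (by omega), sub_zero]

theorem inc_ne {T j l : ℕ} (hT : 0 < T) (h : inc T j l ≠ 0) : l < j ∧ j ≤ l + 2 * T := by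
  by_contra hcon
  refine h (inc_eq_zero hT ?_)
  omega

theorem psi_eq (T j : ℕ) {k H : ℕ} (hk : k ≤ H) :
    psi T j k = psi T j 0 + ∑ l ∈ Finset.range H, if l + 1 ≤ k then inc T j l else 0 := by
  have h1 : ∑ l ∈ Finset.range H, (if l + 1 ≤ k then inc T j l else 0) =
      ∑ l ∈ Finset.range k, inc T j l := by
    rw [← Finset.sum_filter]
    refine Finset.sum_congr ?_ fun _ _ => rfl
    ext l
    simp only [Finset.mem_filter, Finset.mem_range]
    omega
  rw [h1]
  have h2 := Finset.sum_range_sub (fun l => psi T j l) k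
  unfold inc
  rw [h2]; ring

/-- number of bands seen by an increment -/
theorem sum_inc_j {T : ℕ} (hT : 0 < T) (J l : ℕ) :
    ∑ j ∈ Finset.range J, (if inc T j l ≠ 0 then (1 : ℝ) else 0) ≤ 2 * T := by
  rw [Finset.sum_boole]
  have h1 : (Finset.range J).filter (fun j => inc T j l ≠ 0) ⊆ Finset.Ioc l (l + 2 * T) := by
    intro j hj
    rw [Finset.mem_filter] at hj
    have := inc_ne hT hj.2
    rw [Finset.mem_Ioc]
    exact this
  have h2 := Finset.card_le_card h1
  rw [Nat.card_Ioc] at h2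
  have h3 : ((Finset.range J).filter (fun j => inc T j l ≠ 0)).card ≤ 2 * T := by omega
  exact_mod_cast h3

theorem sum_inc_l {T : ℕ} (hT : 0 < T) (H j : ℕ) :
    ∑ l ∈ Finset.range H, (if inc T j l ≠ 0 then (1 : ℝ) else 0) ≤ 2 * T := by
  rw [Finset.sum_boole]
  have h1 : (Finset.range H).filter (fun l => inc T j l ≠ 0) ⊆ Finset.Ico (j - 2 * T) j := by
    intro l hl
    rw [Finset.mem_filter] at hl
    have := inc_ne hT hl.2
    rw [Finset.mem_Ico]
    omega
  have h2 := Finset.card_le_card h1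
  rw [Nat.card_Ico] at h2
  have h3 : ((Finset.range H).filter (fun l => inc T j l ≠ 0)).card ≤ 2 * T := by omega
  exact_mod_cast h3

/-- the normalising constant -/
noncomputable def cT (p : ℝ) (T : ℕ) : ℝ := ∑ m ∈ Finset.range (2 * T), tent T ((T : ℝ) - m) ^ p

theorem sum_psi {p : ℝ} (hp : 0 < p) {T : ℕ} (hT : 0 < T) {k H : ℕ} (hk : k ≤ H) :
    ∑ j ∈ Finset.range (H + 2 * T), psi T j k ^ p = cT p T := by
  have h1 : (Finset.range (2 * T)).map (addLeftEmbedding k) ⊆ Finset.range (H + 2 * T) := by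
    intro j hj
    simp only [Finset.mem_map, Finset.mem_range, addLeftEmbedding_apply] at hj ⊢
    obtain ⟨m, hm, rfl⟩ := hj
    omega
  rw [← Finset.sum_subset h1]
  · rw [Finset.sum_map, cT]
    refine Finset.sum_congr rfl fun m _ => ?_
    simp only [addLeftEmbedding_apply, psi]
    push_cast
    congr 2
    ring
  · intro j _ hj2
    have h2 : psi T j k = 0 := by
      refine psi_eq_zero hT ?_
      by_contra hcon
      push Not at hcon
      refine hj2 ?_
      simp only [Finset.mem_map, Finset.mem_range, addLeftEmbedding_apply]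
      exact ⟨j - k, by omega, by omega⟩
    rw [h2, Real.zero_rpow hp.ne']

theorem cT_ge {p : ℝ} (hp : 0 < p) {T : ℕ} (hT : 0 < T) : (1 / 2) ^ p * T ≤ cT p T := by
  have hT0 : (0 : ℝ) < T := by exact_mod_cast hT
  -- the indices with `|m - T| ≤ T / 2`
  set S : Finset ℕ := Finset.Ico (T - T / 2) (T - T / 2 + T) with hS
  have h1 : S ⊆ Finset.range (2 * T) := by
    intro m hm
    rw [hS, Finset.mem_Ico] at hm
    rw [Finset.mem_range]
    omega
  have h2 : ∀ m ∈ S, (1 / 2 : ℝ) ^ p ≤ tent T ((T : ℝ) - m) ^ p := by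
    intro m hm
    rw [hS, Finset.mem_Ico] at hm
    refine Real.rpow_le_rpow (by norm_num) ?_ hp.le
    refine le_trans ?_ (le_max_right _ _)
    have h3 : |(T : ℝ) - m| ≤ T / 2 := by
      rw [abs_le]
      have h4 : T ≤ 2 * m + 0 ∨ T ≤ 2 * m := by omega
      have h5 : 2 * m ≤ 3 * T := by omega
      have h6 : (T : ℝ) ≤ 2 * m := by exact_mod_cast (by omega : T ≤ 2 * m)
      have h7 : (2 : ℝ) * m ≤ 3 * T := by exact_mod_cast h5
      constructor <;> linarith
    have h4 : |(T : ℝ) - m| / T ≤ 1 / 2 := by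
      rw [div_le_iff₀ hT0]; linarith
    linarith
  calc (1 / 2 : ℝ) ^ p * T = ∑ m ∈ S, (1 / 2 : ℝ) ^ p := by
        rw [Finset.sum_const, hS, Nat.card_Ico, nsmul_eq_mul]
        rw [mul_comm]
        congr 2
        omega
    _ ≤ ∑ m ∈ S, tent T ((T : ℝ) - m) ^ p := Finset.sum_le_sum h2
    _ ≤ cT p T := Finset.sum_le_sum_of_subset_of_nonneg h1 fun m _ _ =>
        Real.rpow_nonneg (tent_nonneg _ _) _

theorem cT_le {p : ℝ} (hp : 0 < p) (T : ℕ) : cT p T ≤ 2 * T := by
  calc cT p T ≤ ∑ m ∈ Finset.range (2 * T), (1 : ℝ) :=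
        Finset.sum_le_sum fun m _ => Real.rpow_le_one (tent_nonneg _ _) (tent_le_one _ _) hp.le
    _ = 2 * T := by simp

/-! ### levels -/

open Classical in
/-- the dyadic level of `v` relative to `d`, capped at `H` -/
noncomputable def lev (d v : ℝ) (H : ℕ) : ℕ := Nat.findGreatest (fun l => |v| ≤ (1 / 2) ^ l * d) H

theorem lev_le (d v : ℝ) (H : ℕ) : lev d v H ≤ H := Nat.findGreatest_le _

theorem le_lev_iff {d v : ℝ} (hv : |v| ≤ d) {H l : ℕ} (hl : l ≤ H) :
    l ≤ lev d v H ↔ |v| ≤ (1 / 2) ^ l * d := by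
  classical
  have hd : 0 ≤ d := (abs_nonneg v).trans hv
  constructor
  · intro h
    have h1 : |v| ≤ (1 / 2) ^ (lev d v H) * d := by
      unfold lev
      exact Nat.findGreatest_spec (P := fun l => |v| ≤ (1 / 2) ^ l * d) (Nat.zero_le H)
        (by simpa using hv)
    refine h1.trans (mul_le_mul_of_nonneg_right ?_ hd)
    exact pow_le_pow_of_le_one (by norm_num) (by norm_num) h
  · intro h
    exact Nat.le_findGreatest hl h

end Vale.Agent.P249.H75
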